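import Vale.Agent.P012.Fourier

/-!
Averaging over random multipliers: some multiples of sums of elements cover all residues.
-/

namespace Vale.Agent.P012

open Finset

/-- The proportion of pairs of tuples whose difference satisfies `P`. -/
noncomputable def prob (A : Finset ℕ) (p : ℕ) (P : ℤ → Prop) [DecidablePred P] : ℝ :=
  (((Tup A p).filter fun s => P (zd s)).card : ℝ) / (Tup A p).card

lemma prob_nonneg (A : Finset ℕ) (p : ℕ) (P : ℤ → Prop) [DecidablePred P] : 0 ≤ prob A p P :=
  div_nonneg (Nat.cast_nonneg _) (Nat.cast_nonneg _)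

lemma prob_le_one (A : Finset ℕ) (p : ℕ) (P : ℤ → Prop) [DecidablePred P] : prob A p P ≤ 1 :=
  div_le_one_of_le₀ (Nat.cast_le.2 (Finset.card_filter_le _ _)) (Nat.cast_nonneg _)

variable {κ : Type*} [Fintype κ] [DecidableEq κ]

lemma card_Icc_spaced (Q d : ℕ) (hd : 0 < d) (P : ℕ → Prop) [DecidablePred P]
    (h : ∀ t t', P t → P t' → (d : ℤ) ∣ (t : ℤ) - t') :
    ((Finset.Icc 1 Q).filter P).card ≤ Q / d + 1 := by
  rw [← Finset.card_range (Q / d + 1)]
  refine Finset.card_le_card_of_injOn (fun t => (t - 1) / d) ?_ ?_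
  · intro t ht
    simp only [Finset.coe_filter, Finset.mem_Icc, Set.mem_setOf_eq] at ht
    simp only [Finset.mem_coe, Finset.mem_range]
    have : (t - 1) / d ≤ Q / d := Nat.div_le_div_right (by omega)
    omega
  · intro t ht t' ht' he
    simp only [Finset.coe_filter, Finset.mem_Icc, Set.mem_setOf_eq] at ht ht'
    simp only at he
    have h1 := Nat.div_add_mod (t - 1) d
    have h2 := Nat.div_add_mod (t' - 1) d
    rw [he] at h1
    have h3 := Nat.mod_lt (t - 1) hd
    have h4 := Nat.mod_lt (t' - 1) hd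
    have h5 : (t : ℤ) - t' = 0 := by
      refine Int.eq_zero_of_abs_lt_dvd (h t t' ht.2 ht'.2) ?_
      rw [abs_lt]
      omega
    omega

/-- Few multipliers give a linear form a prescribed value. -/
lemma card_linear_eq_le (z : κ → ℤ) (Q : κ → ℕ) {i0 : κ} (hz : z i0 ≠ 0) (hQ0 : 0 < Q i0)
    (hQ : ∀ k, Fintype.card κ * (z i0).natAbs ≤ Q k) (val : ℤ) :
    (((Fintype.piFinset fun i => Finset.Icc 1 (Q i)).filter
        fun R => ∑ i, (R i : ℤ) * z i = val).card : ℝ) * ((Q i0 : ℝ) * (z i0).natAbs)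
      ≤ 3 * (∏ i, (Q i : ℝ)) * (Finset.univ.gcd fun i => (z i).natAbs : ℕ) := by
  classical
  set J := Fintype.card κ with hJ
  have hJ0 : 0 < J := Fintype.card_pos_iff.2 ⟨i0⟩
  set c : ℝ := 1 + 1 / (J : ℝ) with hc
  set box : Finset κ → Finset (κ → ℕ) :=
    fun s => Fintype.piFinset fun i => if i ∈ s then Finset.Icc 1 (Q i) else {1} with hbox
  have key : ∀ s : Finset κ, i0 ∉ s → ∀ v : ℤ,
      (((box (insert i0 s)).filter fun R => ∑ i ∈ insert i0 s, (R i : ℤ) * z i = v).card : ℝ)
          * ((Q i0 : ℝ) * (z i0).natAbs)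
        ≤ c ^ s.card * (∏ i ∈ insert i0 s, (Q i : ℝ))
          * ((insert i0 s).gcd fun i => (z i).natAbs : ℕ) := by
    intro s
    induction s using Finset.induction_on with
    | empty =>
      intro _ v
      simp only [insert_empty_eq, Finset.sum_singleton, Finset.prod_singleton,
        Finset.gcd_singleton, normalize_eq, Finset.card_empty, pow_zero, one_mul]
      refine mul_le_of_le_one_left (by positivity) ?_
      rw [Nat.cast_le_one, Finset.card_le_one]
      intro R hR R' hR'
      simp only [hbox, Finset.mem_filter, Fintype.mem_piFinset, Finset.mem_singleton] at hR hR'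
      funext i
      by_cases hi : i = i0
      · subst hi
        have := mul_right_cancel₀ hz (hR.2.trans hR'.2.symm)
        exact_mod_cast this
      · have a := hR.1 i
        have b := hR'.1 i
        rw [if_neg hi, Finset.mem_singleton] at a b
        rw [a, b]
    | insert k s hks ih =>
      intro hi0 v
      rw [Finset.mem_insert, not_or] at hi0
      obtain ⟨hik, hi0s⟩ := hi0
      rw [Finset.insert_comm]
      set t := insert i0 s with ht
      have hkt : k ∉ t := by simp [ht, hks, Ne.symm hik]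
      set gs : ℕ := t.gcd fun i => (z i).natAbs with hgs
      set g' : ℕ := (insert k t).gcd (fun i => (z i).natAbs) with hg'
      have hgcd : g' = Nat.gcd (z k).natAbs gs := by
        rw [hg', Finset.gcd_insert, ← hgs, gcd_eq_nat_gcd]
      have hgsdvd : ∀ i ∈ t, gs ∣ (z i).natAbs := fun i hi => Finset.gcd_dvd hi
      have hgspos : 0 < gs := Nat.pos_of_ne_zero fun h => by
        have := hgsdvd i0 (by simp [ht])
        rw [h, zero_dvd_iff, Int.natAbs_eq_zero] at this
        exact hz this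
      have hgsle : gs ≤ (z i0).natAbs :=
        Nat.le_of_dvd (Int.natAbs_pos.2 hz) (hgsdvd i0 (by simp [ht]))
      have hg'dvd : g' ∣ gs := hgcd ▸ Nat.gcd_dvd_right _ _
      have hg'pos : 0 < g' := Nat.pos_of_dvd_of_pos hg'dvd hgspos
      set d := gs / g' with hd
      have hdpos : 0 < d := Nat.div_pos (Nat.le_of_dvd hgspos hg'dvd) hg'pos
      set P : ℕ → Prop := fun a => (gs : ℤ) ∣ v - (a : ℤ) * z k with hP
      have hspaced : ∀ a a', P a → P a' → (d : ℤ) ∣ (a : ℤ) - a' := by
        intro a a' h1 h2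
        have h3 : (gs : ℤ) ∣ ((a : ℤ) - a') * z k := by
          have h5 := dvd_sub h2 h1
          rwa [show (v - (a' : ℤ) * z k) - (v - (a : ℤ) * z k) = ((a : ℤ) - a') * z k by ring] at h5
        rw [Int.natCast_dvd, Int.natAbs_mul] at h3
        rw [Int.natCast_dvd]
        have h4 : gs ∣ ((a : ℤ) - a').natAbs * g' := by
          rw [hgcd, ← Nat.gcd_mul_left]
          exact Nat.dvd_gcd h3 (dvd_mul_left _ _)
        rw [hd]
        exact (Nat.div_dvd_iff_dvd_mul hg'dvd (by omega)).2 (by rwa [mul_comm])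
      set Vs := (Finset.Icc 1 (Q k)).filter P with hVs
      have hfib : ∀ a ∈ Vs, (((box (insert k t)).filter
            fun R => ∑ i ∈ insert k t, (R i : ℤ) * z i = v).filter fun R => R k = a).card
          ≤ ((box t).filter fun R => ∑ i ∈ t, (R i : ℤ) * z i = v - (a : ℤ) * z k).card := by
        intro a _
        refine Finset.card_le_card_of_injOn (fun R => Function.update R k 1) ?_ ?_
        · intro R hR
          simp only [hbox, Finset.coe_filter, Set.mem_setOf_eq, Finset.mem_filter,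
            Fintype.mem_piFinset] at hR ⊢
          obtain ⟨⟨h1, h2⟩, h3⟩ := hR
          refine ⟨fun i => ?_, ?_⟩
          · by_cases hi : i = k
            · subst hi
              rw [if_neg hkt, Function.update_self]
              simp
            · rw [Function.update_of_ne hi]
              have := h1 i
              simpa [Finset.mem_insert, hi] using this
          · rw [Finset.sum_insert hkt, h3] at h2
            rw [← h2, add_sub_cancel_left]
            refine Finset.sum_congr rfl fun i hi => ?_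
            rw [Function.update_of_ne (fun h : i = k => hkt (h ▸ hi))]
        · intro R hR R' hR' he
          simp only [Finset.coe_filter, Set.mem_setOf_eq] at hR hR'
          funext i
          by_cases hi : i = k
          · rw [hi, hR.2, hR'.2]
          · have := congrFun he i
            simpa [Function.update_of_ne hi] using this
      have hmaps : ∀ R ∈ (box (insert k t)).filter
          (fun R => ∑ i ∈ insert k t, (R i : ℤ) * z i = v), R k ∈ Vs := by
        intro R hR
        simp only [hbox, Finset.mem_filter, Fintype.mem_piFinset] at hR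
        have h1 := hR.1 k
        rw [if_pos (Finset.mem_insert_self _ _)] at h1
        refine Finset.mem_filter.2 ⟨h1, ?_⟩
        simp only [hP]
        rw [← hR.2, Finset.sum_insert hkt, add_sub_cancel_left]
        refine Finset.dvd_sum fun i hi => Dvd.dvd.mul_left ?_ _
        exact Int.natCast_dvd.2 (hgsdvd i hi)
      rw [Finset.card_eq_sum_card_fiberwise hmaps]
      push_cast
      rw [Finset.sum_mul]
      refine (Finset.sum_le_sum fun a ha => (mul_le_mul_of_nonneg_right
        (Nat.cast_le.2 (hfib a ha)) (by positivity)).trans (ih hi0s _)).trans ?_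
      rw [Finset.sum_const, nsmul_eq_mul, Finset.card_insert_of_notMem hks, pow_succ,
        Finset.prod_insert hkt]
      have hVc : (Vs.card : ℝ) * gs ≤ (Q k : ℝ) * c * g' := by
        have h1 := card_Icc_spaced (Q k) d hdpos P hspaced
        rw [← hVs] at h1
        have h2 : (Vs.card : ℝ) ≤ (Q k : ℝ) / d + 1 :=
          (Nat.cast_le.2 h1).trans (by push_cast; gcongr; exact Nat.cast_div_le)
        have h3 : (gs : ℝ) = (d : ℝ) * g' := by rw [← Nat.cast_mul, hd, Nat.div_mul_cancel hg'dvd]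
        have h4 : (J : ℝ) * d ≤ Q k := by
          exact_mod_cast le_trans (Nat.mul_le_mul_left J ((Nat.div_le_self _ _).trans hgsle)) (hQ k)
        calc (Vs.card : ℝ) * gs ≤ ((Q k : ℝ) / d + 1) * gs := by gcongr
          _ = ((Q k : ℝ) + d) * g' := by rw [h3]; field_simp
          _ ≤ (Q k : ℝ) * c * g' := by
              refine mul_le_mul_of_nonneg_right ?_ (by positivity)
              rw [hc, mul_add, mul_one, mul_one_div, add_le_add_iff_left,
                le_div_iff₀ (by positivity)]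
              linarith
      calc (Vs.card : ℝ) * (c ^ s.card * (∏ i ∈ t, (Q i : ℝ)) * gs)
          = c ^ s.card * (∏ i ∈ t, (Q i : ℝ)) * ((Vs.card : ℝ) * gs) := by ring
        _ ≤ c ^ s.card * (∏ i ∈ t, (Q i : ℝ)) * ((Q k : ℝ) * c * g') := by
            refine mul_le_mul_of_nonneg_left hVc ?_
            positivity
        _ = _ := by ring
  have h := key (Finset.univ.erase i0) (Finset.notMem_erase _ _) val
  rw [Finset.insert_erase (Finset.mem_univ i0)] at h
  have hb : box Finset.univ = Fintype.piFinset fun i => Finset.Icc 1 (Q i) := by simp [hbox]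
  rw [hb] at h
  refine h.trans (mul_le_mul_of_nonneg_right (mul_le_mul_of_nonneg_right ?_ (by positivity))
    (by positivity))
  have hc1 : 1 ≤ c := le_add_of_nonneg_right (by positivity)
  refine (pow_le_pow_right₀ hc1 (Finset.card_le_univ _)).trans ?_
  refine (pow_le_pow_left₀ (by positivity) (?_ : c ≤ Real.exp (1 / (J : ℝ))) _).trans ?_
  · rw [hc, add_comm]; exact Real.add_one_le_exp _
  · rw [← Real.exp_nat_mul, ← hJ, mul_one_div, div_self (by exact_mod_cast hJ0.ne')]
    exact Real.exp_one_lt_three.le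

/-- Few multipliers make a linear form divisible by `m`. -/
lemma card_linear_dvd_le (z : κ → ℤ) (Q : κ → ℕ) {m : ℕ} (hm : 0 < m) {i0 : κ} (hz : z i0 ≠ 0)
    (hQpos : 0 < Q i0) (hmax : ∀ i, Q i * (z i).natAbs ≤ Q i0 * (z i0).natAbs)
    (hQ : ∀ k, Fintype.card κ * (z i0).natAbs ≤ Q k) :
    (m : ℝ) * (((Fintype.piFinset fun i => Finset.Icc 1 (Q i)).filter
        fun R => (m : ℤ) ∣ ∑ i, (R i : ℤ) * z i).card : ℝ)
      ≤ 3 * (∏ i, (Q i : ℝ)) * (Finset.univ.gcd fun i => (z i).natAbs : ℕ)
          * (2 * Fintype.card κ + (m : ℝ) / ((Q i0 : ℝ) * (z i0).natAbs)) := by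
  classical
  set g : ℕ := Finset.univ.gcd fun i => (z i).natAbs
  set b : ℕ := Q i0 * (z i0).natAbs with hb
  have hb0 : 0 < b := Nat.mul_pos hQpos (Int.natAbs_pos.2 hz)
  set B : ℕ := Fintype.card κ * b with hB
  set V : Finset ℤ := (Finset.Icc (-((B / m : ℕ) : ℤ)) ((B / m : ℕ) : ℤ)).image
    (fun j => (m : ℤ) * j) with hV
  set bx := Fintype.piFinset fun i => Finset.Icc 1 (Q i) with hbx
  have hmaps : ∀ R ∈ bx.filter (fun R => (m : ℤ) ∣ ∑ i, (R i : ℤ) * z i),
      ∑ i, (R i : ℤ) * z i ∈ V := by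
    intro R hR
    rw [Finset.mem_filter, hbx, Fintype.mem_piFinset] at hR
    obtain ⟨h1, j, hj⟩ := hR
    have h2 : |∑ i, (R i : ℤ) * z i| ≤ (B : ℤ) := by
      refine (Finset.abs_sum_le_sum_abs _ _).trans ?_
      rw [hB, Nat.cast_mul]
      refine (Finset.sum_le_card_nsmul _ _ (b : ℤ) fun i _ => ?_).trans (le_of_eq (by simp))
      rw [abs_mul, Nat.abs_cast, Int.abs_eq_natAbs]
      exact_mod_cast (Nat.mul_le_mul_right _ (Finset.mem_Icc.1 (h1 i)).2).trans (hmax i)
    rw [hj, abs_mul, Nat.abs_cast, Int.abs_eq_natAbs] at h2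
    have h3 : j.natAbs ≤ B / m := by
      rw [Nat.le_div_iff_mul_le hm, mul_comm]
      exact_mod_cast h2
    rw [hj, hV, Finset.mem_image]
    exact ⟨j, Finset.mem_Icc.2 ⟨by omega, by omega⟩, rfl⟩
  rw [Finset.card_eq_sum_card_fiberwise hmaps]
  push_cast
  rw [Finset.mul_sum]
  refine (Finset.sum_le_sum fun v _ => ?_ :
    _ ≤ ∑ _v ∈ V, (m : ℝ) * (3 * (∏ i, (Q i : ℝ)) * g / b)).trans ?_
  · refine mul_le_mul_of_nonneg_left ?_ (by positivity)
    rw [le_div_iff₀ (by exact_mod_cast hb0)]
    refine le_trans ?_ (card_linear_eq_le z Q hz hQpos hQ v)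
    rw [hb, Nat.cast_mul]
    refine mul_le_mul_of_nonneg_right (Nat.cast_le.2 (Finset.card_le_card ?_)) (by positivity)
    intro R hR
    simp only [Finset.mem_filter] at hR ⊢
    exact ⟨hR.1.1, hR.2⟩
  · rw [Finset.sum_const, nsmul_eq_mul]
    have hVc : (V.card : ℝ) ≤ 2 * ((B : ℝ) / m) + 1 := by
      have h1 : V.card ≤ 2 * (B / m) + 1 := by
        refine Finset.card_image_le.trans ?_
        rw [Int.card_Icc]
        omega
      refine (Nat.cast_le.2 h1).trans ?_
      push_cast
      gcongr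
      exact Nat.cast_div_le
    refine (mul_le_mul_of_nonneg_right hVc (by positivity)).trans (le_of_eq ?_)
    have hbR : (b : ℝ) = (Q i0 : ℝ) * (z i0).natAbs := by rw [hb, Nat.cast_mul]
    rw [← hbR, hB, Nat.cast_mul]
    field_simp

lemma sum_one_div_sq_le (D : ℕ) : ∑ d ∈ Finset.Icc 1 D, (1 : ℝ) / (d : ℝ) ^ 2 ≤ 2 := by
  have h : ∀ D : ℕ, 1 ≤ D → ∑ d ∈ Finset.Icc 1 D, (1 : ℝ) / (d : ℝ) ^ 2 ≤ 2 - 1 / D := by
    intro D hD
    induction D, hD using Nat.le_induction with
    | base => norm_num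
    | succ D hD ih =>
      rw [Finset.sum_Icc_succ_top (by omega)]
      have hD' : (0 : ℝ) < D := by exact_mod_cast hD
      have h1 : (1 : ℝ) / ((D + 1 : ℕ) : ℝ) ^ 2 ≤ 1 / D - 1 / ((D + 1 : ℕ) : ℝ) := by
        push_cast
        rw [div_sub_div _ _ hD'.ne' (by positivity), div_le_div_iff₀ (by positivity) (by positivity)]
        nlinarith
      linarith
  rcases Nat.eq_zero_or_pos D with rfl | hD
  · simp
  · refine (h D hD).trans ?_
    have : (0 : ℝ) ≤ 1 / (D : ℝ) := by positivity
    linarith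

/-- A weighted majorant of the number of solutions. -/
lemma solution_weight_le (z : κ → ℤ) (Q : κ → ℕ) {m N0 D : ℕ} (hm : 0 < m) (hmN : m ≤ 2 * N0)
    (hD1 : ∀ i, (z i).natAbs ≤ D) (hD2 : ∀ i, N0 ≤ D * Q i) (hQpos : ∀ i, 0 < Q i)
    (hQ : ∀ i k, Fintype.card κ * (z i).natAbs ≤ Q k) :
    (m : ℝ) * (((Fintype.piFinset fun i => Finset.Icc 1 (Q i)).filter
        fun R => (m : ℤ) ∣ ∑ i, (R i : ℤ) * z i).card : ℝ)
      ≤ (∏ i, (Q i : ℝ)) * ((if ∀ i, z i = 0 then (m : ℝ) else 0)
          + 6 * ((Fintype.card κ : ℝ) + 1) ^ 2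
          + ∑ d ∈ Finset.Icc 1 D, 9 * (d : ℝ) ^ 2 *
              ((if ∀ i, (d : ℤ) ∣ z i then 1 else 0)
                + (if ∀ i, d * (Q i * (z i).natAbs) ≤ N0 then 1 else 0))) := by
  classical
  have hboxcard : (((Fintype.piFinset fun i => Finset.Icc 1 (Q i)).card : ℕ) : ℝ)
      = ∏ i, (Q i : ℝ) := by simp
  set P := ∏ i, (Q i : ℝ) with hP
  have hP0 : 0 ≤ P := by positivity
  set S := ∑ d ∈ Finset.Icc 1 D, 9 * (d : ℝ) ^ 2 *
              ((if ∀ i, (d : ℤ) ∣ z i then (1 : ℝ) else 0)
                + (if ∀ i, d * (Q i * (z i).natAbs) ≤ N0 then (1 : ℝ) else 0)) with hS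
  have hnn : ∀ d : ℕ, (0 : ℝ) ≤ 9 * (d : ℝ) ^ 2 *
              ((if ∀ i, (d : ℤ) ∣ z i then (1 : ℝ) else 0)
                + (if ∀ i, d * (Q i * (z i).natAbs) ≤ N0 then (1 : ℝ) else 0)) := by
    intro d
    refine mul_nonneg (by positivity) (add_nonneg ?_ ?_) <;> split_ifs <;> norm_num
  have hS0 : 0 ≤ S := Finset.sum_nonneg fun d _ => hnn d
  by_cases h0 : ∀ i, z i = 0
  · rw [if_pos h0]
    calc _ ≤ (m : ℝ) * P := by
          rw [← hboxcard]
          gcongr
          exact Finset.filter_subset _ _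
      _ ≤ _ := by
          rw [mul_comm]
          refine mul_le_mul_of_nonneg_left ?_ hP0
          have : (0 : ℝ) ≤ 6 * ((Fintype.card κ : ℝ) + 1) ^ 2 := by positivity
          linarith
  rw [if_neg h0, zero_add]
  push Not at h0
  obtain ⟨i1, hi1⟩ := h0
  obtain ⟨i0, -, hmax⟩ := Finset.exists_max_image Finset.univ (fun i => Q i * (z i).natAbs)
    ⟨i1, Finset.mem_univ _⟩
  have hb0 : 0 < Q i0 * (z i0).natAbs :=
    (Nat.mul_pos (hQpos i1) (Int.natAbs_pos.2 hi1)).trans_le (hmax i1 (Finset.mem_univ _))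
  have hz : z i0 ≠ 0 := fun h => by simp [h] at hb0
  refine (card_linear_dvd_le z Q hm hz (hQpos i0) (fun i => hmax i (Finset.mem_univ _))
    (hQ i0)).trans ?_
  rw [← hP, show (3 : ℝ) * P = P * 3 by ring, mul_assoc P, mul_assoc P]
  refine mul_le_mul_of_nonneg_left ?_ hP0
  set b := Q i0 * (z i0).natAbs with hb
  set g : ℕ := Finset.univ.gcd fun i => (z i).natAbs with hg
  have hgd : ∀ i, g ∣ (z i).natAbs := fun i => Finset.gcd_dvd (Finset.mem_univ i)
  have hg1 : 1 ≤ g := Nat.pos_of_ne_zero fun h => by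
    have := hgd i0
    rw [h, zero_dvd_iff, Int.natAbs_eq_zero] at this
    exact hz this
  have hgD : g ≤ D := (Nat.le_of_dvd (Int.natAbs_pos.2 hz) (hgd i0)).trans (hD1 i0)
  set t := N0 / b with ht
  have htle : t * b ≤ N0 := Nat.div_mul_le_self _ _
  have hmb : (m : ℝ) / b ≤ 2 * ((t : ℝ) + 1) := by
    rw [div_le_iff₀ (by exact_mod_cast hb0)]
    have h1 : N0 < (t + 1) * b := by
      have := Nat.lt_div_mul_add (a := N0) hb0
      rw [← ht] at this
      rw [Nat.succ_mul]
      omega
    have h2 : (m : ℝ) ≤ 2 * N0 := by exact_mod_cast hmN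
    have h3 : (N0 : ℝ) ≤ ((t : ℝ) + 1) * b := by exact_mod_cast h1.le
    linarith
  have hgS : 9 * (g : ℝ) ^ 2 ≤ S := by
    refine le_trans ?_ (Finset.single_le_sum (fun d _ => hnn d) (Finset.mem_Icc.2 ⟨hg1, hgD⟩))
    refine le_mul_of_one_le_right (by positivity) ?_
    rw [if_pos fun i => Int.natCast_dvd.2 (hgd i)]
    refine le_add_of_nonneg_right ?_
    split_ifs <;> norm_num
  have htS : 9 * (t : ℝ) ^ 2 ≤ S := by
    rcases Nat.eq_zero_or_pos t with ht0 | ht0
    · simp [ht0, hS0]
    have htD : t ≤ D := by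
      refine Nat.le_of_mul_le_mul_right (c := b) ?_ hb0
      refine htle.trans ((hD2 i0).trans (Nat.mul_le_mul_left _ ?_))
      exact Nat.le_mul_of_pos_right _ (Int.natAbs_pos.2 hz)
    refine le_trans ?_ (Finset.single_le_sum (fun d _ => hnn d) (Finset.mem_Icc.2 ⟨ht0, htD⟩))
    refine le_mul_of_one_le_right (by positivity) ?_
    rw [if_pos fun i => (Nat.mul_le_mul_left t (hmax i (Finset.mem_univ i))).trans htle]
    refine le_add_of_nonneg_left ?_
    split_ifs <;> norm_num
  rw [← Nat.cast_mul (Q i0), ← hb]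
  have hJ : (0 : ℝ) ≤ Fintype.card κ := by positivity
  nlinarith [sq_nonneg ((g : ℝ) - ((Fintype.card κ : ℝ) + 1 + t)),
    sq_nonneg ((Fintype.card κ : ℝ) + 1 - t),
    mul_le_mul_of_nonneg_left hmb (by positivity : (0 : ℝ) ≤ g)]

end Vale.Agent.P012
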