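import Vale.Agent.P012.Fourier

/-!
Products of one element from each block of a family of disjoint sets of primes.
-/

namespace Vale.Agent.P012

open Finset

/-- Products of one element from each of the first `w` blocks. -/
def pre (blk : ℕ → Finset ℕ) : ℕ → Finset ℕ
  | 0 => {1}
  | w + 1 => Finset.image₂ (fun g a => g * a) (blk w) (pre blk w)

@[simp] lemma pre_zero (blk : ℕ → Finset ℕ) : pre blk 0 = {1} := rfl

lemma pre_succ (blk : ℕ → Finset ℕ) (w : ℕ) :
    pre blk (w + 1) = Finset.image₂ (fun g a => g * a) (blk w) (pre blk w) := rfl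

lemma pre_congr {b b' : ℕ → Finset ℕ} {w : ℕ} (h : ∀ j < w, b j = b' j) :
    pre b w = pre b' w := by
  induction w with
  | zero => simp
  | succ w ih => rw [pre_succ, pre_succ, h w (by omega), ih fun j hj => h j (by omega)]

/-- The first `u` blocks consist of primes and are pairwise disjoint. -/
structure Good (blk : ℕ → Finset ℕ) (u : ℕ) : Prop where
  prime : ∀ j < u, ∀ g ∈ blk j, Nat.Prime g
  disj : ∀ i < u, ∀ j < u, i ≠ j → Disjoint (blk i) (blk j)

lemma Good.mono {blk : ℕ → Finset ℕ} {u w : ℕ} (h : Good blk u) (hw : w ≤ u) : Good blk w :=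
  ⟨fun j hj => h.prime j (by omega), fun i hi j hj => h.disj i (by omega) j (by omega)⟩

lemma prime_dvd_pre {blk : ℕ → Finset ℕ} {w : ℕ} (hg : Good blk w) {x q : ℕ}
    (hx : x ∈ pre blk w) (hq : q.Prime) (hqx : q ∣ x) : ∃ j < w, q ∈ blk j := by
  induction w generalizing x with
  | zero =>
    simp only [pre_zero, Finset.mem_singleton] at hx
    subst hx
    exact absurd (Nat.dvd_one.1 hqx) hq.one_lt.ne'
  | succ w ih =>
    rw [pre_succ, Finset.mem_image₂] at hx
    obtain ⟨g, hgm, a, ha, rfl⟩ := hx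
    rcases hq.dvd_mul.1 hqx with h | h
    · refine ⟨w, by omega, ?_⟩
      rwa [(Nat.prime_dvd_prime_iff_eq hq (hg.prime w (by omega) g hgm)).1 h]
    · obtain ⟨j, hj, hj'⟩ := ih (hg.mono (by omega)) ha h
      exact ⟨j, by omega, hj'⟩

lemma not_dvd_pre {blk : ℕ → Finset ℕ} {w : ℕ} (hg : Good blk w) {g a : ℕ}
    (hp : g.Prime) (hfresh : ∀ j < w, g ∉ blk j) (ha : a ∈ pre blk w) : ¬ g ∣ a := fun h => by
  obtain ⟨j, hj, hj'⟩ := prime_dvd_pre hg ha hp h
  exact hfresh j hj hj'

lemma card_pre {blk : ℕ → Finset ℕ} {w : ℕ} (hg : Good blk w) :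
    (pre blk w).card = ∏ j ∈ Finset.range w, (blk j).card := by
  induction w with
  | zero => simp
  | succ w ih =>
    have hw := hg.mono (Nat.le_succ w)
    rw [pre_succ, Finset.prod_range_succ, ← ih hw, mul_comm]
    refine Finset.card_image₂_iff.2 ?_
    rintro ⟨g, a⟩ hga ⟨g', a'⟩ hga' h
    simp only [Set.mem_prod, Finset.mem_coe] at hga hga'
    simp only at h
    have hp := hg.prime w (by omega) g hga.1
    have hp' := hg.prime w (by omega) g' hga'.1
    have hne : ¬ g ∣ a' := not_dvd_pre hw hp (fun j hj hj' =>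
      Finset.disjoint_left.1 (hg.disj j (by omega) w (by omega) (by omega)) hj' hga.1) hga'.2
    have hd : g ∣ g' * a' := h ▸ dvd_mul_right g a
    rcases hp.dvd_mul.1 hd with h1 | h1
    · have := (Nat.prime_dvd_prime_iff_eq hp hp').1 h1
      subst this
      exact Prod.ext rfl (Nat.eq_of_mul_eq_mul_left hp.pos h)
    · exact absurd h1 hne

lemma pre_bounds {blk : ℕ → Finset ℕ} {w lo hi : ℕ}
    (h : ∀ j < w, ∀ g ∈ blk j, lo ≤ g ∧ g ≤ hi) {x : ℕ} (hx : x ∈ pre blk w) :
    lo ^ w ≤ x ∧ x ≤ hi ^ w := by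
  induction w generalizing x with
  | zero => simp_all
  | succ w ih =>
    rw [pre_succ, Finset.mem_image₂] at hx
    obtain ⟨g, hgm, a, ha, rfl⟩ := hx
    have h1 := h w (by omega) g hgm
    have h2 := ih (fun j hj => h j (by omega)) ha
    rw [pow_succ', pow_succ']
    exact ⟨Nat.mul_le_mul h1.1 h2.1, Nat.mul_le_mul h1.2 h2.2⟩

/-- The product of all elements of the first `w` blocks. -/
def allProd (blk : ℕ → Finset ℕ) (w : ℕ) : ℕ := ∏ j ∈ Finset.range w, ∏ g ∈ blk j, g

lemma pre_dvd_allProd {blk : ℕ → Finset ℕ} {w x : ℕ} (hx : x ∈ pre blk w) :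
    x ∣ allProd blk w := by
  induction w generalizing x with
  | zero => simp_all [allProd]
  | succ w ih =>
    rw [pre_succ, Finset.mem_image₂] at hx
    obtain ⟨g, hgm, a, ha, rfl⟩ := hx
    rw [allProd, Finset.prod_range_succ, mul_comm g]
    exact mul_dvd_mul (ih ha) (Finset.dvd_prod_of_mem _ hgm)

/-- The family shifted by `w`. -/
def shiftBlk (blk : ℕ → Finset ℕ) (w : ℕ) : ℕ → Finset ℕ := fun j => blk (j + w)

lemma pre_split (blk : ℕ → Finset ℕ) (v w : ℕ) :
    pre blk (v + w) = Finset.image₂ (fun c a => c * a) (pre (shiftBlk blk w) v) (pre blk w) := by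
  induction v with
  | zero => simp
  | succ v ih =>
    have h : v + 1 + w = (v + w) + 1 := by omega
    rw [h, pre_succ, ih, pre_succ]
    ext x
    simp only [Finset.mem_image₂, shiftBlk]
    constructor
    · rintro ⟨g, hgm, b, ⟨c, hc, a, ha, rfl⟩, rfl⟩
      exact ⟨g * c, ⟨g, hgm, c, hc, rfl⟩, a, ha, by ring⟩
    · rintro ⟨b, ⟨g, hgm, c, hc, rfl⟩, a, ha, rfl⟩
      exact ⟨g, hgm, c * a, ⟨c, hc, a, ha, rfl⟩, by ring⟩

lemma Good.shift {blk : ℕ → Finset ℕ} {v w : ℕ} (h : Good blk (v + w)) :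
    Good (shiftBlk blk w) v :=
  ⟨fun j hj => h.prime (j + w) (by omega),
    fun i hi j hj hij => h.disj (i + w) (by omega) (j + w) (by omega) (by omega)⟩

lemma pre_split_injOn {blk : ℕ → Finset ℕ} {v w : ℕ} (h : Good blk (v + w)) :
    Set.InjOn (fun x : ℕ × ℕ => x.1 * x.2)
      ((pre (shiftBlk blk w) v : Set ℕ) ×ˢ (pre blk w : Set ℕ)) := by
  refine Finset.card_image₂_iff.1 ?_
  rw [← pre_split, card_pre h, card_pre h.shift, card_pre (h.mono (by omega)),
    add_comm v w, Finset.prod_range_add, mul_comm]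
  congr 1
  exact Finset.prod_congr rfl fun j _ => by rw [shiftBlk, add_comm]

lemma shift_dvd {blk : ℕ → Finset ℕ} {v w c : ℕ} (hc : c ∈ pre (shiftBlk blk w) v) :
    c ∣ allProd blk (v + w) := by
  refine (pre_dvd_allProd hc).trans ?_
  rw [allProd, allProd, add_comm v w, Finset.prod_range_add]
  refine dvd_mul_of_dvd_right (dvd_of_eq (Finset.prod_congr rfl fun j _ => ?_)) _
  rw [shiftBlk, add_comm]

end Vale.Agent.P012
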