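import Vale.Agent.P012.Average

/-!
From small average collisions to covering all residues of a prime modulus.
-/

namespace Vale.Agent.P012

open Finset

variable {κ : Type*} [Fintype κ] [DecidableEq κ]

lemma sum_prod_indicator (A : κ → Finset ℕ) (p : κ → ℕ) (hA : ∀ i, (A i).Nonempty)
    (P : κ → ℤ → Prop) [∀ i, DecidablePred (P i)] :
    (∑ s ∈ Fintype.piFinset (fun i => Tup (A i) (p i)),
        if ∀ i, P i (zd (s i)) then (1 : ℝ) else 0)
      = ((Fintype.piFinset fun i => Tup (A i) (p i)).card : ℝ)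
          * ∏ i, prob (A i) (p i) (P i) := by
  classical
  rw [Finset.sum_boole]
  have h : (Fintype.piFinset fun i => Tup (A i) (p i)).filter (fun s => ∀ i, P i (zd (s i)))
      = Fintype.piFinset fun i => (Tup (A i) (p i)).filter fun s => P i (zd s) := by
    ext s
    simp only [Finset.mem_filter, Fintype.mem_piFinset]
    exact ⟨fun h i => ⟨h.1 i, h.2 i⟩, fun h => ⟨fun i => (h i).1, fun i => (h i).2⟩⟩
  rw [h, Fintype.card_piFinset, Fintype.card_piFinset, Nat.cast_prod, Nat.cast_prod,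
    ← Finset.prod_mul_distrib]
  refine Finset.prod_congr rfl fun i _ => ?_
  rw [prob, mul_div_cancel₀]
  rw [Tup_card]
  exact_mod_cast (pow_pos (Finset.card_pos.2 (hA i)) _).ne'

/-- Some choice of multipliers has few collisions. -/
lemma exists_few_collisions (A : κ → Finset ℕ) (p : κ → ℕ) (Q : κ → ℕ) {m N0 D : ℕ} {C0 C1 : ℝ}
    (hm : 0 < m) (hmN : m ≤ 2 * N0) (hA : ∀ i, (A i).Nonempty)
    (hD1 : ∀ i, ∀ a ∈ A i, p i * a ≤ D) (hD2 : ∀ i, N0 ≤ D * Q i) (hQpos : ∀ i, 0 < Q i)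
    (hQ : ∀ k, Fintype.card κ * D ≤ Q k)
    (h0 : (m : ℝ) * ∏ i, prob (A i) (p i) (fun z => z = 0) ≤ C0) (hC1 : 0 ≤ C1)
    (hdiv : ∀ d : ℕ, 1 ≤ d → d ≤ D →
      ∏ i, prob (A i) (p i) (fun z => (d : ℤ) ∣ z) ≤ C1 / (d : ℝ) ^ 4)
    (hsmall : ∀ d : ℕ, 1 ≤ d → d ≤ D →
      ∏ i, prob (A i) (p i) (fun z => d * (Q i * z.natAbs) ≤ N0) ≤ C1 / (d : ℝ) ^ 4) :
    ∃ R : κ → ℕ, (∀ i, 1 ≤ R i ∧ R i ≤ Q i) ∧
      (m : ℝ) * (((Fintype.piFinset fun i => Tup (A i) (p i)).filter
          fun s => (m : ℤ) ∣ ∑ i, (R i : ℤ) * zd (s i)).card : ℝ)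
        ≤ (C0 + 6 * ((Fintype.card κ : ℝ) + 1) ^ 2 + 36 * C1)
            * ((Fintype.piFinset fun i => Tup (A i) (p i)).card : ℝ) := by
  classical
  set Ω := Fintype.piFinset fun i => Tup (A i) (p i) with hΩ
  set box := Fintype.piFinset fun i => Finset.Icc 1 (Q i) with hbox
  have hboxne : box.Nonempty :=
    Fintype.piFinset_nonempty.2 fun i => Finset.nonempty_Icc.2 (hQpos i)
  have hboxcard : (box.card : ℝ) = ∏ i, (Q i : ℝ) := by simp [hbox]
  have hzb : ∀ s ∈ Ω, ∀ i, (zd (s i)).natAbs ≤ D := by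
    intro s hs i
    have hs' := Fintype.mem_piFinset.1 hs i
    rcases Nat.eq_zero_or_pos (p i) with hp | hp
    · have h := abs_zd_le (P := (A i).sup id) (fun a ha => Finset.le_sup (f := id) ha) hs'
      have h' : p i * (A i).sup id = 0 := by simp [hp]
      rw [Int.abs_eq_natAbs] at h
      omega
    · have h := abs_zd_le (P := D / p i)
        (fun a ha => (Nat.le_div_iff_mul_le hp).2 (by rw [mul_comm]; exact hD1 i a ha)) hs'
      rw [Int.abs_eq_natAbs] at h
      have := Nat.mul_div_le D (p i)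
      omega
  have hswap : (∑ R ∈ box, ((Ω.filter fun s => (m : ℤ) ∣ ∑ i, (R i : ℤ) * zd (s i)).card : ℝ))
      = ∑ s ∈ Ω, ((box.filter fun R => (m : ℤ) ∣ ∑ i, (R i : ℤ) * zd (s i)).card : ℝ) := by
    rw [← Nat.cast_sum, ← Nat.cast_sum, Nat.cast_inj]
    simp only [Finset.card_filter]
    exact Finset.sum_comm
  have hw : ∀ s ∈ Ω, (m : ℝ) *
      ((box.filter fun R => (m : ℤ) ∣ ∑ i, (R i : ℤ) * zd (s i)).card : ℝ)
      ≤ (box.card : ℝ) * ((if ∀ i, zd (s i) = 0 then (m : ℝ) else 0)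
          + 6 * ((Fintype.card κ : ℝ) + 1) ^ 2
          + ∑ d ∈ Finset.Icc 1 D, 9 * (d : ℝ) ^ 2 *
              ((if ∀ i, (d : ℤ) ∣ zd (s i) then 1 else 0)
                + (if ∀ i, d * (Q i * (zd (s i)).natAbs) ≤ N0 then 1 else 0))) := by
    intro s hs
    rw [hboxcard]
    exact solution_weight_le (fun i => zd (s i)) Q hm hmN (hzb s hs) hD2 hQpos
      fun i k => (Nat.mul_le_mul_left _ (hzb s hs i)).trans (hQ k)
  have hΩ0 : (0 : ℝ) ≤ Ω.card := by positivity
  have htot : (m : ℝ) * ∑ R ∈ box,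
      ((Ω.filter fun s => (m : ℤ) ∣ ∑ i, (R i : ℤ) * zd (s i)).card : ℝ)
      ≤ (box.card : ℝ) * ((C0 + 6 * ((Fintype.card κ : ℝ) + 1) ^ 2 + 36 * C1) * Ω.card) := by
    rw [hswap, Finset.mul_sum]
    refine (Finset.sum_le_sum hw).trans ?_
    rw [← Finset.mul_sum, Finset.sum_add_distrib, Finset.sum_add_distrib]
    refine mul_le_mul_of_nonneg_left ?_ (by positivity)
    rw [add_mul, add_mul]
    refine add_le_add (add_le_add ?_ (le_of_eq (by rw [Finset.sum_const, nsmul_eq_mul, mul_comm]))) ?_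
    · have e : ∀ s : (i : κ) → (Fin (p i) → ℕ) × (Fin (p i) → ℕ),
          (if ∀ i, zd (s i) = 0 then (m : ℝ) else 0)
            = (m : ℝ) * (if ∀ i, zd (s i) = 0 then 1 else 0) := fun s => by split_ifs <;> simp
      simp only [e]
      rw [← Finset.mul_sum, hΩ, sum_prod_indicator A p hA (fun _ z => z = 0),
        mul_left_comm, mul_comm]
      exact mul_le_mul_of_nonneg_right h0 hΩ0
    · rw [Finset.sum_comm]
      refine le_trans (Finset.sum_le_sum fun d hd => (?_ :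
        _ ≤ 18 * C1 * (Ω.card : ℝ) * (1 / (d : ℝ) ^ 2))) ?_
      · rw [Finset.mem_Icc] at hd
        rw [← Finset.mul_sum, Finset.sum_add_distrib, hΩ,
          sum_prod_indicator A p hA (fun _ z => (d : ℤ) ∣ z),
          sum_prod_indicator A p hA (fun i z => d * (Q i * z.natAbs) ≤ N0), ← mul_add]
        have hd0 : (0 : ℝ) < d := by exact_mod_cast hd.1
        refine (mul_le_mul_of_nonneg_left (mul_le_mul_of_nonneg_left
          (add_le_add (hdiv d hd.1 hd.2) (hsmall d hd.1 hd.2)) hΩ0) (by positivity)).trans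
          (le_of_eq ?_)
        field_simp
        ring
      · rw [← Finset.mul_sum]
        refine (mul_le_mul_of_nonneg_left (sum_one_div_sq_le D) (by positivity)).trans
          (le_of_eq ?_)
        ring
  rw [Finset.mul_sum, ← nsmul_eq_mul, ← Finset.sum_const] at htot
  obtain ⟨R, hR, hRle⟩ := Finset.exists_le_of_sum_le hboxne htot
  exact ⟨R, fun i => Finset.mem_Icc.1 (Fintype.mem_piFinset.1 hR i), hRle⟩

/-- The residues of linear combinations of sums. -/
def imageSet (A : κ → Finset ℕ) (p : κ → ℕ) (R : κ → ℕ) (m : ℕ) : Finset (ZMod m) :=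
  (Fintype.piFinset fun i => Fintype.piFinset fun _ : Fin (p i) => A i).image
    fun ω => ∑ i, (R i : ZMod m) * ∑ j, (ω i j : ZMod m)

lemma card_image_ge (A : κ → Finset ℕ) (p : κ → ℕ) (R : κ → ℕ) {m : ℕ} :
    ((Fintype.piFinset fun i => Tup (A i) (p i)).card : ℝ)
      ≤ (imageSet A p R m).card * (((Fintype.piFinset fun i => Tup (A i) (p i)).filter
          fun s => (m : ℤ) ∣ ∑ i, (R i : ℤ) * zd (s i)).card : ℝ) := by
  classical
  set W := Fintype.piFinset fun i => Fintype.piFinset fun _ : Fin (p i) => A i with hW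
  set f : ((i : κ) → Fin (p i) → ℕ) → ZMod m :=
    fun ω => ∑ i, (R i : ZMod m) * ∑ j, (ω i j : ZMod m) with hf
  set I := imageSet A p R m with hI
  have hcard : (Fintype.piFinset fun i => Tup (A i) (p i)).card = W.card * W.card := by
    simp [hW, Fintype.card_piFinset, Tup, Finset.card_product, Finset.prod_mul_distrib]
  have hfib : W.card = ∑ r ∈ I, (W.filter fun ω => f ω = r).card :=
    Finset.card_eq_sum_card_image f W
  have hcs : (W.card : ℝ) ^ 2 ≤ I.card * ∑ r ∈ I, ((W.filter fun ω => f ω = r).card : ℝ) ^ 2 := by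
    rw [hfib, Nat.cast_sum]
    exact sq_sum_le_card_mul_sum_sq
  have hcoll : ∑ r ∈ I, (W.filter fun ω => f ω = r).card * (W.filter fun ω => f ω = r).card
      ≤ ((Fintype.piFinset fun i => Tup (A i) (p i)).filter
          fun s => (m : ℤ) ∣ ∑ i, (R i : ℤ) * zd (s i)).card := by
    rw [← Finset.sum_congr rfl fun r _ => Finset.card_product _ _,
      ← Finset.card_biUnion]
    · refine Finset.card_le_card_of_injOn (fun ww i => (ww.1 i, ww.2 i)) ?_ ?_
      · intro ww hww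
        simp only [Finset.coe_biUnion, Set.mem_iUnion, Finset.mem_coe, Finset.mem_product,
          Finset.mem_filter] at hww
        obtain ⟨r, -, ⟨h1, h2⟩, h3, h4⟩ := hww
        rw [hW, Fintype.mem_piFinset] at h1 h3
        simp only [Finset.coe_filter, Set.mem_setOf_eq, Fintype.mem_piFinset, Tup,
          Finset.mem_product]
        refine ⟨fun i => ⟨Fintype.mem_piFinset.1 (h1 i), Fintype.mem_piFinset.1 (h3 i)⟩, ?_⟩
        rw [← ZMod.intCast_zmod_eq_zero_iff_dvd]
        have h5 : f ww.1 - f ww.2 = 0 := by rw [h2, h4, sub_self]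
        rw [← h5]
        simp [hf, zd, mul_sub, Finset.sum_sub_distrib]
      · intro a _ b _ h
        exact Prod.ext (funext fun i => (Prod.ext_iff.1 (congrFun h i)).1)
          (funext fun i => (Prod.ext_iff.1 (congrFun h i)).2)
    · intro r _ r' _ hrr'
      simp only [Function.onFun]
      rw [Finset.disjoint_left]
      intro x hx hx'
      simp only [Finset.mem_product, Finset.mem_filter] at hx hx'
      exact hrr' (hx.1.2.symm.trans hx'.1.2)
  rw [hcard, Nat.cast_mul, ← sq]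
  refine hcs.trans (mul_le_mul_of_nonneg_left ?_ (by positivity))
  simp only [sq]
  exact_mod_cast hcoll

lemma sum_cover {m : ℕ} (hm : m.Prime) {S : Finset (ZMod m)} (hS : S.Nonempty) (k : ℕ) :
    ∃ T : Finset (ZMod m), min m ((k + 1) * (S.card - 1) + 1) ≤ T.card ∧
      ∀ r ∈ T, ∃ l : Multiset (ZMod m), l.card ≤ k + 1 ∧ (∀ x ∈ l, x ∈ S) ∧ l.sum = r := by
  induction k with
  | zero =>
    refine ⟨S, ?_, fun r hr => ⟨{r}, by simp, by simp [hr], by simp⟩⟩
    have := Finset.card_pos.2 hS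
    omega
  | succ k ih =>
    obtain ⟨T, hT, hrep⟩ := ih
    have hTne : T.Nonempty := by
      rw [← Finset.card_pos]
      have := hm.pos
      omega
    refine ⟨Finset.image₂ (· + ·) S T, ?_, ?_⟩
    · have h := ZMod.cauchy_davenport hm hS hTne
      have hpos := Finset.card_pos.2 hS
      change min m (S.card + T.card - 1) ≤ (Finset.image₂ (· + ·) S T).card at h
      refine le_trans ?_ h
      rw [Nat.succ_mul (k + 1)]
      omega
    · intro r hr
      obtain ⟨x, hx, y, hy, rfl⟩ := Finset.mem_image₂.1 hr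
      obtain ⟨l, h1, h2, rfl⟩ := hrep y hy
      refine ⟨x ::ₘ l, by simp; omega, fun z hz => ?_, by simp⟩
      rcases Multiset.mem_cons.1 hz with rfl | hz
      · exact hx
      · exact h2 z hz

/-- Every residue is a short sum of multiples of elements. -/
lemma exists_cover (A : κ → Finset ℕ) (p : κ → ℕ) (Q : κ → ℕ) {m N0 D C : ℕ} {C0 C1 : ℝ}
    (hmp : m.Prime) (hCm : 2 * C < m) (hmN : m ≤ 2 * N0) (hA : ∀ i, (A i).Nonempty)
    (hD1 : ∀ i, ∀ a ∈ A i, p i * a ≤ D) (hD2 : ∀ i, N0 ≤ D * Q i) (hQpos : ∀ i, 0 < Q i)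
    (hQ : ∀ k, Fintype.card κ * D ≤ Q k)
    (h0 : (m : ℝ) * ∏ i, prob (A i) (p i) (fun z => z = 0) ≤ C0) (hC1 : 0 ≤ C1)
    (hdiv : ∀ d : ℕ, 1 ≤ d → d ≤ D →
      ∏ i, prob (A i) (p i) (fun z => (d : ℤ) ∣ z) ≤ C1 / (d : ℝ) ^ 4)
    (hsmall : ∀ d : ℕ, 1 ≤ d → d ≤ D →
      ∏ i, prob (A i) (p i) (fun z => d * (Q i * z.natAbs) ≤ N0) ≤ C1 / (d : ℝ) ^ 4)
    (hC : C0 + 6 * ((Fintype.card κ : ℝ) + 1) ^ 2 + 36 * C1 ≤ C) :
    ∃ R : κ → ℕ, (∀ i, 1 ≤ R i ∧ R i ≤ Q i) ∧
      ∀ r : ZMod m, ∃ l : Multiset ℕ, l.card ≤ (2 * C + 1) * ∑ i, p i ∧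
        (∀ t ∈ l, ∃ i, ∃ a ∈ A i, t = R i * a) ∧ (l.sum : ZMod m) = r := by
  classical
  obtain ⟨R, hR, hcoll⟩ :=
    exists_few_collisions A p Q hmp.pos hmN hA hD1 hD2 hQpos hQ h0 hC1 hdiv hsmall
  refine ⟨R, hR, fun r => ?_⟩
  have : NeZero m := ⟨hmp.ne_zero⟩
  set I := imageSet A p R m with hI
  set Ω := Fintype.piFinset fun i => Tup (A i) (p i) with hΩ
  have hΩpos : (0 : ℝ) < Ω.card := by
    rw [Nat.cast_pos, Finset.card_pos, hΩ, Fintype.piFinset_nonempty]
    intro i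
    rw [← Finset.card_pos, Tup_card]
    exact pow_pos (Finset.card_pos.2 (hA i)) _
  have hI1 : (m : ℝ) ≤ (I.card : ℝ) * C := by
    refine le_of_mul_le_mul_right ?_ hΩpos
    calc (m : ℝ) * Ω.card ≤ (m : ℝ) * ((I.card : ℝ) * _) :=
          mul_le_mul_of_nonneg_left (card_image_ge A p R) (by positivity)
      _ = (I.card : ℝ) * ((m : ℝ) * _) := mul_left_comm _ _ _
      _ ≤ (I.card : ℝ) * ((C : ℝ) * Ω.card) := by
          refine mul_le_mul_of_nonneg_left (hcoll.trans ?_) (by positivity)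
          exact mul_le_mul_of_nonneg_right hC hΩpos.le
      _ = _ := by ring
  have hI2 : m ≤ I.card * C := by exact_mod_cast hI1
  have hI3 : 2 ≤ I.card := by
    by_contra h
    have : I.card * C ≤ 1 * C := Nat.mul_le_mul_right C (by omega)
    omega
  obtain ⟨T, hT, hrep⟩ := sum_cover hmp (S := I) (Finset.card_pos.1 (by omega)) (2 * C)
  have hTfull : T = Finset.univ := by
    refine Finset.eq_univ_of_card T (le_antisymm (Finset.card_le_univ _) ?_)
    rw [ZMod.card]
    refine le_trans (le_min le_rfl ?_) hT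
    obtain ⟨j, hj⟩ : ∃ j, I.card = j + 2 := ⟨I.card - 2, by omega⟩
    rw [hj] at hI2 ⊢
    have : (j + 2) * C ≤ (2 * C + 1) * (j + 2 - 1) + 1 := by
      rw [show j + 2 - 1 = j + 1 by omega]
      nlinarith
    omega
  obtain ⟨l, hl1, hl2, hl3⟩ := hrep r (hTfull ▸ Finset.mem_univ r)
  -- replace each residue by the terms producing it
  suffices h : ∀ l : Multiset (ZMod m), (∀ x ∈ l, x ∈ I) →
      ∃ l' : Multiset ℕ, l'.card ≤ l.card * ∑ i, p i ∧
        (∀ t ∈ l', ∃ i, ∃ a ∈ A i, t = R i * a) ∧ (l'.sum : ZMod m) = l.sum by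
    obtain ⟨l', h1, h2, h3⟩ := h l hl2
    exact ⟨l', h1.trans (Nat.mul_le_mul_right _ hl1), h2, h3.trans hl3⟩
  intro l
  induction l using Multiset.induction with
  | empty => exact fun _ => ⟨0, by simp, by simp, by simp⟩
  | cons x l ih =>
    intro hx
    obtain ⟨l', h1, h2, h3⟩ := ih fun y hy => hx y (Multiset.mem_cons_of_mem hy)
    have hxI := hx x (Multiset.mem_cons_self _ _)
    rw [hI, imageSet, Finset.mem_image] at hxI
    obtain ⟨ω, hω, rfl⟩ := hxI
    rw [Fintype.mem_piFinset] at hω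
    refine ⟨(Finset.univ : Finset ((i : κ) × Fin (p i))).val.map
      (fun q => R q.1 * ω q.1 q.2) + l', ?_, ?_, ?_⟩
    · simp only [Multiset.card_add, Multiset.card_map, Multiset.card_cons, Finset.card_val,
        Finset.card_univ, Fintype.card_sigma, Fintype.card_fin, Nat.succ_mul]
      omega
    · intro t ht
      rcases Multiset.mem_add.1 ht with ht | ht
      · obtain ⟨q, -, rfl⟩ := Multiset.mem_map.1 ht
        exact ⟨q.1, ω q.1 q.2, Fintype.mem_piFinset.1 (hω q.1) q.2, rfl⟩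
      · exact h2 t ht
    · rw [Multiset.sum_add, Nat.cast_add, h3, Multiset.sum_cons]
      congr 1
      rw [← Finset.sum_eq_multiset_sum, Fintype.sum_sigma, Nat.cast_sum]
      simp [Finset.mul_sum]

end Vale.Agent.P012
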