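import Mathlib

/-!
Many primes in a short interval near a power of two.
-/

namespace Vale.Agent.P012

open Finset Nat

lemma centralBinom_le_count (n : ℕ) (hn : 2 < n) :
    n.centralBinom ≤ (2 * n) ^ Nat.sqrt (2 * n) * 4 ^ (2 * n / 3)
      * (2 * n) ^ ((Finset.Ioc n (2 * n)).filter Nat.Prime).card := by
  have n2_pos : 1 ≤ 2 * n := by omega
  set f : ℕ → ℕ := fun x => x ^ n.centralBinom.factorization x with hf
  set S := (Finset.range (2 * n / 3 + 1)).filter Nat.Prime with hS
  set T := (Finset.Ioc n (2 * n)).filter Nat.Prime with hT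
  have hprod : n.centralBinom = (∏ x ∈ S, f x) * ∏ x ∈ T, f x := by
    rw [← Finset.prod_union (by
      rw [Finset.disjoint_left]
      intro x hx hx'
      simp only [hS, hT, Finset.mem_filter, Finset.mem_range, Finset.mem_Ioc] at hx hx'
      omega)]
    refine (Eq.trans ?_ n.prod_pow_factorization_centralBinom).symm
    refine Finset.prod_subset ?_ ?_
    · intro x hx
      simp only [hS, hT, Finset.mem_union, Finset.mem_filter, Finset.mem_range,
        Finset.mem_Ioc] at hx
      rw [Finset.mem_range]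
      omega
    · intro x hx hx'
      simp only [hS, hT, Finset.mem_union, Finset.mem_filter, Finset.mem_range,
        Finset.mem_Ioc] at hx hx'
      by_cases hp : x.Prime
      · have h1 : 2 * n < 3 * x := by
          by_contra hc
          exact hx' (Or.inl ⟨by omega, hp⟩)
        have h2 : x ≤ n := by
          by_contra hc
          exact hx' (Or.inr ⟨⟨by omega, by omega⟩, hp⟩)
        simp [hf, Nat.factorization_centralBinom_of_two_mul_self_lt_three_mul hn h2 h1]
      · simp [hf, Nat.factorization_eq_zero_of_not_prime n.centralBinom hp]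
  rw [hprod]
  refine Nat.mul_le_mul ?_ ?_
  · rw [← Finset.prod_filter_mul_prod_filter_not S (· ≤ Nat.sqrt (2 * n))]
    refine Nat.mul_le_mul ?_ ?_
    · refine (Finset.prod_le_prod' fun p _ => (?_ : f p ≤ 2 * n)).trans ?_
      · exact Nat.pow_factorization_choose_le (by omega)
      rw [Finset.prod_const]
      refine pow_right_mono₀ n2_pos ((Finset.card_le_card (t := Finset.Icc 1 (Nat.sqrt (2 * n)))
        fun x hx => ?_).trans (by simp))
      obtain ⟨h1, h2⟩ := Finset.mem_filter.1 hx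
      exact Finset.mem_Icc.mpr ⟨(Finset.mem_filter.1 h1).2.one_lt.le, h2⟩
    · refine le_trans ?_ (primorial_le_four_pow (2 * n / 3))
      refine (Finset.prod_le_prod' fun p hp => (?_ : f p ≤ p)).trans ?_
      · obtain ⟨h1, h2⟩ := Finset.mem_filter.1 hp
        refine (pow_right_mono₀ (Finset.mem_filter.1 h1).2.one_lt.le ?_).trans (pow_one p).le
        exact Nat.factorization_choose_le_one (Nat.sqrt_lt'.mp <| not_le.1 h2)
      refine Finset.prod_le_prod_of_subset_of_one_le' (Finset.filter_subset _ _) ?_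
      exact fun p hp _ => (Finset.mem_filter.1 hp).2.one_lt.le
  · refine (Finset.prod_le_prod' fun p _ => (?_ : f p ≤ 2 * n)).trans (by rw [Finset.prod_const])
    exact Nat.pow_factorization_choose_le (by omega)

lemma twelve_mul_succ_le (e : ℕ) (he : 18 ≤ e) : 12 * (e + 1) * 2 ^ (e / 2 + 1) ≤ 2 ^ e := by
  have h : ∀ j, 9 ≤ j → 24 * (2 * j + 2) ≤ 2 ^ j := by
    intro j hj
    induction j, hj using Nat.le_induction with
    | base => norm_num
    | succ j hj ih => rw [_root_.pow_succ]; omega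
  obtain ⟨j, hj | hj⟩ := Nat.even_or_odd' e
  · subst hj
    have := h j (by omega)
    rw [show 2 * j / 2 + 1 = j + 1 by omega, _root_.pow_succ, show 2 * j = j + j by omega, pow_add]
    nlinarith [Nat.one_le_two_pow (n := j)]
  · subst hj
    have := h j (by omega)
    rw [show (2 * j + 1) / 2 + 1 = j + 1 by omega, show 2 * j + 1 = j + (j + 1) by omega, pow_add 2 j (j + 1), _root_.pow_succ]
    nlinarith [Nat.one_le_two_pow (n := j + 1), Nat.one_le_two_pow (n := j)]

lemma prime_count_two_pow (e : ℕ) (he : 18 ≤ e) :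
    2 ^ e ≤ 4 * (e + 1) * ((Finset.Ioc (2 ^ e) (2 * 2 ^ e)).filter Nat.Prime).card := by
  set n := 2 ^ e with hn
  set c := ((Finset.Ioc n (2 * n)).filter Nat.Prime).card
  have hn4 : 4 ≤ n := by
    have := Nat.pow_le_pow_right (show 1 ≤ 2 by norm_num) (show 2 ≤ e by omega)
    simpa [hn] using this
  have h1 := Nat.four_pow_lt_mul_centralBinom n hn4
  have h2 := centralBinom_le_count n (by omega)
  have e2 : 2 * n = 2 ^ (e + 1) := by rw [hn, _root_.pow_succ']
  have hs : Nat.sqrt (2 * n) ≤ 2 ^ (e / 2 + 1) := by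
    rw [← Nat.sqrt_eq' (2 ^ (e / 2 + 1)), ← pow_mul, e2]
    exact Nat.sqrt_le_sqrt (Nat.pow_le_pow_right (by norm_num) (by omega))
  have h3 : 4 ^ n < 2 ^ (e + ((e + 1) * 2 ^ (e / 2 + 1) + 2 * (2 * n / 3) + (e + 1) * c)) := by
    rw [pow_add, pow_add, pow_add, pow_mul 2 (e + 1), pow_mul 2 (e + 1), pow_mul 2 2, ← e2, ← hn]
    refine h1.trans_le (Nat.mul_le_mul le_rfl (h2.trans ?_))
    exact Nat.mul_le_mul_right _ (Nat.mul_le_mul_right _
      (Nat.pow_le_pow_right (by omega) hs))
  rw [show 4 ^ n = 2 ^ (2 * n) by rw [pow_mul]; norm_num,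
    Nat.pow_lt_pow_iff_right (by norm_num)] at h3
  have h4 := twelve_mul_succ_le e he
  rw [← hn] at h4
  have h5 : e + 1 ≤ (e + 1) * 2 ^ (e / 2 + 1) := Nat.le_mul_of_pos_right _ (Nat.two_pow_pos _)
  rw [mul_assoc 4]
  rw [mul_assoc 12] at h4
  omega

/-- A short interval with many primes. -/
lemma exists_prime_slice {e k : ℕ} (he : 18 ≤ e) (hk : k ≤ e) :
    ∃ L : ℕ, ∃ G : Finset ℕ, 2 ^ e ≤ L ∧ L < 2 * 2 ^ e ∧
      (∀ g ∈ G, g.Prime ∧ L < g ∧ g ≤ L + L / 2 ^ k) ∧
      2 ^ e ≤ 4 * (e + 1) * 2 ^ k * G.card := by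
  classical
  set n := 2 ^ e with hn
  set h := 2 ^ (e - k) with hh
  have hmul : h * 2 ^ k = n := by rw [hn, hh, ← pow_add]; congr 1; omega
  have hpos : 0 < h := Nat.two_pow_pos _
  set P := (Finset.Ioc n (2 * n)).filter Nat.Prime with hP
  obtain ⟨i, hi, himax⟩ := Finset.exists_max_image (Finset.range (2 ^ k))
    (fun i => (P.filter fun g => (g - n - 1) / h = i).card) ⟨0, by simp⟩
  rw [Finset.mem_range] at hi
  have hmaps : (P : Set ℕ).MapsTo (fun g => (g - n - 1) / h) (Finset.range (2 ^ k)) := by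
    intro g hg
    simp only [hP, Finset.coe_filter, Finset.mem_Ioc, Set.mem_setOf_eq] at hg
    simp only [Finset.mem_coe, Finset.mem_range]
    rw [Nat.div_lt_iff_lt_mul hpos, mul_comm]
    omega
  have hc : P.card ≤ 2 ^ k * (P.filter fun g => (g - n - 1) / h = i).card := by
    rw [Finset.card_eq_sum_card_fiberwise hmaps]
    refine (Finset.sum_le_card_nsmul _ _ _ himax).trans ?_
    simp
  have hi' : (i + 1) * h ≤ n := by
    rw [← hmul, mul_comm h]
    exact Nat.mul_le_mul_right _ hi
  refine ⟨n + i * h, P.filter fun g => (g - n - 1) / h = i, Nat.le_add_right _ _, ?_, ?_, ?_⟩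
  · rw [Nat.succ_mul] at hi'
    omega
  · intro g hg
    simp only [hP, Finset.mem_filter, Finset.mem_Ioc] at hg
    obtain ⟨⟨⟨h1, h2⟩, h3⟩, h4⟩ := hg
    have h5 : i * h ≤ g - n - 1 := h4 ▸ Nat.div_mul_le_self _ _
    have h6 : g - n - 1 < i * h + h := by
      have := Nat.lt_div_mul_add (a := g - n - 1) hpos
      rwa [h4] at this
    refine ⟨h3, by omega, ?_⟩
    have h7 : h ≤ (n + i * h) / 2 ^ k := by
      rw [Nat.le_div_iff_mul_le (Nat.two_pow_pos k), hmul]
      omega
    omega
  · refine (prime_count_two_pow e he).trans ?_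
    rw [mul_assoc (4 * (e + 1)) (2 ^ k)]
    exact Nat.mul_le_mul_left _ hc

end Vale.Agent.P012
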