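import Vale.Agent.P012.Average
import Vale.Agent.P012.Blocks

/-!
Divisibility and smallness are rare for differences of sums of block products.
-/

namespace Vale.Agent.P012

open Finset

lemma prob_mono {A : Finset ℕ} {p : ℕ} {P R : ℤ → Prop} [DecidablePred P] [DecidablePred R]
    (h : ∀ z, P z → R z) : prob A p P ≤ prob A p R := by
  refine div_le_div_of_nonneg_right (Nat.cast_le.2 (Finset.card_le_card ?_)) (Nat.cast_nonneg _)
  intro s hs
  simp only [Finset.mem_filter] at hs ⊢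
  exact ⟨hs.1, h _ hs.2⟩

lemma prob_eq_zero_le {A : Finset ℕ} {p : ℕ} {J : ℝ} (hA : A.Nonempty)
    (h : (cnt A p : ℝ) ≤ J * ((A.card : ℝ) ^ (2 * p))) : prob A p (fun z => z = 0) ≤ J := by
  unfold prob
  rw [Tup_card, Nat.cast_pow, div_le_iff₀ (pow_pos (Nat.cast_pos.2 (Finset.card_pos.2 hA)) _)]
  exact h

/-- Averaging over the outer factor. -/
lemma cnt2_split {N : ℕ} [NeZero N] {C W B : Finset ℕ} {p q : ℕ} (hp : 1 ≤ p)
    (hinj : Set.InjOn (fun x : ℕ × ℕ => x.1 * x.2) ((C : Set ℕ) ×ˢ (W : Set ℕ))) :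
    (cnt2 N (Finset.image₂ (fun c a => c * a) C W) p 1 B q 1 : ℝ)
      ≤ (C.card : ℝ) ^ (2 * p - 1) * ∑ c ∈ C, (cnt2 N W p c B q 1 : ℝ) := by
  classical
  refine le_of_mul_le_mul_left (a := (N : ℝ)) ?_ (by exact_mod_cast Nat.pos_of_ne_zero (NeZero.ne N))
  rw [cnt2_eq, mul_left_comm, Finset.mul_sum]
  simp_rw [cnt2_eq]
  rw [Finset.sum_comm, Finset.mul_sum]
  refine Finset.sum_le_sum fun k _ => ?_
  rw [← Finset.sum_mul, ← mul_assoc, Nat.cast_one, one_mul]
  refine mul_le_mul_of_nonneg_right ?_ (pow_nonneg (wS_nonneg _ _) _)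
  have hexp : expS (Finset.image₂ (fun c a => c * a) C W) k
      = ∑ c ∈ C, expS W ((c : ZMod N) * k) := by
    rw [expS, ← Finset.image_uncurry_product, Finset.sum_image (by
      rw [Finset.coe_product]; exact hinj), Finset.sum_product]
    refine Finset.sum_congr rfl fun c _ => Finset.sum_congr rfl fun a _ => ?_
    simp only [Function.uncurry]
    push_cast
    congr 1
    ring
  obtain ⟨n, hn⟩ : ∃ n, 2 * p = n + 1 := ⟨2 * p - 1, by omega⟩
  simp only [wS, ← pow_mul, hexp, hn, Nat.add_sub_cancel]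
  refine (pow_le_pow_left₀ (norm_nonneg _) (norm_sum_le _ _) _).trans ?_
  exact pow_sum_le_card_mul_sum_pow (fun c _ => norm_nonneg _) n

lemma card_multiples_le {d : ℕ} (hd : 0 < d) {M k : ℕ} (hk : M ≤ k * d) :
    ((Finset.Icc (-(M : ℤ)) M).filter fun z => (d : ℤ) ∣ z).card ≤ 2 * k + 1 := by
  have h : ((Finset.Icc (-(M : ℤ)) M).filter fun z => (d : ℤ) ∣ z)
      ⊆ (Finset.Icc (-(k : ℤ)) k).image (fun j => (d : ℤ) * j) := by
    intro z hz
    rw [Finset.mem_filter, Finset.mem_Icc] at hz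
    obtain ⟨⟨h1, h2⟩, j, rfl⟩ := hz
    have hd' : (0 : ℤ) < d := by exact_mod_cast hd
    have hk' : (M : ℤ) ≤ (k : ℤ) * d := by exact_mod_cast hk
    refine Finset.mem_image.2 ⟨j, Finset.mem_Icc.2 ⟨?_, ?_⟩, rfl⟩
    · nlinarith
    · nlinarith
  refine (Finset.card_le_card h).trans (Finset.card_image_le.trans ?_)
  rw [Int.card_Icc]
  omega

section Blocks

variable {blk : ℕ → Finset ℕ} {v w L H p : ℕ} {J : ℝ}

lemma pre_nonempty {u : ℕ} (hne : ∀ j < u, (blk j).Nonempty) : (pre blk u).Nonempty := by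
  induction u with
  | zero => simp
  | succ u ih =>
    rw [pre_succ]
    exact (hne u (by omega)).image₂ (ih fun j hj => hne j (by omega))

/-- Divisibility is rare. -/
lemma prob_dvd_le (hgood : Good blk (v + w)) (hne : ∀ j < v + w, (blk j).Nonempty)
    (hH : ∀ j < w, ∀ g ∈ blk j, g ≤ H) (hp : 1 ≤ p)
    (hJ : (cnt (pre blk w) p : ℝ) ≤ J * ((pre blk w).card : ℝ) ^ (2 * p))
    {d : ℕ} (hd : 0 < d) (hbig : H ^ w * Nat.gcd d (allProd blk (v + w)) ≤ d) :
    prob (pre blk (v + w)) p (fun z => (d : ℤ) ∣ z) ≤ (2 * p + 1) * J := by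
  classical
  have : NeZero d := ⟨hd.ne'⟩
  set C := pre (shiftBlk blk w) v with hC
  set W := pre blk w with hW
  have hC0 : C.Nonempty := pre_nonempty fun j hj => hne (j + w) (by omega)
  have hfull := pre_nonempty hne
  rw [prob, Tup_card, div_le_iff₀ (by exact_mod_cast pow_pos (Finset.card_pos.2 hfull) _)]
  have hcardfull : (pre blk (v + w)).card = C.card * W.card := by
    rw [pre_split, Finset.card_image₂_iff.2 (pre_split_injOn hgood)]
  have h1 : (((Tup (pre blk (v + w)) p).filter fun s => (d : ℤ) ∣ zd s).card : ℝ)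
      ≤ (C.card : ℝ) ^ (2 * p - 1) * ∑ c ∈ C, (cnt2 d W p c ∅ 0 1 : ℝ) := by
    refine le_trans (le_of_eq ?_) (cnt2_split hp (pre_split_injOn hgood))
    rw [← pre_split, cnt2_q_zero, Nat.cast_one]
    simp
  have hbound : ∀ c ∈ C, cnt2 d W p c ∅ 0 1 ≤ (2 * p + 1) * cnt W p := by
    intro c hc
    rw [cnt2_q_zero]
    set g := Nat.gcd d c with hg
    set d' := d / g with hd'
    have hgd : g ∣ d := Nat.gcd_dvd_left d c
    have hgpos : 0 < g := Nat.gcd_pos_of_pos_left _ hd
    have hd'pos : 0 < d' := Nat.div_pos (Nat.le_of_dvd hd hgd) hgpos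
    have hgle : g ≤ Nat.gcd d (allProd blk (v + w)) :=
      Nat.le_of_dvd (Nat.gcd_pos_of_pos_left _ hd) (Nat.gcd_dvd_gcd_of_dvd_right d (shift_dvd hc))
    have hMle : p * H ^ w ≤ p * d' := by
      refine Nat.mul_le_mul_left _ ((Nat.le_div_iff_mul_le hgpos).2 ?_)
      exact (Nat.mul_le_mul_left _ hgle).trans hbig
    refine le_trans (Finset.card_le_card ?_) ((card_zd_mem_le W p
      ((Finset.Icc (-((p * H ^ w : ℕ) : ℤ)) (p * H ^ w : ℕ)).filter
        fun z => (d' : ℤ) ∣ z)).trans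
      (Nat.mul_le_mul_right _ (card_multiples_le hd'pos hMle)))
    intro s hs
    rw [Finset.mem_filter] at hs ⊢
    refine ⟨hs.1, ?_⟩
    rw [Finset.mem_filter, Finset.mem_Icc, ← abs_le]
    refine ⟨abs_zd_le (fun x hx => (pre_bounds (lo := 0)
      (fun j hj y hy => ⟨Nat.zero_le _, hH j hj y hy⟩) hx).2) hs.1, ?_⟩
    have h2 := hs.2
    rw [Int.natCast_dvd, Int.natAbs_mul, Int.natAbs_natCast] at h2
    rw [Int.natCast_dvd]
    have h3 : d ∣ (zd s).natAbs * g := by
      rw [hg, ← Nat.gcd_mul_left]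
      exact Nat.dvd_gcd (dvd_mul_left _ _) (by rwa [mul_comm])
    rw [hd']
    exact (Nat.div_dvd_iff_dvd_mul hgd hgpos).2 (by rwa [mul_comm])
  refine h1.trans ?_
  rw [hcardfull]
  calc (C.card : ℝ) ^ (2 * p - 1) * ∑ c ∈ C, (cnt2 d W p c ∅ 0 1 : ℝ)
      ≤ (C.card : ℝ) ^ (2 * p - 1)
          * ∑ _c ∈ C, ((2 * p + 1 : ℝ) * (J * (W.card : ℝ) ^ (2 * p))) := by
        refine mul_le_mul_of_nonneg_left (Finset.sum_le_sum fun c hc => ?_) (by positivity)
        refine (Nat.cast_le.2 (hbound c hc)).trans ?_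
        push_cast
        exact mul_le_mul_of_nonneg_left hJ (by positivity)
    _ = _ := by
        rw [Finset.sum_const, nsmul_eq_mul, Nat.cast_pow, Nat.cast_mul, mul_pow]
        obtain ⟨n, hn⟩ : ∃ n, 2 * p = n + 1 := ⟨2 * p - 1, by omega⟩
        rw [hn, Nat.add_sub_cancel, pow_succ]
        ring

/-- Small values are rare. -/
lemma prob_small_le (hgood : Good blk (v + w)) (hne : ∀ j < v + w, (blk j).Nonempty)
    (hL : ∀ j < v + w, ∀ g ∈ blk j, L ≤ g) (hp : 1 ≤ p)
    (hJ : (cnt (pre blk w) p : ℝ) ≤ J * ((pre blk w).card : ℝ) ^ (2 * p))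
    {Z T : ℕ} (hZ : 2 * Z ≤ T * L ^ v) (hLpos : 0 < L) :
    prob (pre blk (v + w)) p (fun z => z.natAbs ≤ Z) ≤ 2 * (2 * T + 1) * J := by
  classical
  set C := pre (shiftBlk blk w) v with hC
  set W := pre blk w with hW
  have hC0 : C.Nonempty := pre_nonempty fun j hj => hne (j + w) (by omega)
  have hfull := pre_nonempty hne
  rw [prob, Tup_card, div_le_iff₀ (by exact_mod_cast pow_pos (Finset.card_pos.2 hfull) _)]
  have hcardfull : (pre blk (v + w)).card = C.card * W.card := by
    rw [pre_split, Finset.card_image₂_iff.2 (pre_split_injOn hgood)]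
  set Pm := (pre blk (v + w)).sup id with hPm
  have hPmle : ∀ x ∈ pre blk (v + w), x ≤ Pm := fun x hx => Finset.le_sup (f := id) hx
  set Pw := W.sup id with hPw
  have hPwle : ∀ x ∈ W, x ≤ Pw := fun x hx => Finset.le_sup (f := id) hx
  set Cm := C.sup id with hCm
  have hCmle : ∀ x ∈ C, x ≤ Cm := fun x hx => Finset.le_sup (f := id) hx
  set N := p * Pm + Cm * (p * Pw) + 4 * Z + 1 with hN
  have : NeZero N := ⟨by omega⟩
  set B := Finset.range (2 * Z + 1) with hB
  have hlow : ((Tup (pre blk (v + w)) p).filter fun s => (zd s).natAbs ≤ Z).card * (Z + 1)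
      ≤ cnt2 N (pre blk (v + w)) p 1 B 1 1 := by
    rw [← Finset.card_range (Z + 1), ← Finset.card_product, cnt2]
    refine Finset.card_le_card_of_injOn (fun sj => (sj.1,
      ((fun _ => sj.2 + (-zd sj.1).toNat), (fun _ => sj.2 + (zd sj.1).toNat)))) ?_ ?_
    · intro sj hsj
      simp only [Finset.coe_product, Set.mem_prod, Finset.mem_coe, Finset.mem_filter,
        Finset.mem_range] at hsj
      simp only [Finset.coe_filter, Set.mem_setOf_eq, Finset.mem_product]
      refine ⟨⟨hsj.1.1, ?_⟩, ?_⟩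
      · simp only [Tup, Finset.mem_product, Fintype.mem_piFinset, hB, Finset.mem_range]
        exact ⟨fun _ => by omega, fun _ => by omega⟩
      · have h0 : (((1 : ℕ) : ℤ) * zd sj.1 + ((1 : ℕ) : ℤ) *
            zd ((fun _ : Fin 1 => sj.2 + (-zd sj.1).toNat),
              (fun _ : Fin 1 => sj.2 + (zd sj.1).toNat))) = 0 := by
          simp only [zd, Fin.sum_univ_one, Nat.cast_one, one_mul]
          push_cast
          omega
        rw [h0]
        exact dvd_zero _
    · intro a _ b _ h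
      simp only at h
      obtain ⟨h1, h2⟩ := Prod.mk.inj h
      obtain ⟨h2, -⟩ := Prod.mk.inj h2
      have h3 := congrFun h2 0
      rw [h1] at h3
      exact Prod.ext h1 (by omega)
  have hbound : ∀ c ∈ C, cnt2 N W p c B 1 1 ≤ (2 * T + 1) * cnt W p * (2 * Z + 1) := by
    intro c hc
    refine le_trans ?_ (Nat.mul_le_mul_right _ ((Nat.mul_le_mul_right _
      (show (Finset.Icc (-(T : ℤ)) T).card ≤ 2 * T + 1 by rw [Int.card_Icc]; omega)).trans'
        (card_zd_mem_le W p (Finset.Icc (-(T : ℤ)) T))))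
    rw [← Finset.card_range (2 * Z + 1), ← Finset.card_product, cnt2]
    have hcL : L ^ v ≤ c :=
      (pre_bounds (hi := c + Cm + (shiftBlk blk w 0).sup id + ∑ j ∈ Finset.range v,
          (shiftBlk blk w j).sup id) (fun j hj g hg => ⟨hL (j + w) (by omega) g hg, by
        have h1 : g ≤ (shiftBlk blk w j).sup id := Finset.le_sup (f := id) hg
        have h2 := Finset.single_le_sum (f := fun j => (shiftBlk blk w j).sup id)
          (fun i _ => Nat.zero_le _) (Finset.mem_range.2 hj)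
        omega⟩) hc).1
    have hval : ∀ st ∈ (Tup W p ×ˢ Tup B 1).filter
        (fun st => (N : ℤ) ∣ (c : ℤ) * zd st.1 + ((1 : ℕ) : ℤ) * zd st.2),
        st.1 ∈ Tup W p ∧ (c : ℤ) * zd st.1 + zd st.2 = 0 ∧ |zd st.1| ≤ T ∧
          st.2.1 0 ≤ 2 * Z ∧ st.2.2 0 ≤ 2 * Z := by
      intro st hst
      simp only [Finset.mem_filter, Finset.mem_product, Nat.cast_one, one_mul] at hst
      obtain ⟨⟨h1, h2⟩, h3⟩ := hst
      have h4 : |zd st.2| ≤ ((1 * (2 * Z) : ℕ) : ℤ) :=
        abs_zd_le (fun x hx => by rw [hB, Finset.mem_range] at hx; omega) h2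
      have h5 : |(c : ℤ) * zd st.1| ≤ ((Cm * (p * Pw) : ℕ) : ℤ) := by
        rw [abs_mul, Nat.abs_cast, Nat.cast_mul]
        exact mul_le_mul (by exact_mod_cast hCmle c hc) (abs_zd_le hPwle h1) (abs_nonneg _)
          (by positivity)
      have h6 : (c : ℤ) * zd st.1 + zd st.2 = 0 := by
        refine eq_zero_of_dvd_of_abs_lt h3 ((abs_add_le _ _).trans_lt ?_)
        rw [hN]
        push_cast
        push_cast at h4 h5
        have : (0 : ℤ) ≤ (p : ℤ) * Pm := by positivity
        omega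
      refine ⟨h1, h6, ?_, ?_⟩
      · have hcpos : (0 : ℤ) < c := by
          exact_mod_cast (pow_pos hLpos v).trans_le hcL
        have h7 : (c : ℤ) * |zd st.1| ≤ (c : ℤ) * T := by
          rw [← Nat.abs_cast c, ← abs_mul, Nat.abs_cast,
            show (c : ℤ) * zd st.1 = -zd st.2 by omega, abs_neg]
          refine h4.trans ?_
          rw [mul_comm (c : ℤ)]
          exact_mod_cast (by rw [one_mul]; exact hZ.trans (Nat.mul_le_mul_left _ hcL) :
            1 * (2 * Z) ≤ T * c)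
        exact le_of_mul_le_mul_left h7 hcpos
      · simp only [Tup, Finset.mem_product, Fintype.mem_piFinset, hB, Finset.mem_range] at h2
        exact ⟨Nat.lt_succ_iff.1 (h2.1 0), Nat.lt_succ_iff.1 (h2.2 0)⟩
    refine Finset.card_le_card_of_injOn (fun st => (st.1, st.2.1 0)) ?_ ?_
    · intro st hst
      obtain ⟨a1, -, a2, a3, -⟩ := hval st hst
      simp only [Finset.coe_product, Set.mem_prod, Finset.mem_coe, Finset.mem_filter,
        Finset.mem_Icc, Finset.mem_range]
      exact ⟨⟨a1, abs_le.1 a2⟩, by omega⟩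
    · intro a ha b hb h
      simp only [Prod.mk.injEq] at h
      obtain ⟨-, a2, -, -, -⟩ := hval a ha
      obtain ⟨-, b2, -, -, -⟩ := hval b hb
      rw [← h.1] at b2
      simp only [zd, Fin.sum_univ_one] at a2 b2
      refine Prod.ext h.1 (Prod.ext (funext fun i => ?_) (funext fun i => ?_))
      · rw [Subsingleton.elim i 0]; exact h.2
      · rw [Subsingleton.elim i 0]
        have := h.2
        omega
  have hsplit : (cnt2 N (pre blk (v + w)) p 1 B 1 1 : ℝ)
      ≤ (C.card : ℝ) ^ (2 * p - 1) * ∑ c ∈ C, (cnt2 N W p c B 1 1 : ℝ) := by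
    rw [pre_split]
    exact cnt2_split hp (pre_split_injOn hgood)
  refine le_of_mul_le_mul_right ?_ (by positivity : (0 : ℝ) < (Z : ℝ) + 1)
  have hW0 : (0 : ℝ) ≤ J * (W.card : ℝ) ^ (2 * p) := le_trans (Nat.cast_nonneg _) hJ
  calc (((Tup (pre blk (v + w)) p).filter fun s => (zd s).natAbs ≤ Z).card : ℝ) * ((Z : ℝ) + 1)
      ≤ (cnt2 N (pre blk (v + w)) p 1 B 1 1 : ℝ) := by exact_mod_cast hlow
    _ ≤ (C.card : ℝ) ^ (2 * p - 1) * ∑ _c ∈ C,
          ((2 * T + 1 : ℝ) * (J * (W.card : ℝ) ^ (2 * p)) * (2 * ((Z : ℝ) + 1))) := by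
        refine hsplit.trans (mul_le_mul_of_nonneg_left (Finset.sum_le_sum fun c hc => ?_)
          (by positivity))
        refine (Nat.cast_le.2 (hbound c hc)).trans ?_
        push_cast
        gcongr
        linarith
    _ = _ := by
        rw [Finset.sum_const, nsmul_eq_mul, hcardfull, Nat.cast_pow, Nat.cast_mul, mul_pow]
        obtain ⟨n, hn⟩ : ∃ n, 2 * p = n + 1 := ⟨2 * p - 1, by omega⟩
        rw [hn, Nat.add_sub_cancel, pow_succ]
        ring

end Blocks

/-- Collisions for a single element. -/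
lemma cnt_one_le {A : Finset ℕ} {J : ℝ} (hJ : (1 : ℝ) ≤ J * A.card) :
    (cnt A 1 : ℝ) ≤ J * (A.card : ℝ) ^ (2 * 1) := by
  have h : cnt A 1 ≤ A.card := by
    refine Finset.card_le_card_of_injOn (fun s => s.1 0) ?_ ?_
    · intro s hs
      simp only [Finset.coe_filter, Set.mem_setOf_eq, Tup, Finset.mem_product,
        Fintype.mem_piFinset] at hs
      exact hs.1.1 0
    · intro s hs t ht h
      simp only [Finset.coe_filter, Set.mem_setOf_eq, zd, Fin.sum_univ_one] at hs ht
      refine Prod.ext (funext fun i => ?_) (funext fun i => ?_) <;>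
        rw [Subsingleton.elim i 0]
      · exact h
      · simp only at h
        have := hs.2
        have := ht.2
        omega
  refine (Nat.cast_le.2 h).trans ?_
  have h2 := mul_le_mul_of_nonneg_right hJ (Nat.cast_nonneg A.card : (0 : ℝ) ≤ A.card)
  rw [one_mul, mul_assoc, ← sq] at h2
  simpa using h2

/-- Divisibility for the interval `[1, Y]`. -/
lemma prob_Icc_dvd_le {Y d : ℕ} (hd : 0 < d) (hdY : d ≤ Y) :
    prob (Finset.Icc 1 Y) 1 (fun z => (d : ℤ) ∣ z) ≤ 2 / (d : ℝ) := by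
  classical
  have hY : 0 < Y := by omega
  rw [prob, Tup_card, Nat.card_Icc, Nat.add_sub_cancel, mul_one]
  have h : ((Tup (Finset.Icc 1 Y) 1).filter fun s => (d : ℤ) ∣ zd s).card
      ≤ Y * (Y / d + 1) := by
    rw [Finset.card_eq_sum_card_fiberwise (f := fun s => s.1 0) (t := Finset.Icc 1 Y)]
    · refine (Finset.sum_le_card_nsmul _ _ (Y / d + 1) fun a _ => ?_).trans (le_of_eq (by simp))
      refine le_trans ?_ (card_Icc_spaced Y d hd (fun b : ℕ => (d : ℤ) ∣ (a : ℤ) - b)
        (fun t t' h1 h2 => by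
          have := dvd_sub h2 h1
          rwa [show ((a : ℤ) - t') - ((a : ℤ) - t) = (t : ℤ) - t' by ring] at this))
      refine Finset.card_le_card_of_injOn (fun s => s.2 0) ?_ ?_
      · intro s hs
        simp only [Finset.coe_filter, Set.mem_setOf_eq, Finset.mem_filter, Tup,
          Finset.mem_product, Fintype.mem_piFinset, zd, Fin.sum_univ_one] at hs ⊢
        exact ⟨hs.1.1.2 0, hs.2 ▸ hs.1.2⟩
      · intro s hs t ht h
        simp only [Finset.coe_filter, Set.mem_setOf_eq] at hs ht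
        simp only at h
        refine Prod.ext (funext fun i => ?_) (funext fun i => ?_) <;> rw [Subsingleton.elim i 0]
        · exact hs.2.trans ht.2.symm
        · exact h
    · intro s hs
      simp only [Finset.coe_filter, Set.mem_setOf_eq, Tup, Finset.mem_product,
        Fintype.mem_piFinset] at hs
      exact hs.1.1 0
  rw [div_le_div_iff₀ (by positivity) (by exact_mod_cast hd)]
  refine (mul_le_mul_of_nonneg_right (Nat.cast_le.2 h) (by positivity)).trans ?_
  have h2 : Y * (Y / d + 1) * d ≤ 2 * Y ^ 2 := by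
    calc Y * (Y / d + 1) * d = Y * ((Y / d) * d + d) := by ring
      _ ≤ Y * (Y + Y) := Nat.mul_le_mul_left _ (Nat.add_le_add (Nat.div_mul_le_self _ _) hdY)
      _ = 2 * Y ^ 2 := by ring
  exact_mod_cast h2

/-- Small values for the interval `[1, Y]`. -/
lemma prob_Icc_small_le {Y Z : ℕ} (hY : 0 < Y) :
    prob (Finset.Icc 1 Y) 1 (fun z => z.natAbs ≤ Z) ≤ (2 * (Z : ℝ) + 1) / Y := by
  classical
  rw [prob, Tup_card, Nat.card_Icc, Nat.add_sub_cancel, mul_one]
  have h : ((Tup (Finset.Icc 1 Y) 1).filter fun s => (zd s).natAbs ≤ Z).card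
      ≤ Y * (2 * Z + 1) := by
    refine le_trans ?_ (le_of_eq (show (Finset.Icc 1 Y ×ˢ Finset.Icc (-(Z : ℤ)) Z).card = _ by
      rw [Finset.card_product, Nat.card_Icc, Int.card_Icc]; congr 1 <;> omega))
    refine Finset.card_le_card_of_injOn (fun s => (s.1 0, zd s)) ?_ ?_
    · intro s hs
      simp only [Finset.coe_filter, Set.mem_setOf_eq, Tup, Finset.mem_product,
        Fintype.mem_piFinset] at hs
      simp only [Finset.coe_product, Set.mem_prod, Finset.mem_coe]
      exact ⟨hs.1.1 0, Finset.mem_Icc.2 ⟨by omega, by omega⟩⟩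
    · intro s _ t _ h
      simp only [Prod.mk.injEq, zd, Fin.sum_univ_one] at h
      refine Prod.ext (funext fun i => ?_) (funext fun i => ?_) <;> rw [Subsingleton.elim i 0]
      · exact h.1
      · have := h.1
        have := h.2
        omega
  rw [div_le_div_iff₀ (by positivity) (by exact_mod_cast hY)]
  refine (mul_le_mul_of_nonneg_right (Nat.cast_le.2 h) (by positivity)).trans (le_of_eq ?_)
  push_cast
  ring

end Vale.Agent.P012
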