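import Vale.Agent.P012.Pool
import Vale.Agent.P012.Primes
import Vale.Agent.P012.Cover
import Vale.Agent.P012.Small

/-!
A number with few prime factors whose divisors represent all residues of a large prime.
-/

namespace Vale.Agent.P012

open Finset

lemma exists_chunks {G : Finset ℕ} {K r : ℕ} (h : K * r ≤ G.card) :
    ∃ f : ℕ → Finset ℕ, (∀ k < K, f k ⊆ G ∧ (f k).card = r) ∧
      ∀ i < K, ∀ j < K, i ≠ j → Disjoint (f i) (f j) := by
  classical
  induction K generalizing G with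
  | zero => exact ⟨fun _ => ∅, by omega, by omega⟩
  | succ K ih =>
    rw [Nat.succ_mul] at h
    obtain ⟨S, hS, hScard⟩ := Finset.exists_subset_card_eq (s := G) (n := r) (by omega)
    obtain ⟨f, hf, hdisj⟩ := ih (G := G \ S) (by rw [Finset.card_sdiff_of_subset hS]; omega)
    refine ⟨Function.update f K S, fun k hk => ?_, fun i hi j hj hij => ?_⟩
    · rcases eq_or_ne k K with rfl | hkK
      · simp [hS, hScard]
      · rw [Function.update_of_ne hkK]
        exact ⟨(hf k (by omega)).1.trans Finset.sdiff_subset, (hf k (by omega)).2⟩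
    · rcases eq_or_ne i K with rfl | hiK
      · rw [Function.update_self, Function.update_of_ne (Ne.symm hij)]
        exact Finset.disjoint_sdiff.mono_right (hf j (by omega)).1
      · rcases eq_or_ne j K with rfl | hjK
        · rw [Function.update_self, Function.update_of_ne hij]
          exact (Finset.disjoint_sdiff.mono_right (hf i (by omega)).1).symm
        · rw [Function.update_of_ne hiK, Function.update_of_ne hjK]
          exact hdisj i (by omega) j (by omega) hij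

lemma pow_spread {L s k : ℕ} (hs : 0 < s) (hk : k ≤ s) : (L + L / s) ^ k ≤ 3 * L ^ k := by
  have hs' : (0 : ℝ) < s := by exact_mod_cast hs
  suffices h : ((L : ℝ) + (L / s : ℕ)) ^ k ≤ 3 * (L : ℝ) ^ k by exact_mod_cast h
  calc ((L : ℝ) + (L / s : ℕ)) ^ k ≤ ((L : ℝ) * (1 + 1 / (s : ℝ))) ^ k := by
        gcongr
        rw [mul_add, mul_one, mul_one_div, add_le_add_iff_left]
        exact Nat.cast_div_le
    _ = (L : ℝ) ^ k * (1 + 1 / (s : ℝ)) ^ k := mul_pow _ _ _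
    _ ≤ (L : ℝ) ^ k * 3 := by
        gcongr
        calc (1 + 1 / (s : ℝ)) ^ k ≤ (1 + 1 / (s : ℝ)) ^ s :=
              pow_le_pow_right₀ (le_add_of_nonneg_right (by positivity)) hk
          _ ≤ (Real.exp (1 / (s : ℝ))) ^ s := by
              refine pow_le_pow_left₀ (by positivity) ?_ _
              rw [add_comm]; exact Real.add_one_le_exp _
          _ = Real.exp 1 := by rw [← Real.exp_nat_mul]; congr 1; field_simp
          _ ≤ 3 := Real.exp_one_lt_three.le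
    _ = 3 * (L : ℝ) ^ k := mul_comm _ _

lemma exists_greatest {P : ℕ → Prop} [DecidablePred P] {u : ℕ} (h0 : P 0) (hu : ¬ P u) :
    ∃ w < u, P w ∧ ¬ P (w + 1) := by
  induction u with
  | zero => exact absurd h0 hu
  | succ u ih =>
    by_cases h : P u
    · exact ⟨u, by omega, h, hu⟩
    · obtain ⟨w, hw, h'⟩ := ih h
      exact ⟨w, by omega, h'⟩

lemma gcd_sq_le_or {d A B : ℕ} (hd : 0 < d) (hcop : Nat.Coprime A B) :
    Nat.gcd d A ^ 2 ≤ d ∨ Nat.gcd d B ^ 2 ≤ d := by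
  have h : Nat.gcd d A * Nat.gcd d B ≤ d :=
    Nat.le_of_dvd hd (Nat.Coprime.mul_dvd_of_dvd_of_dvd
      ((hcop.coprime_dvd_left (Nat.gcd_dvd_right d A)).coprime_dvd_right (Nat.gcd_dvd_right d B))
      (Nat.gcd_dvd_left d A) (Nat.gcd_dvd_left d B))
  rcases le_total (Nat.gcd d A) (Nat.gcd d B) with h' | h'
  · exact Or.inl (le_trans (by rw [sq]; exact Nat.mul_le_mul_left _ h') h)
  · exact Or.inr (le_trans (by rw [sq]; exact Nat.mul_le_mul_right _ h') h)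

lemma allProd_coprime {b b' : ℕ → Finset ℕ} {u : ℕ} (hg : Good b u) (hg' : Good b' u)
    (h : ∀ i < u, ∀ j < u, Disjoint (b i) (b' j)) :
    Nat.Coprime (allProd b u) (allProd b' u) := by
  refine Nat.Coprime.prod_left fun i hi => Nat.Coprime.prod_left fun g hgm =>
    Nat.Coprime.prod_right fun j hj => Nat.Coprime.prod_right fun g' hgm' => ?_
  rw [Finset.mem_range] at hi hj
  refine (Nat.coprime_primes (hg.prime i hi g hgm) (hg'.prime j hj g' hgm')).2 ?_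
  rintro rfl
  exact Finset.disjoint_left.1 (h i hi j hj) hgm hgm'

lemma allProd_le {blk : ℕ → Finset ℕ} {u r e : ℕ} (hH : ∀ j < u, ∀ g ∈ blk j, g ≤ 2 ^ e)
    (hr : ∀ j < u, (blk j).card = r) : allProd blk u ≤ 2 ^ (e * r * u) := by
  rw [allProd, pow_mul]
  refine (Finset.prod_le_prod' fun j hj => (?_ : _ ≤ 2 ^ (e * r))).trans (by simp)
  rw [Finset.mem_range] at hj
  refine (Finset.prod_le_prod' fun g hg => hH j hj g hg).trans ?_
  rw [Finset.prod_const, hr j hj, pow_mul]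

/-- Probability bounds for one family of blocks at a given scale. -/
lemma block_bounds {b b' : ℕ → Finset ℕ} {u L p d : ℕ} {J : ℝ} {w : ℕ} (hw : w ≤ u) (hu : 0 < u)
    (hL : 0 < L) (hp : 1 ≤ p) (hd : 0 < d)
    (hg : Good b u) (hg' : Good b' u) (hdisj : ∀ i < u, ∀ j < u, Disjoint (b i) (b' j))
    (hne : ∀ j < u, (b j).Nonempty ∧ (b' j).Nonempty)
    (hb : ∀ j < u, ∀ g ∈ b j, L ≤ g ∧ g ≤ L + L / u)
    (hb' : ∀ j < u, ∀ g ∈ b' j, L ≤ g ∧ g ≤ L + L / u)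
    (hJ : (cnt (pre b w) p : ℝ) ≤ J * ((pre b w).card : ℝ) ^ (2 * p))
    (hJ' : (cnt (pre b' w) p : ℝ) ≤ J * ((pre b' w).card : ℝ) ^ (2 * p))
    (hscale : 9 * (L ^ w) ^ 2 ≤ d) :
    (prob (pre b u) p (fun z => (d : ℤ) ∣ z) ≤ (2 * p + 18) * J ∨
      prob (pre b' u) p (fun z => (d : ℤ) ∣ z) ≤ (2 * p + 18) * J) ∧
    prob (pre b u) p (fun z => z.natAbs ≤ 2 * L ^ u / d) ≤ (2 * p + 18) * J := by
  obtain ⟨v, rfl⟩ : ∃ v, u = v + w := ⟨u - w, by omega⟩
  have hJ0 : 0 ≤ J := by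
    have hpos : (0 : ℝ) < ((pre b w).card : ℝ) ^ (2 * p) :=
      pow_pos (Nat.cast_pos.2 (Finset.card_pos.2
        (pre_nonempty fun j hj => (hne j (by omega)).1))) _
    exact nonneg_of_mul_nonneg_left (le_trans (Nat.cast_nonneg _) hJ) hpos
  have hH : (L + L / (v + w)) ^ w ≤ 3 * L ^ w := pow_spread hu (Nat.le_add_left _ _)
  have hbig : ∀ g : ℕ, g ^ 2 ≤ d → (L + L / (v + w)) ^ w * g ≤ d := by
    intro g hgd
    refine (Nat.pow_le_pow_iff_left (n := 2) (by norm_num)).1 ?_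
    rw [mul_pow, sq d]
    refine Nat.mul_le_mul ?_ hgd
    refine (Nat.pow_le_pow_left hH 2).trans ?_
    rw [mul_pow]
    exact hscale
  constructor
  · rcases gcd_sq_le_or hd (allProd_coprime hg hg' hdisj) with h | h
    · refine Or.inl ((prob_dvd_le hg (fun j hj => (hne j hj).1)
        (fun j hj g hgm => (hb j (by omega) g hgm).2) hp hJ hd (hbig _ h)).trans ?_)
      gcongr
      linarith
    · refine Or.inr ((prob_dvd_le hg' (fun j hj => (hne j hj).2)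
        (fun j hj g hgm => (hb' j (by omega) g hgm).2) hp hJ' hd (hbig _ h)).trans ?_)
      gcongr
      linarith
  · refine (prob_small_le (T := 4) hg (fun j hj => (hne j hj).1)
      (fun j hj g hgm => (hb j hj g hgm).1) hp hJ ?_ hL).trans ?_
    · have h1 : L ^ w ≤ d := by nlinarith [Nat.one_le_pow w L hL]
      have h2 : 2 * L ^ (v + w) / d ≤ 2 * L ^ v := by
        refine Nat.div_le_of_le_mul ?_
        rw [pow_add]
        calc 2 * (L ^ v * L ^ w) ≤ 2 * (L ^ v * d) := by gcongr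
          _ = d * (2 * L ^ v) := by ring
      omega
    · refine mul_le_mul_of_nonneg_right ?_ hJ0
      have : (1 : ℝ) ≤ p := by exact_mod_cast hp
      push_cast
      linarith

/-- The index type of the groups. -/
abbrev Kind := Fin 5 ⊕ ((Fin 2 × Fin 80) ⊕ (Fin 2 × Fin 120))

lemma prod_kind_le_y {f : Kind → ℝ} (h0 : ∀ i, 0 ≤ f i) (h1 : ∀ i, f i ≤ 1) :
    ∏ i, f i ≤ ∏ i, f (Sum.inl i) := by
  rw [Fintype.prod_sum_type]
  exact mul_le_of_le_one_right (Finset.prod_nonneg fun i _ => h0 _)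
    (Finset.prod_le_one (fun i _ => h0 _) fun i _ => h1 _)

lemma prod_kind_le_B {f : Kind → ℝ} (h0 : ∀ i, 0 ≤ f i) (h1 : ∀ i, f i ≤ 1) (k : Fin 2) :
    ∏ i, f i ≤ ∏ c, f (Sum.inr (Sum.inl (k, c))) := by
  rw [Fintype.prod_sum_type]
  refine (mul_le_of_le_one_left (Finset.prod_nonneg fun i _ => h0 _)
    (Finset.prod_le_one (fun i _ => h0 _) fun i _ => h1 _)).trans ?_
  rw [Fintype.prod_sum_type]
  refine (mul_le_of_le_one_right (Finset.prod_nonneg fun i _ => h0 _)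
    (Finset.prod_le_one (fun i _ => h0 _) fun i _ => h1 _)).trans ?_
  rw [Fintype.prod_prod_type, Fin.prod_univ_two]
  have hn : ∀ j : Fin 2, 0 ≤ ∏ c, f (Sum.inr (Sum.inl (j, c))) :=
    fun j => Finset.prod_nonneg fun i _ => h0 _
  have hl : ∀ j : Fin 2, ∏ c, f (Sum.inr (Sum.inl (j, c))) ≤ 1 :=
    fun j => Finset.prod_le_one (fun i _ => h0 _) fun i _ => h1 _
  fin_cases k
  · exact mul_le_of_le_one_right (hn 0) (hl 1)
  · exact mul_le_of_le_one_left (hn 1) (hl 0)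

lemma prod_kind_le_A {f : Kind → ℝ} (h0 : ∀ i, 0 ≤ f i) (h1 : ∀ i, f i ≤ 1) (k : Fin 2) :
    ∏ i, f i ≤ ∏ c, f (Sum.inr (Sum.inr (k, c))) := by
  rw [Fintype.prod_sum_type]
  refine (mul_le_of_le_one_left (Finset.prod_nonneg fun i _ => h0 _)
    (Finset.prod_le_one (fun i _ => h0 _) fun i _ => h1 _)).trans ?_
  rw [Fintype.prod_sum_type]
  refine (mul_le_of_le_one_left (Finset.prod_nonneg fun i _ => h0 _)
    (Finset.prod_le_one (fun i _ => h0 _) fun i _ => h1 _)).trans ?_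
  rw [Fintype.prod_prod_type, Fin.prod_univ_two]
  have hn : ∀ j : Fin 2, 0 ≤ ∏ c, f (Sum.inr (Sum.inr (j, c))) :=
    fun j => Finset.prod_nonneg fun i _ => h0 _
  have hl : ∀ j : Fin 2, ∏ c, f (Sum.inr (Sum.inr (j, c))) ≤ 1 :=
    fun j => Finset.prod_le_one (fun i _ => h0 _) fun i _ => h1 _
  fin_cases k
  · exact mul_le_of_le_one_right (hn 0) (hl 1)
  · exact mul_le_of_le_one_left (hn 1) (hl 0)

lemma prob_transfer {A : Finset ℕ} {p d Q X N0 : ℕ} (hQ : 0 < Q) (hN : N0 ≤ 2 * (Q * X))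
    (hd : 0 < d) :
    prob A p (fun z => d * (Q * z.natAbs) ≤ N0) ≤ prob A p (fun z => z.natAbs ≤ 2 * X / d) := by
  refine prob_mono fun z hz => ?_
  rw [Nat.le_div_iff_mul_le hd]
  refine le_of_mul_le_mul_left (a := Q) ?_ hQ
  calc Q * (z.natAbs * d) = d * (Q * z.natAbs) := by ring
    _ ≤ 2 * (Q * X) := hz.trans hN
    _ = Q * (2 * X) := by ring

lemma two_mul_add_one_le_pow (l : ℕ) (hl : 8 ≤ l) :
    8 * (20 * l + 1) ≤ 2 ^ (4 * l) ∧ 4 * (300 * l + 1) ≤ 2 ^ (2 * l)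
      ∧ 161300 * l ^ 2 ≤ 2 ^ (5 * l) := by
  induction l, hl using Nat.le_induction with
  | base => norm_num
  | succ l hl ih =>
    obtain ⟨h1, h2, h3⟩ := ih
    refine ⟨?_, ?_, ?_⟩
    · rw [show 4 * (l + 1) = 4 * l + 4 by ring, pow_add]; omega
    · rw [show 2 * (l + 1) = 2 * l + 2 by ring, pow_add]; omega
    · rw [show 5 * (l + 1) = 5 * l + 5 by ring, pow_add]; nlinarith

lemma J_pool_bound {p w : ℕ} {c : ℝ} (hw : 4 * p + 20 ≤ w) (hc : c ≤ 2 ^ p) :
    c * ((16 * 4 ^ p : ℝ) ^ p / 2 ^ (p * w)) ≤ 1 / 2 ^ (p / 2 * w) := by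
  refine (mul_le_mul_of_nonneg_right hc (by positivity)).trans ?_
  have e : (16 * 4 ^ p : ℝ) = 2 ^ (4 + 2 * p) := by rw [pow_add, pow_mul]; norm_num
  rw [e, ← pow_mul, ← mul_div_assoc, ← pow_add, div_le_div_iff₀ (by positivity) (by positivity),
    one_mul, ← pow_add]
  refine pow_le_pow_right₀ (by norm_num) ?_
  have h1 : p / 2 * 2 ≤ p := Nat.div_mul_le_self p 2
  have h2 : p / 2 * 2 * w ≤ p * w := Nat.mul_le_mul_right w h1
  have h3 : p * (4 * p + 20) ≤ p * w := Nat.mul_le_mul_left p hw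
  nlinarith

/-- The main constant of the averaging argument. -/
def bigC : ℕ := 1 + 6 * 406 ^ 2 + 36 * (20 ^ 80 + 3126)

/-- The collision bound for the small blocks. -/
noncomputable def jB (l w : ℕ) : ℝ := 1 / 2 ^ (6 * l * w)

/-- The collision bound for the large blocks. -/
noncomputable def jA (l w : ℕ) : ℝ := (16 * 4 ^ (64 * l) : ℝ) ^ (64 * l) / 2 ^ (64 * l * w)

/-- The properties of two disjoint families of blocks in a short interval. -/
structure TwoFamilies (b : Fin 2 → ℕ → Finset ℕ) (u L r p : ℕ) (J : ℕ → ℝ) : Prop where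
  good : ∀ k, Good (b k) u
  disj : ∀ i < u, ∀ j < u, Disjoint (b 0 i) (b 1 j)
  card : ∀ k, ∀ j < u, (b k j).card = r
  ne : ∀ k, ∀ j < u, (b k j).Nonempty
  bd : ∀ k, ∀ j < u, ∀ g ∈ b k j, L ≤ g ∧ g ≤ L + L / u
  coll : ∀ k, ∀ w ≤ u, (cnt (pre (b k) w) p : ℝ) ≤ J w * ((pre (b k) w).card : ℝ) ^ (2 * p)

lemma exists_small_blocks (l : ℕ) (hl : 8 ≤ l) :
    ∃ bB : Fin 2 → ℕ → Finset ℕ, ∃ L0 : ℕ, 2 ^ (20 * l) ≤ L0 ∧ L0 < 2 * 2 ^ (20 * l) ∧
      TwoFamilies bB (2 ^ (5 * l)) L0 (2 ^ (6 * l)) 1 (jB l) := by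
  classical
  obtain ⟨hl1, -, -⟩ := two_mul_add_one_le_pow l hl
  set s := 2 ^ (5 * l) with hs
  -- the small blocks
  obtain ⟨L0, GB, hL0, hL0', hGB, hGBc⟩ :=
    exists_prime_slice (e := 20 * l) (k := 5 * l) (by omega) (by omega)
  have hGBcard : 2 * s * 2 ^ (6 * l) ≤ GB.card := by
    refine le_of_mul_le_mul_left (a := 4 * (20 * l + 1) * 2 ^ (5 * l)) ?_ (by positivity)
    refine le_trans ?_ hGBc
    calc 4 * (20 * l + 1) * 2 ^ (5 * l) * (2 * s * 2 ^ (6 * l))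
        = 8 * (20 * l + 1) * (2 ^ (5 * l) * s * 2 ^ (6 * l)) := by ring
      _ ≤ 2 ^ (4 * l) * (2 ^ (5 * l) * s * 2 ^ (6 * l)) := Nat.mul_le_mul_right _ hl1
      _ = 2 ^ (20 * l) := by rw [hs, ← pow_add, ← pow_add, ← pow_add]; congr 1; omega
  obtain ⟨f, hf, hfd⟩ := exists_chunks (G := GB) (K := 2 * s) (r := 2 ^ (6 * l)) hGBcard
  set bB : Fin 2 → ℕ → Finset ℕ := fun k j => f (k.val * s + j) with hbB
  have hBidx : ∀ k : Fin 2, ∀ j < s, k.val * s + j < 2 * s := by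
    intro k j hj
    have : k.val * s ≤ 1 * s := Nat.mul_le_mul_right s (by omega)
    omega
  have hBsub : ∀ k : Fin 2, ∀ j < s, bB k j ⊆ GB ∧ (bB k j).card = 2 ^ (6 * l) :=
    fun k j hj => hf _ (hBidx k j hj)
  have hBne : ∀ k : Fin 2, ∀ j < s, (bB k j).Nonempty := fun k j hj =>
    Finset.card_pos.1 (by rw [(hBsub k j hj).2]; positivity)
  have hBbd : ∀ k : Fin 2, ∀ j < s, ∀ g ∈ bB k j, L0 ≤ g ∧ g ≤ L0 + L0 / s := by
    intro k j hj g hg
    have := hGB g ((hBsub k j hj).1 hg)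
    exact ⟨by omega, this.2.2⟩
  have hBgood : ∀ k : Fin 2, Good (bB k) s := fun k =>
    ⟨fun j hj g hg => (hGB g ((hBsub k j hj).1 hg)).1,
      fun i hi j hj hij => hfd _ (hBidx k i hi) _ (hBidx k j hj) (by omega)⟩
  have hBdisj : ∀ k k' : Fin 2, k ≠ k' → ∀ i < s, ∀ j < s, Disjoint (bB k i) (bB k' j) := by
    intro k k' hk i hi j hj
    refine hfd _ (hBidx k i hi) _ (hBidx k' j hj) ?_
    fin_cases k <;> fin_cases k' <;> simp_all <;> omega
  have hJBdef : ∀ w, jB l w = 1 / 2 ^ (6 * l * w) := fun w => rfl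
  have hJB : ∀ k, ∀ w ≤ s, (cnt (pre (bB k) w) 1 : ℝ)
      ≤ jB l w * ((pre (bB k) w).card : ℝ) ^ (2 * 1) := by
    intro k w hw
    refine cnt_one_le (le_of_eq ?_)
    rw [card_pre ((hBgood k).mono hw),
      Finset.prod_congr rfl fun j hj => (hBsub k j (by rw [Finset.mem_range] at hj; omega)).2,
      Finset.prod_const, Finset.card_range, hJBdef, ← pow_mul, Nat.cast_pow, Nat.cast_ofNat,
      div_mul_cancel₀ _ (by positivity)]
  exact ⟨bB, L0, hL0, hL0', hBgood, hBdisj 0 1 (by decide),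
    fun k j hj => (hBsub k j hj).2, hBne, hBbd, hJB⟩

lemma exists_large_blocks (l : ℕ) (hl : 8 ≤ l) :
    ∃ bA : Fin 2 → ℕ → Finset ℕ, ∃ L : ℕ, 2 ^ (300 * l) ≤ L ∧ L < 2 * 2 ^ (300 * l) ∧
      TwoFamilies bA (2 ^ (60 * l)) L 2 (64 * l) (jA l) := by
  classical
  obtain ⟨-, hl2, -⟩ := two_mul_add_one_le_pow l hl
  set u := 2 ^ (60 * l) with hu
  have hu0 : 0 < u := Nat.two_pow_pos _
  have hpow : ∀ a b : ℕ, a ≤ b → 2 ^ a ≤ 2 ^ b := fun a b h => Nat.pow_le_pow_right (by norm_num) h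
  -- the large blocks
  obtain ⟨L, GA, hL, hL', hGA, hGAc⟩ :=
    exists_prime_slice (e := 300 * l) (k := 60 * l) (by omega) (by omega)
  have hGAcard : 2 ^ (238 * l) ≤ GA.card := by
    refine le_of_mul_le_mul_left (a := 4 * (300 * l + 1) * 2 ^ (60 * l)) ?_ (by positivity)
    refine le_trans ?_ hGAc
    calc 4 * (300 * l + 1) * 2 ^ (60 * l) * 2 ^ (238 * l)
        = 4 * (300 * l + 1) * (2 ^ (60 * l) * 2 ^ (238 * l)) := mul_assoc _ _ _
      _ ≤ 2 ^ (2 * l) * (2 ^ (60 * l) * 2 ^ (238 * l)) := Nat.mul_le_mul_right _ hl2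
      _ = 2 ^ (300 * l) := by rw [← pow_add, ← pow_add]; congr 1; omega
  have hHle : L + L / u ≤ 2 ^ (300 * l + 2) := by
    have := Nat.div_le_self L u
    rw [pow_add]; omega
  have hGA' : ∀ g ∈ GA, Nat.Prime g ∧ 2 ^ (300 * l) ≤ g ∧ g ≤ L + L / u := fun g hg =>
    ⟨(hGA g hg).1, by have := (hGA g hg).2.1; omega, (hGA g hg).2.2⟩
  have hLpos : 0 < L := lt_of_lt_of_le (Nat.two_pow_pos _) hL
  have hom : ∀ w < u, 32 * l * (L + L / u) ^ w < (2 ^ (300 * l)) ^ (2 * u + 1) := by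
    intro w hw
    have h1 : 32 * l < 2 ^ (l + 5) := by
      rw [pow_add]
      have := Nat.lt_two_pow_self (n := l)
      omega
    calc 32 * l * (L + L / u) ^ w
        < 2 ^ (l + 5) * (L + L / u) ^ w := Nat.mul_lt_mul_of_pos_right h1 (pow_pos (Nat.add_pos_left hLpos _) _)
      _ ≤ 2 ^ (l + 5) * 2 ^ ((300 * l + 2) * w) := by
          rw [pow_mul 2]; gcongr
      _ ≤ (2 ^ (300 * l)) ^ (2 * u + 1) := by
          rw [← pow_add, ← pow_mul]
          refine hpow _ _ ?_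
          have : (300 * l + 2) * w ≤ (300 * l + 2) * u := Nat.mul_le_mul_left _ hw.le
          nlinarith
  have hnum : ∀ G : Finset ℕ, GA.card ≤ G.card + 2 * u →
      2 * u + 2 ≤ G.card ∧
        (((2 * u : ℕ)) : ℝ) * (4 * 4 ^ (2 * (32 * l))) + 2 * u ≤ (G.card : ℝ) - 1 := by
    intro G hG
    have h1 : 2 * u * (4 * 4 ^ (2 * (32 * l))) + 4 * u + 2 ≤ GA.card := by
      refine le_trans ?_ hGAcard
      have e : 2 * u * (4 * 4 ^ (2 * (32 * l))) = 2 ^ (188 * l + 3) := by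
        rw [hu, show (4 : ℕ) = 2 ^ 2 by rfl, ← pow_mul, ← pow_add, show 188 * l + 3
          = 1 + 60 * l + (2 + 2 * (2 * (32 * l))) by omega, pow_add, pow_add]
        ring
      have h2 : 4 * u + 2 ≤ 2 ^ (188 * l + 3) := by
        rw [← e]
        nlinarith [Nat.one_le_pow (2 * (32 * l)) 4 (by norm_num)]
      rw [e]
      have h3 : 2 ^ (188 * l + 3) * 2 ≤ 2 ^ (238 * l) := by
        rw [← pow_succ]; exact hpow _ _ (by omega)
      omega
    refine ⟨by nlinarith [Nat.zero_le (4 ^ (2 * (32 * l)))], ?_⟩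
    have h1' : (2 * (u : ℝ)) * (4 * 4 ^ (2 * (32 * l))) + 4 * u + 2 ≤ GA.card := by exact_mod_cast h1
    have h2' : (GA.card : ℝ) ≤ G.card + 2 * u := by exact_mod_cast hG
    push_cast
    linarith
  obtain ⟨a0, ha0, ga0, ca0⟩ := exists_pool (G := GA) (U := 2 ^ (300 * l)) (H := L + L / u)
    (a := 32 * l) (u := u) (om := 2 * u) (by omega)
    (le_trans (by norm_num) (hpow 1 _ (by omega))) hGA' hom
    (hnum GA (Nat.le_add_right _ _)).1 (hnum GA (Nat.le_add_right _ _)).2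
  set used := (Finset.range u).biUnion a0 with hused
  have husedc : GA.card ≤ (GA \ used).card + 2 * u := by
    refine Finset.card_le_card_sdiff_add_card.trans (Nat.add_le_add_left ?_ _)
    refine Finset.card_biUnion_le.trans ?_
    rw [Finset.sum_congr rfl fun j hj => (ha0 j (Finset.mem_range.1 hj)).2]
    simp [mul_comm]
  obtain ⟨a1, ha1, ga1, ca1⟩ := exists_pool (G := GA \ used) (U := 2 ^ (300 * l)) (H := L + L / u)
    (a := 32 * l) (u := u) (om := 2 * u) (by omega)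
    (le_trans (by norm_num) (hpow 1 _ (by omega)))
    (fun g hg => hGA' g (Finset.mem_sdiff.1 hg).1) hom (hnum _ husedc).1 (hnum _ husedc).2
  set bA : Fin 2 → ℕ → Finset ℕ := ![a0, a1] with hbA
  have hAgood : ∀ k, Good (bA k) u := by intro k; fin_cases k <;> assumption
  have hAsub : ∀ k, ∀ j < u, bA k j ⊆ GA ∧ (bA k j).card = 2 := by
    intro k j hj
    fin_cases k
    · exact ha0 j hj
    · exact ⟨(ha1 j hj).1.trans Finset.sdiff_subset, (ha1 j hj).2⟩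
  have hAne : ∀ k, ∀ j < u, (bA k j).Nonempty := fun k j hj =>
    Finset.card_pos.1 (by rw [(hAsub k j hj).2]; norm_num)
  have hAbd : ∀ k, ∀ j < u, ∀ g ∈ bA k j, L ≤ g ∧ g ≤ L + L / u := by
    intro k j hj g hg
    have := hGA g ((hAsub k j hj).1 hg)
    exact ⟨by omega, this.2.2⟩
  have hAdisj : ∀ i < u, ∀ j < u, Disjoint (a0 i) (a1 j) := by
    intro i hi j hj
    rw [Finset.disjoint_left]
    intro g hg hg'
    exact (Finset.mem_sdiff.1 ((ha1 j hj).1 hg')).2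
      (Finset.mem_biUnion.2 ⟨i, Finset.mem_range.2 hi, hg⟩)
  -- collision bounds
  have hJAdef : ∀ w, jA l w = (16 * 4 ^ (64 * l) : ℝ) ^ (64 * l) / 2 ^ (64 * l * w) := fun w => rfl
  have hJA : ∀ k, ∀ w ≤ u, (cnt (pre (bA k) w) (64 * l) : ℝ)
      ≤ jA l w * ((pre (bA k) w).card : ℝ) ^ (2 * (64 * l)) := by
    intro k w hw
    rw [card_pre ((hAgood k).mono hw),
      Finset.prod_congr rfl fun j hj => (hAsub k j (by rw [Finset.mem_range] at hj; omega)).2,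
      Finset.prod_const, Finset.card_range, Nat.cast_pow, Nat.cast_ofNat]
    have hc : (cnt (pre (bA k) w) (2 * (32 * l)) : ℝ)
        ≤ (16 * 4 ^ (2 * (32 * l))) ^ (2 * (32 * l) - 1) * 2 ^ (2 * (32 * l) * w) := by
      fin_cases k
      · exact ca0 w hw
      · exact ca1 w hw
    rw [show 2 * (32 * l) = 64 * l by ring] at hc
    refine hc.trans ?_
    rw [hJAdef, ← pow_mul, show w * (2 * (64 * l)) = 64 * l * w + 64 * l * w by ring,
      pow_add (2 : ℝ) (64 * l * w), ← mul_assoc, div_mul_cancel₀ _ (by positivity)]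
    refine mul_le_mul_of_nonneg_right (pow_le_pow_right₀ ?_ (Nat.sub_le _ _)) (by positivity)
    linarith [one_le_pow₀ (n := 64 * l) (by norm_num : (1 : ℝ) ≤ 4)]
  exact ⟨bA, L, hL, hL', hAgood, hAdisj, fun k j hj => (hAsub k j hj).2, hAne, hAbd, hJA⟩

/-- The constant in the decay of the probabilities. -/
noncomputable def decayC : ℝ := 20 ^ 80 + 3126

lemma scale_small {l L0 d : ℕ} (hl : 8 ≤ l) (hL0 : 2 ^ (20 * l) ≤ L0) (hL0' : L0 < 2 * 2 ^ (20 * l))
    (hd1 : 2 ^ (60 * l) < d) (hd2 : d ≤ 2 ^ 2 ^ (5 * l)) :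
    ∃ w, w ≤ 2 ^ (5 * l) ∧ 9 * (L0 ^ w) ^ 2 ≤ d ∧
      ((20 : ℝ) * jB l w) ^ 80 ≤ decayC / (d : ℝ) ^ 4 := by
  set u := 2 ^ (60 * l) with hu
  set s := 2 ^ (5 * l) with hs
  have hpow : ∀ a b : ℕ, a ≤ b → 2 ^ a ≤ 2 ^ b := fun a b h => Nat.pow_le_pow_right (by norm_num) h
  have hL0pos : 0 < L0 := lt_of_lt_of_le (Nat.two_pow_pos _) hL0
  obtain ⟨w, hws, hw1, hw2⟩ := exists_greatest (P := fun w => 9 * (L0 ^ w) ^ 2 ≤ d) (u := s)
    (by simp only [pow_zero, one_pow, mul_one]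
        have : 16 ≤ u := le_trans (by norm_num) (hpow 4 (60 * l) (by omega))
        omega)
    (by
      rw [not_le]
      refine lt_of_le_of_lt hd2 ?_
      have h1 : 2 ^ s ≤ L0 ^ s := Nat.pow_le_pow_left (le_trans (hpow 1 _ (by omega)) hL0) s
      have h2 : L0 ^ s ≤ (L0 ^ s) ^ 2 := Nat.le_self_pow (by norm_num) _
      have := pow_pos hL0pos s
      omega)
  have hw0 : 1 ≤ w := by
    by_contra hw0
    obtain rfl : w = 0 := by omega
    refine hw2 (le_trans ?_ hd1.le)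
    calc 9 * (L0 ^ (0 + 1)) ^ 2 ≤ 2 ^ 4 * (2 ^ (20 * l + 1)) ^ 2 := by
          rw [zero_add, pow_one]
          refine Nat.mul_le_mul (by norm_num) (Nat.pow_le_pow_left ?_ 2)
          rw [pow_succ]; omega
      _ ≤ _ := by rw [← pow_mul, ← pow_add]; exact hpow _ _ (by omega)
  refine ⟨w, hws.le, hw1, ?_⟩
  have hd' : d ≤ 2 ^ (105 * l * w) := by
    rw [not_le] at hw2
    refine hw2.le.trans ?_
    calc 9 * (L0 ^ (w + 1)) ^ 2 ≤ 2 ^ 4 * ((2 ^ (20 * l + 1)) ^ (w + 1)) ^ 2 := by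
          refine Nat.mul_le_mul (by norm_num)
            (Nat.pow_le_pow_left (Nat.pow_le_pow_left ?_ _) 2)
          rw [pow_succ]; omega
      _ ≤ _ := by rw [← pow_mul, ← pow_mul, ← pow_add]; exact hpow _ _ (by nlinarith)
  have hd0 : (0 : ℝ) < d := by exact_mod_cast lt_of_le_of_lt (Nat.zero_le _) hd1
  rw [le_div_iff₀ (by positivity)]
  calc ((20 : ℝ) * jB l w) ^ 80 * (d : ℝ) ^ 4
      ≤ ((20 : ℝ) * jB l w) ^ 80 * ((2 : ℝ) ^ (105 * l * w)) ^ 4 := by
        gcongr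
        exact_mod_cast hd'
    _ = 20 ^ 80 * ((2 : ℝ) ^ (420 * l * w) / 2 ^ (480 * l * w)) := by
        rw [jB, mul_pow, div_pow, one_pow, ← pow_mul, ← pow_mul]
        ring_nf
    _ ≤ 20 ^ 80 * 1 := by
        gcongr
        rw [div_le_one (by positivity)]
        exact pow_le_pow_right₀ (by norm_num) (by nlinarith)
    _ ≤ decayC := by rw [decayC, mul_one]; exact le_add_of_nonneg_right (by norm_num)

lemma scale_large {l L d : ℕ} (hl : 8 ≤ l) (hL : 2 ^ (300 * l) ≤ L) (hL' : L < 2 * 2 ^ (300 * l))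
    (hd1 : 2 ^ 2 ^ (5 * l) < d) (hd2 : d ≤ 192 * l * L ^ 2 ^ (60 * l)) :
    ∃ w, w ≤ 2 ^ (60 * l) ∧ 9 * (L ^ w) ^ 2 ≤ d ∧
      (((2 * (64 * l) + 18 : ℕ) : ℝ) * jA l w) ^ 120 ≤ decayC / (d : ℝ) ^ 4 := by
  obtain ⟨-, -, hl3⟩ := two_mul_add_one_le_pow l hl
  set u := 2 ^ (60 * l) with hu
  set s := 2 ^ (5 * l) with hs
  have hpow : ∀ a b : ℕ, a ≤ b → 2 ^ a ≤ 2 ^ b := fun a b h => Nat.pow_le_pow_right (by norm_num) h
  set X := L ^ u with hX
  have hLpos : 0 < L := lt_of_lt_of_le (Nat.two_pow_pos _) hL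
  have hXpos : 0 < X := pow_pos hLpos _
  have hl9 : 192 * l < 9 * X := by
    have h1 : 2 ^ (l + 5) ≤ X := by
      refine le_trans ?_ (le_trans hL (Nat.le_self_pow (Nat.two_pow_pos _).ne' L))
      exact hpow _ _ (by omega)
    rw [pow_add] at h1
    have := Nat.lt_two_pow_self (n := l)
    omega
  obtain ⟨w, hwu, hw1, hw2⟩ := exists_greatest (P := fun w => 9 * (L ^ w) ^ 2 ≤ d) (u := u)
    (by simp only [pow_zero, one_pow, mul_one]
        have h16 : 2 ^ 4 ≤ 2 ^ s :=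
          hpow _ _ (le_trans (by norm_num) (hpow 2 (5 * l) (by omega)))
        omega)
    (by
      rw [not_le]
      refine lt_of_le_of_lt hd2 ?_
      rw [← hX, sq, ← mul_assoc]
      exact Nat.mul_lt_mul_of_pos_right hl9 hXpos)
  rw [not_le] at hw2
  have hd' : d ≤ 2 ^ (302 * l * (2 * w + 2) + 4) := by
    refine hw2.le.trans ?_
    calc 9 * (L ^ (w + 1)) ^ 2 ≤ 2 ^ 4 * ((2 ^ (300 * l + 1)) ^ (w + 1)) ^ 2 := by
          refine Nat.mul_le_mul (by norm_num)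
            (Nat.pow_le_pow_left (Nat.pow_le_pow_left ?_ _) 2)
          rw [pow_succ]; omega
      _ ≤ _ := by rw [← pow_mul, ← pow_mul, ← pow_add]; exact hpow _ _ (by nlinarith)
  have hwlow : 4 * (64 * l) + 20 ≤ w := by
    by_contra hc
    rw [not_le] at hc
    have h1 := (Nat.pow_lt_pow_iff_right (by norm_num)).1 (lt_of_lt_of_le hd1 hd')
    have h2 : 302 * l * (2 * w + 2) ≤ 302 * l * (2 * (4 * (64 * l) + 20)) :=
      Nat.mul_le_mul_left _ (by omega)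
    rw [hs] at h1
    nlinarith
  refine ⟨w, hwu.le, hw1, ?_⟩
  have hc : ((2 * (64 * l) + 18 : ℕ) : ℝ) ≤ 2 ^ (64 * l) := by
    have := Nat.lt_two_pow_self (n := 64 * l - 2)
    have h1 : 2 * (64 * l) + 18 ≤ 2 ^ (64 * l) := by
      rw [show 64 * l = (64 * l - 2) + 2 by omega, pow_add]; omega
    exact_mod_cast h1
  have hb := J_pool_bound (p := 64 * l) hwlow hc
  rw [show 64 * l / 2 = 32 * l by omega] at hb
  have hd0 : (0 : ℝ) < d := by exact_mod_cast lt_of_le_of_lt (Nat.zero_le _) hd1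
  have hJA0 : 0 ≤ ((2 * (64 * l) + 18 : ℕ) : ℝ) * jA l w := by
    rw [jA]; positivity
  rw [le_div_iff₀ (by positivity)]
  calc (((2 * (64 * l) + 18 : ℕ) : ℝ) * jA l w) ^ 120 * (d : ℝ) ^ 4
      ≤ (1 / (2 : ℝ) ^ (32 * l * w)) ^ 120 * ((2 : ℝ) ^ (302 * l * (2 * w + 2) + 4)) ^ 4 := by
        gcongr
        · exact hb
        · exact_mod_cast hd'
    _ = (2 : ℝ) ^ ((302 * l * (2 * w + 2) + 4) * 4) / 2 ^ (3840 * l * w) := by
        rw [div_pow, one_pow, ← pow_mul, ← pow_mul, one_div_mul_eq_div]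
        ring_nf
    _ ≤ 1 := by
        rw [div_le_one (by positivity)]
        exact pow_le_pow_right₀ (by norm_num) (by nlinarith)
    _ ≤ decayC := by rw [decayC]; norm_num

/-- The elements of each group. -/
def grpA (l : ℕ) (bB bA : Fin 2 → ℕ → Finset ℕ) : Kind → Finset ℕ :=
  Sum.elim (fun _ => Finset.Icc 1 (2 ^ (60 * l)))
    (Sum.elim (fun x => pre (bB x.1) (2 ^ (5 * l))) (fun x => pre (bA x.1) (2 ^ (60 * l))))

/-- The number of summands in each group. -/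
def grpP (l : ℕ) : Kind → ℕ := Sum.elim (fun _ => 1) (Sum.elim (fun _ => 1) (fun _ => 64 * l))

/-- The size of the elements of each group. -/
def grpX (l L0 L : ℕ) : Kind → ℕ :=
  Sum.elim (fun _ => 2 ^ (60 * l))
    (Sum.elim (fun _ => L0 ^ 2 ^ (5 * l)) (fun _ => L ^ 2 ^ (60 * l)))

lemma sum_grpP (l : ℕ) : ∑ i, grpP l i = 5 + (2 * 80 + 2 * 120 * (64 * l)) := by
  simp [grpP, Fintype.sum_sum_type]

lemma hundred_le_decayC : (3126 : ℝ) ≤ decayC := by
  rw [decayC]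
  exact le_add_of_nonneg_left (by positivity)

lemma prob_dvd_groups {l L0 L d : ℕ} {bB bA : Fin 2 → ℕ → Finset ℕ} (hl : 8 ≤ l)
    (hL0 : 2 ^ (20 * l) ≤ L0) (hL0' : L0 < 2 * 2 ^ (20 * l))
    (hL : 2 ^ (300 * l) ≤ L) (hL' : L < 2 * 2 ^ (300 * l))
    (hB : TwoFamilies bB (2 ^ (5 * l)) L0 (2 ^ (6 * l)) 1 (jB l))
    (hA : TwoFamilies bA (2 ^ (60 * l)) L 2 (64 * l) (jA l))
    (hd1 : 1 ≤ d) (hd2 : d ≤ 192 * l * L ^ 2 ^ (60 * l)) :
    ∏ i, prob (grpA l bB bA i) (grpP l i) (fun z => (d : ℤ) ∣ z) ≤ decayC / (d : ℝ) ^ 4 := by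
  have hd0 : (1 : ℝ) ≤ d := by exact_mod_cast hd1
  have hC := hundred_le_decayC
  rcases le_or_gt d (2 ^ (60 * l)) with hdY | hdY
  · refine (prod_kind_le_y (fun i => prob_nonneg _ _ _) fun i => prob_le_one _ _ _).trans ?_
    simp only [grpA, grpP, Sum.elim_inl, Finset.prod_const, Finset.card_univ, Fintype.card_fin]
    refine (pow_le_pow_left₀ (prob_nonneg _ _ _) (prob_Icc_dvd_le hd1 hdY) 5).trans ?_
    rw [div_pow]
    gcongr
    · linarith
    · norm_num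
  rcases le_or_gt d (2 ^ 2 ^ (5 * l)) with hds | hds
  · obtain ⟨w, hws, hwd, hwJ⟩ := scale_small hl hL0 hL0' hdY hds
    have hb := (block_bounds (b := bB 0) (b' := bB 1) (p := 1) hws (Nat.two_pow_pos _)
      (lt_of_lt_of_le (Nat.two_pow_pos _) hL0) le_rfl hd1 (hB.good 0) (hB.good 1) hB.disj
      (fun j hj => ⟨hB.ne 0 j hj, hB.ne 1 j hj⟩) (hB.bd 0) (hB.bd 1)
      (hB.coll 0 w hws) (hB.coll 1 w hws) hwd).1
    rw [show (2 * ((1 : ℕ) : ℝ) + 18) = 20 by norm_num] at hb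
    rcases hb with hb | hb
    · refine (prod_kind_le_B (fun i => prob_nonneg _ _ _) (fun i => prob_le_one _ _ _) 0).trans ?_
      simp only [grpA, grpP, Sum.elim_inl, Sum.elim_inr, Finset.prod_const, Finset.card_univ,
        Fintype.card_fin]
      exact (pow_le_pow_left₀ (prob_nonneg _ _ _) hb 80).trans hwJ
    · refine (prod_kind_le_B (fun i => prob_nonneg _ _ _) (fun i => prob_le_one _ _ _) 1).trans ?_
      simp only [grpA, grpP, Sum.elim_inl, Sum.elim_inr, Finset.prod_const, Finset.card_univ,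
        Fintype.card_fin]
      exact (pow_le_pow_left₀ (prob_nonneg _ _ _) hb 80).trans hwJ
  · obtain ⟨w, hwu, hwd, hwJ⟩ := scale_large hl hL hL' hds hd2
    have hb := (block_bounds (b := bA 0) (b' := bA 1) (p := 64 * l) hwu (Nat.two_pow_pos _)
      (lt_of_lt_of_le (Nat.two_pow_pos _) hL) (by omega) hd1 (hA.good 0) (hA.good 1) hA.disj
      (fun j hj => ⟨hA.ne 0 j hj, hA.ne 1 j hj⟩) (hA.bd 0) (hA.bd 1)
      (hA.coll 0 w hwu) (hA.coll 1 w hwu) hwd).1
    rw [show 2 * ((64 * l : ℕ) : ℝ) + 18 = ((2 * (64 * l) + 18 : ℕ) : ℝ) by push_cast; ring] at hb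
    rcases hb with hb | hb
    · refine (prod_kind_le_A (fun i => prob_nonneg _ _ _) (fun i => prob_le_one _ _ _) 0).trans ?_
      simp only [grpA, grpP, Sum.elim_inr, Finset.prod_const, Finset.card_univ, Fintype.card_fin]
      exact (pow_le_pow_left₀ (prob_nonneg _ _ _) hb 120).trans hwJ
    · refine (prod_kind_le_A (fun i => prob_nonneg _ _ _) (fun i => prob_le_one _ _ _) 1).trans ?_
      simp only [grpA, grpP, Sum.elim_inr, Finset.prod_const, Finset.card_univ, Fintype.card_fin]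
      exact (pow_le_pow_left₀ (prob_nonneg _ _ _) hb 120).trans hwJ

lemma prob_small_groups {l L0 L d : ℕ} {bB bA : Fin 2 → ℕ → Finset ℕ} (hl : 8 ≤ l)
    (hL0 : 2 ^ (20 * l) ≤ L0) (hL0' : L0 < 2 * 2 ^ (20 * l))
    (hL : 2 ^ (300 * l) ≤ L) (hL' : L < 2 * 2 ^ (300 * l))
    (hB : TwoFamilies bB (2 ^ (5 * l)) L0 (2 ^ (6 * l)) 1 (jB l))
    (hA : TwoFamilies bA (2 ^ (60 * l)) L 2 (64 * l) (jA l))
    (hd1 : 1 ≤ d) (hd2 : d ≤ 192 * l * L ^ 2 ^ (60 * l)) :
    ∏ i, prob (grpA l bB bA i) (grpP l i) (fun z => z.natAbs ≤ 2 * grpX l L0 L i / d)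
      ≤ decayC / (d : ℝ) ^ 4 := by
  have hd0 : (1 : ℝ) ≤ d := by exact_mod_cast hd1
  have hC := hundred_le_decayC
  rcases le_or_gt d (2 ^ (60 * l)) with hdY | hdY
  · refine (prod_kind_le_y (fun i => prob_nonneg _ _ _) fun i => prob_le_one _ _ _).trans ?_
    have h5 : prob (Finset.Icc 1 (2 ^ (60 * l))) 1 (fun z => z.natAbs ≤ 2 * 2 ^ (60 * l) / d)
        ≤ (5 : ℝ) / d := by
      refine (prob_Icc_small_le (Nat.two_pow_pos _)).trans ?_
      rw [div_le_div_iff₀ (by positivity) (by linarith)]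
      have h1 : 2 * 2 ^ (60 * l) / d * d ≤ 2 * 2 ^ (60 * l) := Nat.div_mul_le_self _ _
      have h1' : ((2 * 2 ^ (60 * l) / d : ℕ) : ℝ) * d ≤ ((2 * 2 ^ (60 * l) : ℕ) : ℝ) := by
        rw [← Nat.cast_mul]; exact Nat.cast_le.2 h1
      have h2' : (d : ℝ) ≤ ((2 ^ (60 * l) : ℕ) : ℝ) := Nat.cast_le.2 hdY
      rw [Nat.cast_mul 2] at h1'
      linarith
    refine (Finset.prod_le_prod (fun i _ => prob_nonneg _ _ _)
      (g := fun _ => (5 : ℝ) / d) fun i _ => h5).trans ?_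
    rw [Finset.prod_const, Finset.card_univ, Fintype.card_fin, div_pow]
    gcongr
    · linarith
    · norm_num
  rcases le_or_gt d (2 ^ 2 ^ (5 * l)) with hds | hds
  · obtain ⟨w, hws, hwd, hwJ⟩ := scale_small hl hL0 hL0' hdY hds
    have hb := (block_bounds (b := bB 0) (b' := bB 1) (p := 1) hws (Nat.two_pow_pos _)
      (lt_of_lt_of_le (Nat.two_pow_pos _) hL0) le_rfl hd1 (hB.good 0) (hB.good 1) hB.disj
      (fun j hj => ⟨hB.ne 0 j hj, hB.ne 1 j hj⟩) (hB.bd 0) (hB.bd 1)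
      (hB.coll 0 w hws) (hB.coll 1 w hws) hwd).2
    rw [show (2 * ((1 : ℕ) : ℝ) + 18) = 20 by norm_num] at hb
    refine (prod_kind_le_B (fun i => prob_nonneg _ _ _) (fun i => prob_le_one _ _ _) 0).trans ?_
    refine (Finset.prod_le_prod (fun i _ => prob_nonneg _ _ _)
      (g := fun _ => (20 : ℝ) * jB l w) fun i _ => hb).trans ?_
    rw [Finset.prod_const, Finset.card_univ, Fintype.card_fin]
    exact hwJ
  · obtain ⟨w, hwu, hwd, hwJ⟩ := scale_large hl hL hL' hds hd2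
    have hb := (block_bounds (b := bA 0) (b' := bA 1) (p := 64 * l) hwu (Nat.two_pow_pos _)
      (lt_of_lt_of_le (Nat.two_pow_pos _) hL) (by omega) hd1 (hA.good 0) (hA.good 1) hA.disj
      (fun j hj => ⟨hA.ne 0 j hj, hA.ne 1 j hj⟩) (hA.bd 0) (hA.bd 1)
      (hA.coll 0 w hwu) (hA.coll 1 w hwu) hwd).2
    rw [show 2 * ((64 * l : ℕ) : ℝ) + 18 = ((2 * (64 * l) + 18 : ℕ) : ℝ) by push_cast; ring] at hb
    refine (prod_kind_le_A (fun i => prob_nonneg _ _ _) (fun i => prob_le_one _ _ _) 0).trans ?_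
    refine (Finset.prod_le_prod (fun i _ => prob_nonneg _ _ _)
      (g := fun _ => ((2 * (64 * l) + 18 : ℕ) : ℝ) * jA l w) fun i _ => hb).trans ?_
    rw [Finset.prod_const, Finset.card_univ, Fintype.card_fin]
    exact hwJ

lemma prob_zero_groups {l L m : ℕ} {bB bA : Fin 2 → ℕ → Finset ℕ} (hl : 8 ≤ l)
    (hA : TwoFamilies bA (2 ^ (60 * l)) L 2 (64 * l) (jA l))
    (hm : m ≤ 2 ^ (1 + 3 * ((300 * l + 1) * 2 ^ (60 * l)))) :
    (m : ℝ) * ∏ i, prob (grpA l bB bA i) (grpP l i) (fun z => z = 0) ≤ 1 := by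
  have h1 : prob (pre (bA 0) (2 ^ (60 * l))) (64 * l) (fun z => z = 0)
      ≤ 1 / (2 : ℝ) ^ (32 * l * 2 ^ (60 * l)) := by
    refine ((prob_eq_zero_le (pre_nonempty (hA.ne 0)) (hA.coll 0 _ le_rfl))).trans ?_
    have hw : 4 * (64 * l) + 20 ≤ 2 ^ (60 * l) := by
      calc 4 * (64 * l) + 20 ≤ 2 ^ (l + 9) := by
            rw [pow_add]; have := Nat.lt_two_pow_self (n := l); omega
        _ ≤ _ := Nat.pow_le_pow_right (by norm_num) (by omega)
    have hb := J_pool_bound (p := 64 * l) (c := 1) hw (one_le_pow₀ (by norm_num))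
    rwa [one_mul, show 64 * l / 2 = 32 * l by omega] at hb
  refine le_trans (mul_le_mul_of_nonneg_left ((prod_kind_le_A (fun i => prob_nonneg _ _ _)
    (fun i => prob_le_one _ _ _) 0).trans (Finset.prod_le_prod (fun i _ => prob_nonneg _ _ _)
      (g := fun _ => 1 / (2 : ℝ) ^ (32 * l * 2 ^ (60 * l))) fun i _ => h1)) (Nat.cast_nonneg _)) ?_
  rw [Finset.prod_const, Finset.card_univ, Fintype.card_fin, div_pow, one_pow, mul_one_div,
    ← pow_mul, div_le_one (by positivity)]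
  have hm' : (m : ℝ) ≤ ((2 ^ (1 + 3 * ((300 * l + 1) * 2 ^ (60 * l))) : ℕ) : ℝ) := Nat.cast_le.2 hm
  rw [Nat.cast_pow, Nat.cast_ofNat] at hm'
  refine hm'.trans (pow_le_pow_right₀ (by norm_num) ?_)
  generalize hu : 2 ^ (60 * l) = u
  have : 1 ≤ u := hu ▸ Nat.one_le_two_pow
  nlinarith

lemma allProd_pos {b : ℕ → Finset ℕ} {n : ℕ} (h : Good b n) : 0 < allProd b n :=
  Finset.prod_pos fun j hj => Finset.prod_pos fun g hg =>
    (h.prime j (Finset.mem_range.1 hj) g hg).pos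

/-- The product of all possible elements. -/
def bigG (l : ℕ) (bB bA : Fin 2 → ℕ → Finset ℕ) : ℕ :=
  Nat.factorial (2 ^ (60 * l)) * ((allProd (bB 0) (2 ^ (5 * l)) * allProd (bB 1) (2 ^ (5 * l))) *
    (allProd (bA 0) (2 ^ (60 * l)) * allProd (bA 1) (2 ^ (60 * l))))

lemma grpA_dvd_bigG {l : ℕ} {bB bA : Fin 2 → ℕ → Finset ℕ} :
    ∀ i, ∀ a ∈ grpA l bB bA i, a ∣ bigG l bB bA := by
  rintro (i | ⟨k, c⟩ | ⟨k, c⟩) a ha <;> simp only [grpA, Sum.elim_inl, Sum.elim_inr] at ha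
  · rw [Finset.mem_Icc] at ha
    exact dvd_mul_of_dvd_left (Nat.dvd_factorial (by omega) ha.2) _
  · refine dvd_mul_of_dvd_right (dvd_mul_of_dvd_left ((pre_dvd_allProd ha).trans ?_) _) _
    fin_cases k
    · exact dvd_mul_right _ _
    · exact dvd_mul_left _ _
  · refine dvd_mul_of_dvd_right (dvd_mul_of_dvd_right ((pre_dvd_allProd ha).trans ?_) _) _
    fin_cases k
    · exact dvd_mul_right _ _
    · exact dvd_mul_left _ _

lemma bigG_le {l L0 L : ℕ} {bB bA : Fin 2 → ℕ → Finset ℕ}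
    (hl : 8 ≤ l) (hL0' : L0 < 2 * 2 ^ (20 * l)) (hL' : L < 2 * 2 ^ (300 * l))
    (hB : TwoFamilies bB (2 ^ (5 * l)) L0 (2 ^ (6 * l)) 1 (jB l))
    (hA : TwoFamilies bA (2 ^ (60 * l)) L 2 (64 * l) (jA l)) :
    bigG l bB bA ≤ 2 ^ (9 * (300 * l * 2 ^ (60 * l))) := by
  have hpow : ∀ a b : ℕ, a ≤ b → 2 ^ a ≤ 2 ^ b := fun a b h => Nat.pow_le_pow_right (by norm_num) h
  have hfac : Nat.factorial (2 ^ (60 * l)) ≤ 2 ^ (300 * l * 2 ^ (60 * l)) := by
    refine (Nat.factorial_le_pow _).trans ?_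
    rw [← pow_mul]
    exact hpow _ _ (Nat.mul_le_mul_right _ (by omega))
  have hBle : ∀ k, allProd (bB k) (2 ^ (5 * l)) ≤ 2 ^ (300 * l * 2 ^ (60 * l)) := fun k => by
    refine (allProd_le (e := 20 * l + 2) (fun j hj g hg => (hB.bd k j hj g hg).2.trans ?_)
      (hB.card k)).trans (hpow _ _ ?_)
    · have := Nat.div_le_self L0 (2 ^ (5 * l))
      rw [pow_add]
      omega
    · rw [mul_assoc, ← pow_add]
      exact Nat.mul_le_mul (by omega) (hpow _ _ (by omega))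
  have hAle : ∀ k, allProd (bA k) (2 ^ (60 * l)) ≤ 2 ^ (3 * (300 * l * 2 ^ (60 * l))) := fun k => by
    refine (allProd_le (e := 300 * l + 2) (fun j hj g hg => (hA.bd k j hj g hg).2.trans ?_)
      (hA.card k)).trans (hpow _ _ ?_)
    · have := Nat.div_le_self L (2 ^ (60 * l))
      rw [pow_add]
      omega
    · rw [← mul_assoc 3]
      exact Nat.mul_le_mul_right _ (by omega)
  refine (Nat.mul_le_mul hfac (Nat.mul_le_mul (Nat.mul_le_mul (hBle 0) (hBle 1))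
    (Nat.mul_le_mul (hAle 0) (hAle 1)))).trans ?_
  simp only [← pow_add]
  exact hpow _ _ (by omega)

/-- A number with few prime factors whose divisors cover all residues modulo a large prime. -/
lemma exists_system (l : ℕ) (hl : 8 ≤ l) :
    ∃ m M1 : ℕ, m.Prime ∧ 2 ^ (900 * l * 2 ^ (60 * l)) ≤ m ∧ 0 < M1 ∧
      M1 ≤ 2 ^ (1700 * (300 * l * 2 ^ (60 * l))) ∧
      (∀ j, 1 ≤ j → j ≤ 2 ^ (60 * l) → j ∣ M1) ∧
      ∀ r : ZMod m, ∃ t : Multiset ℕ, t.card ≤ (2 * bigC + 1) * (16000 * l) ∧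
        (∀ x ∈ t, x ∣ M1 ∧ x ≤ 3 * m) ∧ (t.sum : ZMod m) = r := by
  obtain ⟨bB, L0, hL0, hL0', hB⟩ := exists_small_blocks l hl
  obtain ⟨bA, L, hL, hL', hA⟩ := exists_large_blocks l hl
  have hpow : ∀ a b : ℕ, a ≤ b → 2 ^ a ≤ 2 ^ b := fun a b h => Nat.pow_le_pow_right (by norm_num) h
  obtain ⟨X, hX⟩ : ∃ X, X = L ^ 2 ^ (60 * l) := ⟨_, rfl⟩
  have hX1 : 2 ^ (300 * l * 2 ^ (60 * l)) ≤ X := by rw [hX, pow_mul]; gcongr
  have hX2 : X ≤ 2 ^ ((300 * l + 1) * 2 ^ (60 * l)) := by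
    rw [hX]
    exact (Nat.pow_le_pow_left (show L ≤ 2 ^ (300 * l + 1) by rw [pow_succ]; omega) _).trans
      (le_of_eq (pow_mul 2 (300 * l + 1) _).symm)
  have hXpos : 0 < X := lt_of_lt_of_le (Nat.two_pow_pos _) hX1
  have hL0pos : 0 < L0 := lt_of_lt_of_le (Nat.two_pow_pos _) hL0
  have hu1 : 1 ≤ 2 ^ (60 * l) := Nat.one_le_two_pow
  have hXf : ∀ i, 0 < grpX l L0 L i ∧ grpX l L0 L i ≤ X := by
    rintro (i | i | i) <;> simp only [grpX, Sum.elim_inl, Sum.elim_inr]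
    · exact ⟨Nat.two_pow_pos _, le_trans (hpow _ _ (le_trans (by omega)
        (Nat.le_mul_of_pos_right (300 * l) hu1))) hX1⟩
    · refine ⟨pow_pos hL0pos _, le_trans ?_ hX1⟩
      refine (Nat.pow_le_pow_left (by rw [pow_succ]; omega : L0 ≤ 2 ^ (20 * l + 1)) _).trans ?_
      rw [← pow_mul]
      exact hpow _ _ (Nat.mul_le_mul (by omega) (hpow _ _ (by omega)))
    · exact ⟨hX ▸ hXpos, hX ▸ le_rfl⟩
  obtain ⟨N0, hN0⟩ : ∃ N0, N0 = X ^ 3 := ⟨_, rfl⟩
  obtain ⟨Qf, hQf⟩ : ∃ Qf : Kind → ℕ, ∀ i, Qf i = N0 / grpX l L0 L i := ⟨_, fun i => rfl⟩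
  have hQX : ∀ i, X ^ 2 ≤ Qf i := by
    intro i
    rw [hQf, hN0]
    refine (Nat.le_div_iff_mul_le (hXf i).1).2 ?_
    rw [pow_succ X 2]
    exact Nat.mul_le_mul_left _ (hXf i).2
  have hQpos : ∀ i, 0 < Qf i := fun i => lt_of_lt_of_le (pow_pos hXpos 2) (hQX i)
  have hQhalf : ∀ i, N0 ≤ 2 * (Qf i * grpX l L0 L i) := by
    intro i
    have h1 : N0 < Qf i * grpX l L0 L i + grpX l L0 L i := by
      rw [hQf]; exact Nat.lt_div_mul_add (hXf i).1
    have h2 : grpX l L0 L i ≤ Qf i * grpX l L0 L i := Nat.le_mul_of_pos_left _ (hQpos i)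
    omega
  have hQle : ∀ i, Qf i * grpX l L0 L i ≤ N0 := fun i => by
    rw [hQf]; exact Nat.div_mul_le_self _ _
  have hAmax : ∀ i, ∀ a ∈ grpA l bB bA i, a ≤ 3 * grpX l L0 L i := by
    rintro (i | i | i) a ha <;> simp only [grpA, grpX, Sum.elim_inl, Sum.elim_inr] at ha ⊢
    · rw [Finset.mem_Icc] at ha; omega
    · exact (pre_bounds (hB.bd i.1) ha).2.trans (pow_spread (Nat.two_pow_pos _) le_rfl)
    · exact (pre_bounds (hA.bd i.1) ha).2.trans (pow_spread (Nat.two_pow_pos _) le_rfl)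
  have hAne : ∀ i, (grpA l bB bA i).Nonempty := by
    rintro (i | i | i) <;> simp only [grpA, Sum.elim_inl, Sum.elim_inr]
    · exact Finset.nonempty_Icc.2 hu1
    · exact pre_nonempty (hB.ne i.1)
    · exact pre_nonempty (hA.ne i.1)
  have hbigX : 405 * (192 * l) ≤ X := by
    refine le_trans ?_ hX1
    refine le_trans ?_ (hpow (17 + l) _ (le_trans (by omega) (Nat.le_mul_of_pos_right (300 * l) hu1)))
    rw [pow_add]
    have := Nat.lt_two_pow_self (n := l)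
    omega
  obtain ⟨m, hm, hmlo, hmhi⟩ :=
    Nat.exists_prime_lt_and_le_two_mul N0 (hN0 ▸ (pow_pos hXpos 3).ne')
  have hCm : 2 * bigC < m := by
    refine lt_of_le_of_lt ?_ hmlo
    rw [hN0]
    refine le_trans ?_ (Nat.le_self_pow (by norm_num) X)
    refine le_trans ?_ (le_trans (hpow (400 + 30) _ (le_trans (by omega)
      (Nat.le_mul_of_pos_right (300 * l) hu1))) hX1)
    have h1 : (20 : ℕ) ^ 80 ≤ 2 ^ 400 :=
      (Nat.pow_le_pow_left (by norm_num : 20 ≤ 2 ^ 5) 80).trans (le_of_eq (pow_mul 2 5 80).symm)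
    have h2 : 1 ≤ (2 : ℕ) ^ 400 := Nat.one_le_two_pow
    rw [bigC, pow_add]
    generalize (20 : ℕ) ^ 80 = a at h1 ⊢
    generalize (2 : ℕ) ^ 400 = b at h1 h2 ⊢
    omega
  obtain ⟨R, hR, hcov⟩ := exists_cover (grpA l bB bA) (grpP l) Qf (m := m) (N0 := N0)
    (D := 192 * l * X) (C := bigC) (C0 := 1) (C1 := decayC) hm hCm hmhi hAne
    (by
      intro i a ha
      have hp : grpP l i ≤ 64 * l := by
        rcases i with i | i | i <;> simp only [grpP, Sum.elim_inl, Sum.elim_inr] <;> omega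
      calc grpP l i * a ≤ (64 * l) * (3 * X) :=
            Nat.mul_le_mul hp ((hAmax i a ha).trans (Nat.mul_le_mul_left 3 (hXf i).2))
        _ = 192 * l * X := by ring)
    (fun i => by
      calc N0 = X * X ^ 2 := by rw [hN0]; ring
        _ ≤ 192 * l * X * Qf i :=
            Nat.mul_le_mul (Nat.le_mul_of_pos_left _ (by omega)) (hQX i))
    hQpos
    (fun k => by
      refine le_trans ?_ (hQX k)
      rw [show Fintype.card Kind = 405 by simp, sq, ← mul_assoc]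
      exact Nat.mul_le_mul_right _ hbigX)
    (prob_zero_groups hl hA (by
      refine hmhi.trans ?_
      rw [hN0, pow_add, pow_one, mul_comm 3, pow_mul _ _ 3]
      gcongr))
    (le_trans (by norm_num) hundred_le_decayC)
    (fun d hd1 hd2 => prob_dvd_groups hl hL0 hL0' hL hL' hB hA hd1 (hX ▸ hd2))
    (fun d hd1 hd2 => (Finset.prod_le_prod (fun i _ => prob_nonneg _ _ _)
      fun i _ => prob_transfer (hQpos i) (hQhalf i) hd1).trans
      (prob_small_groups hl hL0 hL0' hL hL' hB hA hd1 (hX ▸ hd2)))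
    (by
      rw [show Fintype.card Kind = 405 by simp, decayC, bigC]
      push_cast
      linarith)
  refine ⟨m, bigG l bB bA * ∏ i, R i, hm, ?_, ?_, ?_, ?_, ?_⟩
  · refine le_trans ?_ hmlo.le
    rw [hN0]
    refine le_trans ?_ (Nat.pow_le_pow_left hX1 3)
    rw [← pow_mul]
    exact hpow _ _ (le_of_eq (by ring))
  · refine Nat.mul_pos ?_ (Finset.prod_pos fun i _ => (hR i).1)
    exact Nat.mul_pos (Nat.factorial_pos _) (Nat.mul_pos
      (Nat.mul_pos (allProd_pos (hB.good 0)) (allProd_pos (hB.good 1)))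
      (Nat.mul_pos (allProd_pos (hA.good 0)) (allProd_pos (hA.good 1))))
  · have hRle : ∏ i, R i ≤ 2 ^ (4 * (300 * l * 2 ^ (60 * l)) * 405) := by
      refine (Finset.prod_le_prod' fun i _ => ((hR i).2.trans
        ((?_ : Qf i ≤ N0).trans (?_ : N0 ≤ 2 ^ (4 * (300 * l * 2 ^ (60 * l))))))).trans ?_
      · rw [hQf]; exact Nat.div_le_self _ _
      · rw [hN0]
        refine (Nat.pow_le_pow_left hX2 3).trans ?_
        rw [← pow_mul, ← mul_assoc 4]
        refine hpow _ _ (le_trans (le_of_eq ?_) (Nat.mul_le_mul_right _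
          (show 3 * (300 * l + 1) ≤ 4 * (300 * l) by omega)))
        ring
      · simp [← pow_mul]
    refine (Nat.mul_le_mul (bigG_le hl hL0' hL' hB hA) hRle).trans ?_
    rw [← pow_add]
    exact hpow _ _ (by omega)
  · intro j hj1 hj2
    exact dvd_mul_of_dvd_left (dvd_mul_of_dvd_left (Nat.dvd_factorial (by omega) hj2) _) _
  · intro r
    obtain ⟨t, ht1, ht2, ht3⟩ := hcov r
    refine ⟨t, ht1.trans (Nat.mul_le_mul_left _ ?_), fun x hx => ?_, ht3⟩
    · rw [sum_grpP]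
      omega
    · obtain ⟨i, a, ha, rfl⟩ := ht2 x hx
      refine ⟨?_, ?_⟩
      · rw [mul_comm (R i)]
        exact mul_dvd_mul (grpA_dvd_bigG i a ha) (Finset.dvd_prod_of_mem _ (Finset.mem_univ i))
      · calc R i * a ≤ Qf i * (3 * grpX l L0 L i) := Nat.mul_le_mul (hR i).2 (hAmax i a ha)
          _ = 3 * (Qf i * grpX l L0 L i) := by ring
          _ ≤ 3 * N0 := Nat.mul_le_mul_left _ (hQle i)
          _ ≤ 3 * m := Nat.mul_le_mul_left _ hmlo.le

end Vale.Agent.P012
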