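import Mathlib

/-!
The number of distinct unit fractions needed for a fraction.
-/

namespace Vale.Agent.P012

/-- `IsUnitFracRep a b k`: the fraction `a / b` is a sum of exactly `k` distinct unit fractions
with denominators at least `2`. -/
def IsUnitFracRep (a b k : ℕ) : Prop :=
  ∃ s : Finset ℕ, s.card = k ∧ (∀ n ∈ s, 2 ≤ n) ∧ (∑ n ∈ s, (1 : ℚ) / n) = (a : ℚ) / b

/-- The least number of distinct unit fractions summing to `a / b`. -/
noncomputable def minTerms (a b : ℕ) : ℕ := sInf {k | IsUnitFracRep a b k}

/-- The maximum of `minTerms a b` over `1 ≤ a < b`. -/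
noncomputable def maxMinTerms (b : ℕ) : ℕ := (Finset.Ico 1 b).sup fun a => minTerms a b

end Vale.Agent.P012
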