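import Mathlib

/-!
Sums of unit fractions: removing repetitions, the greedy start, and the lower bound.
-/

namespace Vale.Agent.P012

open Finset

/-- The sum of the reciprocals of a multiset of naturals. -/
def usum (t : Multiset ℕ) : ℚ := (t.map fun n : ℕ => (1 : ℚ) / n).sum

@[simp] lemma usum_zero : usum 0 = 0 := rfl

@[simp] lemma usum_cons (n : ℕ) (t : Multiset ℕ) : usum (n ::ₘ t) = 1 / (n : ℚ) + usum t := by
  simp [usum]

@[simp] lemma usum_add (t t' : Multiset ℕ) : usum (t + t') = usum t + usum t' := by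
  simp [usum]

lemma usum_nonneg (t : Multiset ℕ) : 0 ≤ usum t := by
  induction t using Multiset.induction with
  | empty => simp
  | cons n t ih => rw [usum_cons]; positivity

lemma usum_finset (s : Finset ℕ) : usum s.val = ∑ n ∈ s, (1 : ℚ) / n := rfl

/-- Repetitions can be removed without more terms. -/
lemma exists_distinct (k : ℕ) : ∀ v : ℚ, v < 1 →
    (∃ t : Multiset ℕ, t.card ≤ k ∧ (∀ n ∈ t, 1 ≤ n) ∧ usum t = v) →
    ∃ s : Finset ℕ, s.card ≤ k ∧ (∀ n ∈ s, 2 ≤ n) ∧ ∑ n ∈ s, (1 : ℚ) / n = v := by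
  classical
  induction k with
  | zero =>
    rintro v - ⟨t, h1, -, h3⟩
    rw [Multiset.card_eq_zero.1 (Nat.le_zero.1 h1)] at h3
    exact ⟨∅, le_rfl, by simp, by simpa using h3⟩
  | succ k ih =>
    intro v hv hex
    obtain ⟨t, h1, h2, h3⟩ := hex
    rcases Multiset.empty_or_exists_mem t with rfl | ⟨n1, hn1⟩
    · exact ⟨∅, Nat.zero_le _, by simp, by simpa using h3⟩
    set P : ℕ → Prop := fun n =>
      ∃ t : Multiset ℕ, t.card ≤ k + 1 ∧ (∀ x ∈ t, 1 ≤ x) ∧ usum t = v ∧ n ∈ t with hP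
    have hPex : ∃ n, P n := ⟨n1, t, h1, h2, h3, hn1⟩
    obtain ⟨n0, hn0, hmin⟩ : ∃ n, P n ∧ ∀ m < n, ¬ P m :=
      ⟨Nat.find hPex, Nat.find_spec hPex, fun m hm => Nat.find_min hPex hm⟩
    obtain ⟨t, h1, h2, h3, hn0t⟩ := hn0
    obtain ⟨r, rfl⟩ := Multiset.exists_cons_of_mem hn0t
    rw [usum_cons] at h3
    rw [Multiset.card_cons] at h1
    have hn01 : 1 ≤ n0 := h2 n0 (Multiset.mem_cons_self _ _)
    have hn02 : 2 ≤ n0 := by
      by_contra h
      obtain rfl : n0 = 1 := by omega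
      have := usum_nonneg r
      norm_num at h3
      linarith
    have hpos : (0 : ℚ) ≤ 1 / (n0 : ℚ) := by positivity
    obtain ⟨s, hs1, hs2, hs3⟩ := ih (v - 1 / (n0 : ℚ)) (by linarith)
      ⟨r, by omega, fun x hx => h2 x (Multiset.mem_cons_of_mem hx), by linarith⟩
    have hge : ∀ x ∈ s, n0 ≤ x := by
      intro x hx
      by_contra hlt
      refine hmin x (by omega) ⟨n0 ::ₘ s.val, by simp; omega, ?_, ?_, ?_⟩
      · intro y hy
        rcases Multiset.mem_cons.1 hy with rfl | hy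
        · exact hn01
        · exact le_trans (by norm_num) (hs2 y hy)
      · rw [usum_cons, usum_finset, hs3]; ring
      · exact Multiset.mem_cons_of_mem hx
    have hnot : n0 ∉ s := by
      intro hmem
      obtain ⟨c, hc | hc⟩ := Nat.even_or_odd' n0
      · refine hmin c (by omega) ⟨c ::ₘ (s.erase n0).val, ?_, ?_, ?_, Multiset.mem_cons_self _ _⟩
        · rw [Multiset.card_cons, Finset.card_val, Finset.card_erase_of_mem hmem]
          omega
        · intro y hy
          rcases Multiset.mem_cons.1 hy with rfl | hy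
          · omega
          · exact le_trans (by norm_num) (hs2 y (Finset.mem_of_mem_erase hy))
        · rw [usum_cons, usum_finset, Finset.sum_erase_eq_sub hmem, hs3, hc]
          have : (c : ℚ) ≠ 0 := by exact_mod_cast (by omega : c ≠ 0)
          push_cast
          field_simp
          ring
      · refine hmin (c + 1) (by omega) ⟨(c + 1) ::ₘ ((c + 1) * n0) ::ₘ (s.erase n0).val, ?_, ?_,
          ?_, Multiset.mem_cons_self _ _⟩
        · rw [Multiset.card_cons, Multiset.card_cons, Finset.card_val,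
            Finset.card_erase_of_mem hmem]
          have := Finset.card_pos.2 ⟨n0, hmem⟩
          omega
        · intro y hy
          rcases Multiset.mem_cons.1 hy with rfl | hy
          · omega
          rcases Multiset.mem_cons.1 hy with rfl | hy
          · exact Nat.one_le_iff_ne_zero.2 (Nat.mul_ne_zero (by omega) (by omega))
          · exact le_trans (by norm_num) (hs2 y (Finset.mem_of_mem_erase hy))
        · rw [usum_cons, usum_cons, usum_finset, Finset.sum_erase_eq_sub hmem, hs3, hc]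
          have : (2 : ℚ) * c + 1 ≠ 0 := by positivity
          have : (c : ℚ) + 1 ≠ 0 := by positivity
          push_cast
          field_simp
          ring
    refine ⟨insert n0 s, ?_, ?_, ?_⟩
    · rw [Finset.card_insert_of_notMem hnot]; omega
    · intro y hy
      rcases Finset.mem_insert.1 hy with rfl | hy
      · exact hn02
      · exact hs2 y hy
    · rw [Finset.sum_insert hnot, hs3]; ring

/-- One step of the greedy algorithm. -/
lemma greedy_step {x B b : ℕ} (hx : 0 < x) (hxb : x < b) (hbB : b ≤ B) :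
    ∃ n x', 1 ≤ n ∧ n ≤ B ∧ x' < b ∧ B * B ≤ b * (B * n) ∧ 2 * B ≤ B * n ∧
      (x : ℚ) / B = 1 / (n : ℚ) + (x' : ℚ) / ((B * n : ℕ) : ℚ) := by
  set n := (B - 1) / x + 1 with hn
  have h1 := Nat.div_add_mod (B - 1) x
  have h2 := Nat.mod_lt (B - 1) hx
  have e : x * n = x * ((B - 1) / x) + x := by rw [hn, Nat.mul_succ]
  have hn1 : 1 ≤ n := Nat.le_add_left 1 _
  have hnB : n ≤ B := by
    have := Nat.div_le_self (B - 1) x
    omega
  clear_value n
  have hlo : B ≤ x * n := by omega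
  have hhi : x * n < B + x := by omega
  refine ⟨n, x * n - B, hn1, hnB, by omega, ?_, ?_, ?_⟩
  · calc B * B ≤ B * (x * n) := Nat.mul_le_mul_left _ hlo
      _ ≤ B * (b * n) := Nat.mul_le_mul_left _ (Nat.mul_le_mul_right _ hxb.le)
      _ = b * (B * n) := by ring
  · rw [mul_comm 2 B]
    refine Nat.mul_le_mul_left _ ?_
    by_contra hc
    have h1 : n = 1 := by omega
    rw [h1, mul_one] at hlo
    omega
  · rw [Nat.cast_sub hlo]
    have hn0 : (n : ℚ) ≠ 0 := by exact_mod_cast (by omega : n ≠ 0)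
    have hB0 : (B : ℚ) ≠ 0 := by exact_mod_cast (by omega : B ≠ 0)
    push_cast
    field_simp
    ring

lemma greedy_iter {a b T : ℕ} (hab : a < b) (hbT : b < T) (i : ℕ) :
    ∃ (t : Multiset ℕ) (x B : ℕ), t.card ≤ i + 1 ∧ (∀ n ∈ t, 1 ≤ n) ∧ x < b ∧ b ≤ B ∧
      B ≤ max b (T ^ 2) ∧ (a : ℚ) / b = usum t + (x : ℚ) / B ∧
      (x = 0 ∨ T ≤ B ∨ b * 2 ^ 2 ^ i ≤ B) := by
  induction i with
  | zero =>
    rcases Nat.eq_zero_or_pos a with ha | ha
    · exact ⟨0, a, b, by simp, by simp, hab, le_rfl, le_max_left _ _, by simp, Or.inl ha⟩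
    obtain ⟨n, x', h1, h2, h3, -, h5, h6⟩ := greedy_step ha hab le_rfl
    refine ⟨{n}, x', b * n, by simp, by simpa using h1, h3, by omega, le_max_of_le_right ?_, ?_,
      Or.inr (Or.inr (by simpa [mul_comm 2 b] using h5))⟩
    · rw [sq]; exact Nat.mul_le_mul hbT.le (h2.trans hbT.le)
    · rw [h6]; simp [usum]
  | succ i ih =>
    obtain ⟨t, x, B, ht, ht1, hxb, hbB, hBle, hval, hor⟩ := ih
    by_cases hdone : x = 0 ∨ T ≤ B
    · refine ⟨t, x, B, by omega, ht1, hxb, hbB, hBle, hval, ?_⟩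
      rcases hdone with h | h
      · exact Or.inl h
      · exact Or.inr (Or.inl h)
    rw [not_or] at hdone
    obtain ⟨hx0, hBT⟩ := hdone
    have hi : b * 2 ^ 2 ^ i ≤ B := by tauto
    obtain ⟨n, x', h1, h2, h3, h4, h5, h6⟩ := greedy_step (Nat.pos_of_ne_zero hx0) hxb hbB
    refine ⟨n ::ₘ t, x', B * n, by simp; omega, ?_, h3, by omega, le_max_of_le_right ?_, ?_,
      Or.inr (Or.inr ?_)⟩
    · intro y hy
      rcases Multiset.mem_cons.1 hy with rfl | hy
      · exact h1
      · exact ht1 y hy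
    · rw [sq]; exact Nat.mul_le_mul (by omega) (by omega)
    · rw [hval, h6, usum_cons]; ring
    · refine Nat.le_of_mul_le_mul_left (le_trans (le_of_eq ?_) ((Nat.mul_le_mul hi hi).trans h4))
        (by omega)
      rw [pow_succ, pow_mul]
      ring

/-- A short start of the greedy algorithm reaching a large denominator. -/
lemma greedy_start {a b T i : ℕ} (hab : a < b) (hT : T ≤ 2 ^ 2 ^ i) :
    ∃ (t : Multiset ℕ) (x B : ℕ), t.card ≤ i + 1 ∧ (∀ n ∈ t, 1 ≤ n) ∧ x < b ∧ b ≤ B ∧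
      B ≤ max b (T ^ 2) ∧ (a : ℚ) / b = usum t + (x : ℚ) / B ∧ (x = 0 ∨ T ≤ B) := by
  rcases le_or_gt T b with hTb | hTb
  · exact ⟨0, a, b, by simp, by simp, hab, le_rfl, le_max_left _ _, by simp, Or.inr hTb⟩
  obtain ⟨t, x, B, h1, h2, h3, h4, h5, h6, h7⟩ := greedy_iter hab hTb i
  refine ⟨t, x, B, h1, h2, h3, h4, h5, h6, ?_⟩
  rcases h7 with h | h | h
  · exact Or.inl h
  · exact Or.inr h
  · refine Or.inr (hT.trans (le_trans ?_ h))
    exact Nat.le_mul_of_pos_left _ (by omega)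

/-- A sum of `k` unit fractions below `P / Q` stays well below it. -/
lemma gap_lower (K : ℕ) (hK : 1 ≤ K) (k : ℕ) : k ≤ K → ∀ (s : Finset ℕ), s.card ≤ k →
    (∀ n ∈ s, 1 ≤ n) → ∀ P Q : ℕ, 1 ≤ Q → (∑ n ∈ s, (1 : ℚ) / n) < (P : ℚ) / Q →
      1 / ((2 * K * Q : ℕ) : ℚ) ^ 2 ^ k ≤ (P : ℚ) / Q - ∑ n ∈ s, (1 : ℚ) / n := by
  induction k with
  | zero =>
    intro _ s hs _ P Q hQ hlt
    rw [Finset.card_eq_zero.1 (Nat.le_zero.1 hs)] at hlt ⊢
    rw [Finset.sum_empty, sub_zero, pow_zero, pow_one] at *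
    have hQ0 : (1 : ℚ) ≤ Q := by exact_mod_cast hQ
    have hP : 1 ≤ P := by
      by_contra h
      obtain rfl : P = 0 := by omega
      simp at hlt
    have hP' : (1 : ℚ) ≤ P := by exact_mod_cast hP
    refine (one_div_le_one_div_of_le (by linarith) ?_).trans
      (div_le_div_of_nonneg_right hP' (by linarith))
    have : Q ≤ 2 * K * Q := Nat.le_mul_of_pos_left _ (by omega)
    exact_mod_cast this
  | succ k ih =>
    intro hkK s hs hs1 P Q hQ hlt
    have hbase : (1 : ℚ) ≤ ((2 * K * Q : ℕ) : ℚ) := by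
      exact_mod_cast Nat.one_le_iff_ne_zero.2 (Nat.mul_ne_zero (by omega) (by omega))
    rcases s.eq_empty_or_nonempty with rfl | hne
    · refine le_trans ?_ (ih (by omega) ∅ (Nat.zero_le _) (by simp) P Q hQ hlt)
      exact one_div_le_one_div_of_le (by positivity)
        (pow_le_pow_right₀ hbase (Nat.pow_le_pow_right (by norm_num) (by omega)))
    obtain ⟨n, hn, hmin⟩ := Finset.exists_min_image s id hne
    simp only [id] at hmin
    have hn1 := hs1 n hn
    by_cases hbig : 2 * K * Q < n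
    · have hsum : (∑ x ∈ s, (1 : ℚ) / x) ≤ (K : ℚ) / n := by
        refine (Finset.sum_le_card_nsmul s _ (1 / (n : ℚ)) fun x hx => ?_).trans ?_
        · exact one_div_le_one_div_of_le (by exact_mod_cast hn1) (by exact_mod_cast hmin x hx)
        · rw [nsmul_eq_mul, mul_one_div]
          gcongr
          omega
      have hQ0 : (0 : ℚ) < Q := by exact_mod_cast hQ
      have hhalf : (K : ℚ) / n ≤ 1 / (2 * (Q : ℚ)) := by
        rw [div_le_div_iff₀ (by exact_mod_cast hn1) (by positivity)]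
        have : 2 * K * Q ≤ n := hbig.le
        have : (2 : ℚ) * K * Q ≤ n := by exact_mod_cast this
        linarith
      have hP : 1 ≤ P := by
        by_contra h
        obtain rfl : P = 0 := by omega
        simp only [Nat.cast_zero, zero_div] at hlt
        have : (0 : ℚ) ≤ ∑ x ∈ s, (1 : ℚ) / x := Finset.sum_nonneg fun x _ => by positivity
        linarith
      have hP' : (1 : ℚ) / Q ≤ (P : ℚ) / Q :=
        div_le_div_of_nonneg_right (by exact_mod_cast hP) hQ0.le
      have h2 : 1 / ((2 * K * Q : ℕ) : ℚ) ^ 2 ^ (k + 1) ≤ 1 / (2 * (Q : ℚ)) := by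
        refine one_div_le_one_div_of_le (by positivity) (le_trans ?_
          (le_self_pow₀ hbase (Nat.two_pow_pos _).ne'))
        push_cast
        have : (1 : ℚ) ≤ K := by exact_mod_cast hK
        nlinarith
      have h3 : (1 : ℚ) / Q = 2 * (1 / (2 * (Q : ℚ))) := by field_simp
      linarith
    rw [← Finset.add_sum_erase s _ hn] at hlt ⊢
    have hn0 : (n : ℚ) ≠ 0 := by exact_mod_cast (by omega : n ≠ 0)
    have hQ0' : (Q : ℚ) ≠ 0 := by exact_mod_cast (by omega : Q ≠ 0)
    have hnonneg : (0 : ℚ) ≤ ∑ x ∈ s.erase n, (1 : ℚ) / x :=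
      Finset.sum_nonneg fun x _ => by positivity
    have hPn : Q ≤ P * n := by
      have h : (1 : ℚ) / n ≤ (P : ℚ) / Q := by linarith
      rw [div_le_div_iff₀ (by exact_mod_cast hn1) (by exact_mod_cast hQ), one_mul] at h
      exact_mod_cast h
    have e : ((P * n - Q : ℕ) : ℚ) / ((Q * n : ℕ) : ℚ) = (P : ℚ) / Q - 1 / (n : ℚ) := by
      rw [Nat.cast_sub hPn]
      push_cast
      field_simp
    have h := ih (by omega) (s.erase n) (by rw [Finset.card_erase_of_mem hn]; omega)
      (fun x hx => hs1 x (Finset.mem_of_mem_erase hx)) (P * n - Q) (Q * n)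
      (Nat.one_le_iff_ne_zero.2 (Nat.mul_ne_zero (by omega) (by omega))) (by rw [e]; linarith)
    rw [e] at h
    have hmono : ((2 * K * (Q * n) : ℕ) : ℚ) ^ 2 ^ k ≤ ((2 * K * Q : ℕ) : ℚ) ^ 2 ^ (k + 1) := by
      rw [pow_succ', pow_mul]
      refine pow_le_pow_left₀ (by positivity) ?_ _
      rw [sq, ← Nat.cast_mul, Nat.cast_le]
      calc 2 * K * (Q * n) ≤ 2 * K * (Q * (2 * K * Q)) :=
            Nat.mul_le_mul_left _ (Nat.mul_le_mul_left _ (by omega))
        _ = 2 * K * Q * (2 * K * Q) := by ring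
    refine le_trans (one_div_le_one_div_of_le ?_ hmono) ?_
    · refine pow_pos ?_ _
      exact_mod_cast Nat.pos_of_ne_zero (Nat.mul_ne_zero (by omega)
        (Nat.mul_ne_zero (by omega) (by omega)))
    · linarith

/-- Many terms are needed for `(b - 1) / b`. -/
lemma pred_div_lower {b : ℕ} (hb : 2 ≤ b) {s : Finset ℕ} (hs : ∀ n ∈ s, 2 ≤ n)
    (hsum : ∑ n ∈ s, (1 : ℚ) / n = ((b - 1 : ℕ) : ℚ) / b) :
    1 ≤ s.card ∧ b ≤ (2 * s.card) ^ 2 ^ s.card := by
  have hb0 : (0 : ℚ) < b := by exact_mod_cast (by omega : 0 < b)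
  have hk : 1 ≤ s.card := by
    refine Finset.card_pos.2 (Finset.nonempty_iff_ne_empty.2 ?_)
    rintro rfl
    rw [Finset.sum_empty] at hsum
    have : (0 : ℚ) < ((b - 1 : ℕ) : ℚ) / b := div_pos (by exact_mod_cast (by omega : 0 < b - 1)) hb0
    linarith
  refine ⟨hk, ?_⟩
  have e : ((1 : ℕ) : ℚ) / (1 : ℕ) - ((b - 1 : ℕ) : ℚ) / b = 1 / (b : ℚ) := by
    rw [Nat.cast_sub (by omega)]
    push_cast
    field_simp
    ring
  have hlt : (∑ n ∈ s, (1 : ℚ) / n) < ((1 : ℕ) : ℚ) / (1 : ℕ) := by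
    rw [hsum]
    have : (0 : ℚ) < 1 / (b : ℚ) := by positivity
    linarith
  have h := gap_lower s.card hk s.card le_rfl s le_rfl (fun n hn => by linarith [hs n hn]) 1 1
    le_rfl hlt
  rw [hsum, e, one_div_le_one_div (by positivity) hb0, mul_one, ← Nat.cast_pow] at h
  exact_mod_cast h

end Vale.Agent.P012
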