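import Mathlib

/-!
Finite Fourier identities for differences of sums of elements of finite sets of naturals.
-/

namespace Vale.Agent.P012

open Finset

/-- Pairs of p-tuples from `A`. -/
def Tup (A : Finset ℕ) (p : ℕ) : Finset ((Fin p → ℕ) × (Fin p → ℕ)) :=
  (Fintype.piFinset fun _ => A) ×ˢ (Fintype.piFinset fun _ => A)

/-- Difference of the two sums of a pair of tuples. -/
def zd {p : ℕ} (s : (Fin p → ℕ) × (Fin p → ℕ)) : ℤ :=
  (∑ i, (s.1 i : ℤ)) - ∑ i, (s.2 i : ℤ)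

/-- The number of pairs of p-tuples with equal sums. -/
def cnt (A : Finset ℕ) (p : ℕ) : ℕ := ((Tup A p).filter fun s => zd s = 0).card

/-- Number of pairs of tuple pairs with a linear congruence. -/
def cnt2 (N : ℕ) (A : Finset ℕ) (p g : ℕ) (B : Finset ℕ) (q h : ℕ) : ℕ :=
  ((Tup A p ×ˢ Tup B q).filter
    fun st => (N : ℤ) ∣ (g : ℤ) * zd st.1 + (h : ℤ) * zd st.2).card

variable {N : ℕ} [NeZero N]

/-- The exponential sum of `A`. -/
noncomputable def expS (A : Finset ℕ) (k : ZMod N) : ℂ :=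
  ∑ a ∈ A, ZMod.stdAddChar ((a : ZMod N) * k)

/-- The squared modulus of the exponential sum. -/
noncomputable def wS (A : Finset ℕ) (k : ZMod N) : ℝ := ‖expS A k‖ ^ 2

lemma wS_nonneg (A : Finset ℕ) (k : ZMod N) : 0 ≤ wS A k := sq_nonneg _

lemma conj_stdAddChar (x : ZMod N) :
    (starRingEnd ℂ) (ZMod.stdAddChar x) = ZMod.stdAddChar (-x) := by
  rw [AddChar.map_neg_eq_conj]

lemma prod_stdAddChar {ι : Type*} (t : Finset ι) (f : ι → ZMod N) :
    ∏ i ∈ t, ZMod.stdAddChar (f i) = ZMod.stdAddChar (∑ i ∈ t, f i) := by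
  classical
  induction t using Finset.induction_on with
  | empty => simp
  | insert i t hi ih => rw [Finset.prod_insert hi, Finset.sum_insert hi, ih, AddChar.map_add_eq_mul]

lemma expS_pow (A : Finset ℕ) (p : ℕ) (k : ZMod N) :
    (expS A k) ^ p
      = ∑ f ∈ Fintype.piFinset (fun _ : Fin p => A),
          ZMod.stdAddChar (((∑ i, (f i : ℤ) : ℤ) : ZMod N) * k) := by
  rw [expS, Finset.sum_pow']
  refine Finset.sum_congr rfl fun f _ => ?_
  rw [prod_stdAddChar, Int.cast_sum, Finset.sum_mul]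
  simp

lemma wS_pow (A : Finset ℕ) (p : ℕ) (k : ZMod N) :
    (((wS A k) ^ p : ℝ) : ℂ)
      = ∑ s ∈ Tup A p, ZMod.stdAddChar ((zd s : ZMod N) * k) := by
  have h1 : (((wS A k) ^ p : ℝ) : ℂ)
      = (expS A k) ^ p * (starRingEnd ℂ) ((expS A k) ^ p) := by
    rw [map_pow, ← mul_pow, Complex.mul_conj, Complex.normSq_eq_norm_sq]
    simp [wS]
  rw [h1, expS_pow, map_sum, Finset.sum_mul_sum, Tup, Finset.sum_product]
  refine Finset.sum_congr rfl fun f _ => Finset.sum_congr rfl fun f' _ => ?_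
  rw [conj_stdAddChar, ← AddChar.map_add_eq_mul, zd]
  congr 1
  push_cast
  ring

lemma sum_stdAddChar (z : ℤ) :
    ∑ k : ZMod N, ZMod.stdAddChar ((z : ZMod N) * k)
      = if (N : ℤ) ∣ z then (N : ℂ) else 0 := by
  simp_rw [mul_comm (z : ZMod N)]
  rw [AddChar.sum_mulShift _ (ZMod.isPrimitive_stdAddChar N)]
  by_cases h : (N : ℤ) ∣ z
  · rw [if_pos h, if_pos ((ZMod.intCast_zmod_eq_zero_iff_dvd z N).2 h), ZMod.card]
  · rw [if_neg h, if_neg (fun hh => h ((ZMod.intCast_zmod_eq_zero_iff_dvd z N).1 hh)), Nat.cast_zero]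

lemma cnt2_eq (A : Finset ℕ) (p g : ℕ) (B : Finset ℕ) (q h : ℕ) :
    (N : ℝ) * (cnt2 N A p g B q h : ℝ)
      = ∑ k : ZMod N, wS A ((g : ZMod N) * k) ^ p * wS B ((h : ZMod N) * k) ^ q := by
  apply Complex.ofReal_injective
  rw [Complex.ofReal_sum]
  have h1 : ∀ k : ZMod N,
      ((wS A ((g : ZMod N) * k) ^ p * wS B ((h : ZMod N) * k) ^ q : ℝ) : ℂ)
        = ∑ st ∈ Tup A p ×ˢ Tup B q,
            ZMod.stdAddChar ((((g : ℤ) * zd st.1 + (h : ℤ) * zd st.2 : ℤ) : ZMod N) * k) := by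
    intro k
    rw [Complex.ofReal_mul, wS_pow, wS_pow, Finset.sum_mul_sum, Finset.sum_product]
    refine Finset.sum_congr rfl fun s _ => Finset.sum_congr rfl fun t _ => ?_
    rw [← AddChar.map_add_eq_mul]
    congr 1
    push_cast
    ring
  rw [Finset.sum_congr rfl fun k _ => h1 k, Finset.sum_comm]
  simp_rw [sum_stdAddChar]
  rw [← Finset.sum_filter, Finset.sum_const, cnt2]
  simp [mul_comm]

omit [NeZero N]

lemma Tup_zero (A : Finset ℕ) (s : (Fin 0 → ℕ) × (Fin 0 → ℕ)) : s ∈ Tup A 0 := by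
  simp only [Tup, Finset.mem_product, Fintype.mem_piFinset]
  exact ⟨fun i => i.elim0, fun i => i.elim0⟩

lemma Tup_card (A : Finset ℕ) (p : ℕ) : (Tup A p).card = A.card ^ (2 * p) := by
  simp [Tup, Finset.card_product, ← pow_add, two_mul]

lemma cnt2_q_zero (A : Finset ℕ) (p g : ℕ) (B : Finset ℕ) (h : ℕ) :
    cnt2 N A p g B 0 h = ((Tup A p).filter fun s => (N : ℤ) ∣ (g : ℤ) * zd s).card := by
  unfold cnt2
  refine Finset.card_bij (fun st _ => st.1) ?_ ?_ ?_
  · intro st hst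
    simp only [Finset.mem_filter, Finset.mem_product] at hst ⊢
    refine ⟨hst.1.1, ?_⟩
    simpa [zd] using hst.2
  · intro a _ b _ hab
    exact Prod.ext hab (Subsingleton.elim _ _)
  · intro s hs
    refine ⟨(s, (fun i => i.elim0, fun i => i.elim0)), ?_, rfl⟩
    simp only [Finset.mem_filter, Finset.mem_product] at hs ⊢
    exact ⟨⟨hs.1, Tup_zero _ _⟩, by simpa [zd] using hs.2⟩

lemma abs_zd_le {A : Finset ℕ} {p P : ℕ} (hA : ∀ a ∈ A, a ≤ P) {s : (Fin p → ℕ) × (Fin p → ℕ)}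
    (hs : s ∈ Tup A p) : |zd s| ≤ (p * P : ℕ) := by
  simp only [Tup, Finset.mem_product, Fintype.mem_piFinset] at hs
  have h1 : ∀ f : Fin p → ℕ, (∀ i, f i ∈ A) →
      0 ≤ (∑ i, (f i : ℤ)) ∧ (∑ i, (f i : ℤ)) ≤ (p * P : ℕ) := by
    intro f hf
    refine ⟨Finset.sum_nonneg fun i _ => by positivity, ?_⟩
    calc (∑ i, (f i : ℤ)) ≤ ∑ _i : Fin p, (P : ℤ) :=
          Finset.sum_le_sum fun i _ => by exact_mod_cast hA _ (hf i)
      _ = (p * P : ℕ) := by simp
  have := h1 _ hs.1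
  have := h1 _ hs.2
  rw [abs_le]
  unfold zd
  constructor <;> omega

lemma eq_zero_of_dvd_of_abs_lt {z : ℤ} (h : (N : ℤ) ∣ z) (hz : |z| < N) : z = 0 :=
  Int.eq_zero_of_abs_lt_dvd h hz

lemma dvd_iff_eq_zero {z : ℤ} (hz : |z| < N) : (N : ℤ) ∣ z ↔ z = 0 :=
  ⟨fun h => eq_zero_of_dvd_of_abs_lt h hz, fun h => h ▸ dvd_zero _⟩

/-- The moment of the exponential sum equals the collision count, for a large modulus. -/
lemma cnt_eq [NeZero N] (A : Finset ℕ) {p P : ℕ} (hA : ∀ a ∈ A, a ≤ P) (hN : p * P < N) :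
    (N : ℝ) * (cnt A p : ℝ) = ∑ k : ZMod N, wS A k ^ p := by
  have h1 := cnt2_eq (N := N) A p 1 A 0 1
  simp only [Nat.cast_one, one_mul, pow_zero, mul_one] at h1
  rw [← h1, cnt2_q_zero, cnt]
  congr 2
  refine congrArg Finset.card (Finset.filter_congr fun s hs => ?_)
  rw [Nat.cast_one, one_mul]
  exact (dvd_iff_eq_zero ((abs_zd_le hA hs).trans_lt (by exact_mod_cast hN))).symm

/-- Translates never occur more often than zero. -/
lemma card_zd_eq_le (A : Finset ℕ) (p : ℕ) (t : ℤ) :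
    ((Tup A p).filter fun s => zd s = t).card ≤ cnt A p := by
  obtain ⟨P, hA⟩ : ∃ P : ℕ, ∀ a ∈ A, a ≤ P := ⟨A.sup id, fun a ha => Finset.le_sup (f := id) ha⟩
  let M := 2 * (p * P + t.natAbs) + 1
  have hM : p * P < M := by omega
  have : NeZero M := ⟨by omega⟩
  have h1 : (M : ℂ) * (((Tup A p).filter fun s => zd s = t).card : ℂ)
      = ∑ k : ZMod M, ZMod.stdAddChar (((-t : ℤ) : ZMod M) * k) * ((wS A k ^ p : ℝ) : ℂ) := by
    simp_rw [wS_pow, Finset.mul_sum, ← AddChar.map_add_eq_mul, ← add_mul, ← Int.cast_add]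
    rw [Finset.sum_comm]
    simp_rw [sum_stdAddChar]
    rw [← Finset.sum_filter, Finset.sum_const, nsmul_eq_mul, mul_comm]
    congr 2
    refine congrArg Finset.card (Finset.filter_congr fun s hs => ?_)
    have h2 := abs_zd_le hA hs
    rw [dvd_iff_eq_zero]
    · omega
    · calc |-t + zd s| ≤ |-t| + |zd s| := abs_add_le _ _
        _ < M := by
          rw [abs_neg, Int.abs_eq_natAbs]
          have : (M : ℤ) = 2 * ((p * P : ℕ) + (t.natAbs : ℤ)) + 1 := by simp [M]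
          omega
  have h2 : ‖∑ k : ZMod M, ZMod.stdAddChar (((-t : ℤ) : ZMod M) * k) * ((wS A k ^ p : ℝ) : ℂ)‖
      ≤ ∑ k : ZMod M, wS A k ^ p := by
    refine (norm_sum_le _ _).trans (le_of_eq (Finset.sum_congr rfl fun k _ => ?_))
    rw [norm_mul, AddChar.norm_apply, one_mul, Complex.norm_real,
      Real.norm_of_nonneg (pow_nonneg (wS_nonneg _ _) _)]
  rw [← h1, ← cnt_eq A hA hM, norm_mul] at h2
  simp only [Complex.norm_natCast] at h2
  exact_mod_cast le_of_mul_le_mul_left h2 (by exact_mod_cast (by omega : 0 < M))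

/-- Number of differences in a finite set of values. -/
lemma card_zd_mem_le (A : Finset ℕ) (p : ℕ) (T : Finset ℤ) :
    ((Tup A p).filter fun s => zd s ∈ T).card ≤ T.card * cnt A p := by
  have h : ((Tup A p).filter fun s => zd s ∈ T)
      = T.biUnion fun t => (Tup A p).filter fun s => zd s = t := by
    ext s
    simp [and_comm]
  rw [h]
  exact Finset.card_biUnion_le_card_mul _ _ _ fun t _ => card_zd_eq_le A p t

end Vale.Agent.P012
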