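import Vale.Agent.P012.Defs
import Vale.Agent.P012.Construct
import Vale.Agent.P012.Egypt

/-!
The maximal number of unit fractions needed is of order log log b.
-/

namespace Vale.Agent.P012

open Finset

/-- `IsDivSum M K T`: `T` is a sum of at most `K` divisors of `M`. -/
def IsDivSum (M K T : ℕ) : Prop :=
  ∃ t : Multiset ℕ, t.card ≤ K ∧ (∀ x ∈ t, x ∣ M) ∧ t.sum = T

/-- The lower end of the range of representable integers. -/
def lowEnd (m P : ℕ) : ℕ → ℕ
  | 0 => 0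
  | j + 1 => m * (lowEnd m P j + P)

lemma lowEnd_le {m P : ℕ} (hm : 2 ≤ m) (j : ℕ) : lowEnd m P j + 2 * P ≤ 2 * P * m ^ j := by
  induction j with
  | zero => simp [lowEnd]
  | succ j ih =>
    calc m * (lowEnd m P j + P) + 2 * P ≤ m * (lowEnd m P j + 2 * P) := by nlinarith
      _ ≤ m * (2 * P * m ^ j) := Nat.mul_le_mul_left _ ih
      _ = 2 * P * m ^ (j + 1) := by ring

/-- All integers in a long range are short sums of divisors. -/
lemma window_rep {m M1 K : ℕ} (hm : m.Prime)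
    (hsmall : ∀ j, 1 ≤ j → j ≤ 3 * (3 * K) → j ∣ M1)
    (hres : ∀ r : ZMod m, ∃ t : Multiset ℕ, t.card ≤ K ∧ (∀ x ∈ t, x ∣ M1 ∧ x ≤ 3 * m) ∧
      (t.sum : ZMod m) = r) (j : ℕ) :
    ∀ T : ℕ, lowEnd m (3 * K) j ≤ T → T ≤ 3 * (3 * K) * m ^ j →
      IsDivSum (m ^ j * M1) (j * K + 1) T := by
  induction j with
  | zero =>
    intro T _ hT
    rw [pow_zero, mul_one] at hT
    rcases Nat.eq_zero_or_pos T with rfl | hT0
    · exact ⟨0, by simp, by simp, rfl⟩
    · exact ⟨{T}, by simp, by simpa using hsmall T hT0 hT, by simp⟩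
  | succ j ih =>
    intro T hlo hhi
    obtain ⟨t, ht1, ht2, ht3⟩ := hres (T : ZMod m)
    have hV : t.sum ≤ 3 * K * m := by
      refine (Multiset.sum_le_card_nsmul t (3 * m) fun x hx => (ht2 x hx).2).trans ?_
      rw [smul_eq_mul]
      calc t.card * (3 * m) ≤ K * (3 * m) := Nat.mul_le_mul_right _ ht1
        _ = 3 * K * m := by ring
    have hlo' : m * lowEnd m (3 * K) j + 3 * K * m ≤ T := by
      refine le_trans (le_of_eq ?_) hlo
      rw [lowEnd]
      ring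
    have hle : t.sum ≤ T := by omega
    obtain ⟨T', hT'⟩ : m ∣ T - t.sum := by
      rw [← ZMod.natCast_eq_zero_iff]
      simp [Nat.cast_sub hle, ht3]
    have hTeq : T = t.sum + m * T' := by omega
    have hmpos := hm.pos
    obtain ⟨s, hs1, hs2, hs3⟩ := ih T'
      (le_of_mul_le_mul_left (a := m) (by omega) hmpos)
      (le_of_mul_le_mul_left (a := m) (by
        calc m * T' ≤ T := by omega
          _ ≤ 3 * (3 * K) * m ^ (j + 1) := hhi
          _ = m * (3 * (3 * K) * m ^ j) := by ring) hmpos)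
    refine ⟨t + s.map (fun x => m * x), ?_, ?_, ?_⟩
    · rw [Multiset.card_add, Multiset.card_map, Nat.succ_mul]
      omega
    · intro x hx
      rcases Multiset.mem_add.1 hx with hx | hx
      · exact dvd_mul_of_dvd_right (ht2 x hx).1 _
      · obtain ⟨y, hy, rfl⟩ := Multiset.mem_map.1 hx
        rw [pow_succ', mul_assoc]
        exact mul_dvd_mul_left _ (hs2 y hy)
    · rw [Multiset.sum_add, Multiset.sum_map_mul_left, Multiset.map_id', hs3, ← hTeq]

/-- A sum of divisors gives unit fractions. -/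
lemma divSum_usum {M K q c : ℕ} (hM : 0 < M) (hc : 0 < c) (h : IsDivSum M K q) :
    ∃ t : Multiset ℕ, t.card ≤ K ∧ (∀ n ∈ t, 1 ≤ n) ∧ usum t = (q : ℚ) / ((M * c : ℕ) : ℚ) := by
  obtain ⟨t, h1, h2, rfl⟩ := h
  refine ⟨t.map fun d => M / d * c, by simpa using h1, ?_, ?_⟩
  · intro n hn
    obtain ⟨d, hd, rfl⟩ := Multiset.mem_map.1 hn
    exact Nat.mul_pos (Nat.div_pos (Nat.le_of_dvd hM (h2 d hd))
      (Nat.pos_of_dvd_of_pos (h2 d hd) hM)) hc
  · clear h1
    induction t using Multiset.induction with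
    | empty => simp
    | cons d t ih =>
      rw [Multiset.map_cons, usum_cons, ih fun x hx => h2 x (Multiset.mem_cons_of_mem hx),
        Multiset.sum_cons]
      obtain ⟨e, he⟩ := h2 d (Multiset.mem_cons_self _ _)
      have hd0 : 0 < d := Nat.pos_of_dvd_of_pos ⟨e, he⟩ hM
      have he0 : e ≠ 0 := by rintro rfl; simp at he; omega
      have hd' : (d : ℚ) ≠ 0 := by exact_mod_cast hd0.ne'
      have he' : (e : ℚ) ≠ 0 := by exact_mod_cast he0
      have hc' : (c : ℚ) ≠ 0 := by exact_mod_cast hc.ne'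
      rw [he, Nat.mul_div_cancel_left _ hd0]
      push_cast
      field_simp

/-- The constant in the upper bound. -/
def termsConst : ℕ := 71 + 2 * (1200 * ((2 * bigC + 1) * 16000) + 1)

lemma count_arith (c l : ℕ) (hl : 8 ≤ l) :
    70 * l + 1 + ((1200 * (c * (16000 * l)) + 1) + (1200 * (c * (16000 * l)) + 1))
      ≤ (71 + 2 * (1200 * (c * 16000) + 1)) * l := by
  nlinarith

lemma bigC_le : bigC ≤ 2 ^ 422 := by
  have h1 : (20 : ℕ) ^ 80 ≤ 2 ^ 400 :=
    (Nat.pow_le_pow_left (by norm_num : 20 ≤ 2 ^ 5) 80).trans (le_of_eq (pow_mul 2 5 80).symm)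
  have h2 : 1 ≤ (2 : ℕ) ^ 400 := Nat.one_le_two_pow
  rw [bigC, show 422 = 400 + 22 by rfl, pow_add]
  generalize (20 : ℕ) ^ 80 = a at h1 ⊢
  generalize (2 : ℕ) ^ 400 = b at h1 h2 ⊢
  omega

/-- Every fraction below one needs few terms. -/
lemma upper_of_level {l a b : ℕ} (hl : 8 ≤ l) (hab : a < b) (hb : b ≤ 2 ^ 2 ^ (60 * l)) :
    ∃ s : Finset ℕ, s.card ≤ termsConst * l ∧ (∀ n ∈ s, 2 ≤ n) ∧
      ∑ n ∈ s, (1 : ℚ) / n = (a : ℚ) / b := by
  obtain ⟨m, M1, hm, hmlo, hM1pos, hM1le, hdiv, hres⟩ := exists_system l hl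
  obtain ⟨K, hK⟩ : ∃ K, K = (2 * bigC + 1) * (16000 * l) := ⟨_, rfl⟩
  have hKpos : 0 < K := by rw [hK]; positivity
  have hpow : ∀ a b : ℕ, a ≤ b → 2 ^ a ≤ 2 ^ b := fun a b h => Nat.pow_le_pow_right (by norm_num) h
  have hKsmall : 3 * (3 * K) ≤ 2 ^ (60 * l) := by
    have h2 := Nat.lt_two_pow_self (n := l)
    calc 3 * (3 * K) = (2 * bigC + 1) * (144000 * l) := by rw [hK]; ring
      _ ≤ (2 * 2 ^ 422 + 1) * (2 ^ 18 * 2 ^ l) :=
          Nat.mul_le_mul (Nat.add_le_add_right (Nat.mul_le_mul_left _ bigC_le) _)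
            (Nat.mul_le_mul (by norm_num) h2.le)
      _ ≤ 2 ^ 424 * (2 ^ 18 * 2 ^ l) := by
          refine Nat.mul_le_mul_right _ ?_
          rw [show 424 = 422 + 2 by rfl, pow_add]
          have := Nat.one_le_two_pow (n := 422)
          generalize (2 : ℕ) ^ 422 = c at this ⊢
          omega
      _ ≤ _ := by rw [← pow_add, ← pow_add]; exact hpow _ _ (by omega)
  have hrep := window_rep (K := K) hm (fun j h1 h2 => hdiv j h1 (h2.trans hKsmall))
    (by rw [hK]; exact hres) 1200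
  obtain ⟨P, hP⟩ : ∃ P, P = 3 * K := ⟨_, rfl⟩
  have hPpos : 0 < P := by omega
  rw [← hP] at hrep
  obtain ⟨W, hW⟩ : ∃ W, W = P * m ^ 1200 := ⟨_, rfl⟩
  obtain ⟨M0, hM0⟩ : ∃ M0, M0 = m ^ 1200 * M1 := ⟨_, rfl⟩
  have hmpow : 0 < m ^ 1200 := pow_pos hm.pos _
  have hWpos : 0 < W := hW ▸ Nat.mul_pos hPpos hmpow
  have hM0pos : 0 < M0 := hM0 ▸ Nat.mul_pos hmpow hM1pos
  have hWm : m ^ 1200 ≤ W := hW ▸ Nat.le_mul_of_pos_left _ hPpos
  have hwin : ∀ T, 2 * W ≤ T → T ≤ 3 * W → IsDivSum M0 (1200 * K + 1) T := by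
    intro T h1 h2
    rw [hM0]
    refine hrep T ?_ ?_
    · have := lowEnd_le (P := P) hm.two_le 1200
      rw [hW, ← mul_assoc] at h1
      omega
    · rw [hW, ← mul_assoc] at h2
      exact h2
  -- the main size inequality
  have hbm : 4 * b ^ 2 * M1 ^ 2 ≤ m ^ 1200 := by
    refine le_trans ?_ (Nat.pow_le_pow_left hmlo 1200)
    have e : 4 * b ^ 2 * M1 ^ 2
        ≤ 2 ^ 2 * (2 ^ 2 ^ (60 * l)) ^ 2 * (2 ^ (1700 * (300 * l * 2 ^ (60 * l)))) ^ 2 := by
      gcongr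
      norm_num
    refine e.trans ?_
    rw [← pow_mul, ← pow_mul, ← pow_mul, ← pow_add, ← pow_add]
    refine hpow _ _ ?_
    generalize hu : 2 ^ (60 * l) = u
    have : 1 ≤ u := hu ▸ Nat.one_le_two_pow
    nlinarith
  have hcube : 4 * b ^ 2 * M0 ^ 2 ≤ W ^ 3 := by
    calc 4 * b ^ 2 * M0 ^ 2 = (4 * b ^ 2 * M1 ^ 2) * (m ^ 1200) ^ 2 := by rw [hM0]; ring
      _ ≤ m ^ 1200 * (m ^ 1200) ^ 2 := Nat.mul_le_mul_right _ hbm
      _ = (m ^ 1200) ^ 3 := by ring
      _ ≤ W ^ 3 := Nat.pow_le_pow_left hWm 3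
  have hbpos : 0 < b := by omega
  have hbW : b ≤ W := by
    refine le_trans ?_ hWm
    refine le_trans ?_ hbm
    calc b = 1 * b * 1 := by simp
      _ ≤ 4 * b ^ 2 * M1 ^ 2 := Nat.mul_le_mul (Nat.mul_le_mul (by norm_num)
          (Nat.le_self_pow (by norm_num) _)) (Nat.one_le_pow _ _ hM1pos)
  obtain ⟨T, hT⟩ : ∃ T, T = b * M0 / W + 1 := ⟨_, rfl⟩
  have hTsq : T ^ 2 ≤ W := by
    rcases Nat.eq_zero_or_pos (b * M0 / W) with h0 | h0
    · rw [hT, h0]; omega
    · refine le_trans (Nat.pow_le_pow_left (show T ≤ 2 * (b * M0 / W) by omega) 2) ?_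
      refine Nat.le_of_mul_le_mul_right ?_ (pow_pos hWpos 2)
      calc (2 * (b * M0 / W)) ^ 2 * W ^ 2 = 4 * (b * M0 / W * W) ^ 2 := by ring
        _ ≤ 4 * (b * M0) ^ 2 := Nat.mul_le_mul_left _
            (Nat.pow_le_pow_left (Nat.div_mul_le_self _ _) 2)
        _ = 4 * b ^ 2 * M0 ^ 2 := by ring
        _ ≤ W ^ 3 := hcube
        _ = W * W ^ 2 := by ring
  have hTexp : T ≤ 2 ^ 2 ^ (70 * l) := by
    have h1 : b * M0 / W ≤ b * M1 := by
      refine Nat.div_le_of_le_mul ?_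
      rw [hM0]
      calc b * (m ^ 1200 * M1) = m ^ 1200 * (b * M1) := by ring
        _ ≤ W * (b * M1) := Nat.mul_le_mul_right _ hWm
    have h2 : b * M1 + 1 ≤ 2 ^ (2 ^ (60 * l) + 1700 * (300 * l * 2 ^ (60 * l)) + 1) := by
      rw [pow_succ 2, pow_add]
      have := Nat.mul_le_mul hb hM1le
      have := Nat.mul_pos hbpos hM1pos
      omega
    refine le_trans (le_trans (by omega) h2) (hpow _ _ ?_)
    calc 2 ^ (60 * l) + 1700 * (300 * l * 2 ^ (60 * l)) + 1
        ≤ (2 + 510000 * l) * 2 ^ (60 * l) := by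
          have := Nat.one_le_two_pow (n := 60 * l)
          rw [add_mul, mul_assoc 510000, mul_assoc 300]
          omega
      _ ≤ 2 ^ (20 + l) * 2 ^ (60 * l) := by
          refine Nat.mul_le_mul_right _ ?_
          rw [pow_add]
          have := Nat.lt_two_pow_self (n := l)
          omega
      _ ≤ _ := by rw [← pow_add]; exact hpow _ _ (by omega)
  obtain ⟨t, x, B, ht1, ht2, hxb, hbB, hBle, hval, hor⟩ := greedy_start hab hTexp
  have hBW : B ≤ W := hBle.trans (max_le hbW hTsq)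
  have hlt : (a : ℚ) / b < 1 := by
    rw [div_lt_one (by exact_mod_cast hbpos)]
    exact_mod_cast hab
  have hcount : 70 * l + 1 + ((1200 * K + 1) + (1200 * K + 1)) ≤ termsConst * l := by
    unfold termsConst
    subst hK
    exact count_arith _ l hl
  rcases Nat.eq_zero_or_pos x with hx | hx
  · exact exists_distinct _ _ hlt ⟨t, ht1.trans (by omega), ht2, by rw [hval, hx]; simp⟩
  have hBT : T ≤ B := hor.resolve_left hx.ne'
  have hxM : x * M0 ≤ W * B := by
    refine (Nat.mul_le_mul_right _ hxb.le).trans ?_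
    have h := Nat.lt_div_mul_add (a := b * M0) hWpos
    calc b * M0 ≤ (b * M0 / W + 1) * W := by rw [Nat.succ_mul]; exact h.le
      _ ≤ B * W := Nat.mul_le_mul_right _ (hT ▸ hBT)
      _ = W * B := mul_comm _ _
  have hBpos : 0 < B := by omega
  have hxM0 : 0 < x * M0 := Nat.mul_pos hx hM0pos
  obtain ⟨Z, hZ⟩ : ∃ Z, Z = 2 * W * B + 2 * W := ⟨_, rfl⟩
  obtain ⟨mu, hmu⟩ : ∃ mu, mu = Z / (x * M0) + 1 := ⟨_, rfl⟩
  have hmupos : 0 < mu := hmu ▸ Nat.succ_pos _
  have hlo : Z < x * M0 * mu := by rw [hmu]; exact Nat.lt_mul_div_succ Z hxM0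
  have hhi : x * M0 * mu ≤ Z + x * M0 := by
    rw [hmu, Nat.mul_succ]
    exact Nat.add_le_add_right (Nat.mul_div_le _ _) _
  obtain ⟨q, hq⟩ : ∃ q, q = (x * M0 * mu - 2 * W) / B := ⟨_, rfl⟩
  obtain ⟨r, hr⟩ : ∃ r, r = 2 * W + (x * M0 * mu - 2 * W) % B := ⟨_, rfl⟩
  have hdm : x * M0 * mu = q * B + r := by
    rw [hq, hr, mul_comm _ B]
    have := Nat.div_add_mod (x * M0 * mu - 2 * W) B
    omega
  have hq1 : 2 * W ≤ q := by
    rw [hq]
    refine (Nat.le_div_iff_mul_le hBpos).2 ?_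
    omega
  have hq2 : q ≤ 3 * W := by
    rw [hq]
    refine Nat.div_le_of_le_mul ?_
    rw [show B * (3 * W) = 2 * W * B + W * B by ring]
    omega
  have hr2 : r ≤ 3 * W := by
    have := Nat.mod_lt (x * M0 * mu - 2 * W) hBpos
    omega
  obtain ⟨tq, hq3, hq4, hq5⟩ := divSum_usum hM0pos hmupos (hwin q hq1 hq2)
  obtain ⟨tr, hr3, hr4, hr5⟩ := divSum_usum hM0pos (Nat.mul_pos hmupos hBpos)
    (hwin r (by omega) hr2)
  refine exists_distinct _ _ hlt ⟨t + (tq + tr), ?_, ?_, ?_⟩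
  · rw [Multiset.card_add, Multiset.card_add]
    omega
  · intro n hn
    rcases Multiset.mem_add.1 hn with hn | hn
    · exact ht2 n hn
    rcases Multiset.mem_add.1 hn with hn | hn
    · exact hq4 n hn
    · exact hr4 n hn
  · rw [usum_add, usum_add, hval, hq5, hr5]
    congr 1
    have hd : ((x : ℚ) * M0 * mu) = (q : ℚ) * B + r := by exact_mod_cast hdm
    have h1 : (B : ℚ) ≠ 0 := by exact_mod_cast hBpos.ne'
    have h2 : (M0 : ℚ) ≠ 0 := by exact_mod_cast hM0pos.ne'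
    have h3 : (mu : ℚ) ≠ 0 := by exact_mod_cast hmupos.ne'
    push_cast
    field_simp
    linarith

/-- The number of unit fractions needed is of order log log b. -/
theorem maxMinTerms_order :
    ∃ c C : ℝ, 0 < c ∧ ∃ b0 : ℕ, ∀ b : ℕ, b0 ≤ b →
      (∀ a : ℕ, 1 ≤ a → a < b → IsUnitFracRep a b (minTerms a b)) ∧
      c * Real.log (Real.log b) ≤ (maxMinTerms b : ℝ) ∧
      (maxMinTerms b : ℝ) ≤ C * Real.log (Real.log b) := by
  refine ⟨1 / 3, (termsConst : ℝ) * 12, by norm_num, 16, fun b hb => ?_⟩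
  obtain ⟨L2, hL2⟩ : ∃ L2, L2 = Nat.log 2 (Nat.log 2 b) := ⟨_, rfl⟩
  have hb' : b ≤ 2 ^ 2 ^ (60 * (8 + L2)) := by
    have h1 : b < 2 ^ (Nat.log 2 b + 1) := Nat.lt_pow_succ_log_self (by norm_num) b
    have h2 : Nat.log 2 b < 2 ^ (L2 + 1) := hL2 ▸ Nat.lt_pow_succ_log_self (by norm_num) _
    refine h1.le.trans (Nat.pow_le_pow_right (by norm_num) ?_)
    exact le_trans h2 (Nat.pow_le_pow_right (by norm_num) (by omega))
  have hall : ∀ a : ℕ, 1 ≤ a → a < b →
      IsUnitFracRep a b (minTerms a b) ∧ minTerms a b ≤ termsConst * (8 + L2) := by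
    intro a _ hab
    obtain ⟨s, hs1, hs2, hs3⟩ := upper_of_level (l := 8 + L2) (by omega) hab hb'
    have hmem : s.card ∈ {k | IsUnitFracRep a b k} := ⟨s, rfl, hs2, hs3⟩
    exact ⟨Nat.sInf_mem (s := {k | IsUnitFracRep a b k}) ⟨_, hmem⟩, (Nat.sInf_le hmem).trans hs1⟩
  have hb16 : (16 : ℝ) ≤ b := by exact_mod_cast hb
  have hlog2 : (0.6931471803 : ℝ) < Real.log 2 := Real.log_two_gt_d9
  have hlog2' : Real.log 2 < 0.6931471808 := Real.log_two_lt_d9
  have hlog16 : 4 * Real.log 2 ≤ Real.log b := by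
    have h : Real.log ((2 : ℝ) ^ 4) ≤ Real.log b :=
      Real.log_le_log (by norm_num) (by norm_num; linarith)
    rw [Real.log_pow] at h
    exact_mod_cast h
  have hlogpos : 0 < Real.log b := by linarith
  have hLL : (1 : ℝ) ≤ Real.log (Real.log b) := by
    rw [Real.le_log_iff_exp_le hlogpos]
    have := Real.exp_one_lt_d9
    linarith
  refine ⟨fun a h1 h2 => (hall a h1 h2).1, ?_, ?_⟩
  · -- lower bound
    obtain ⟨s, hs1, hs2, hs3⟩ := (hall (b - 1) (by omega) (by omega)).1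
    have hk : s.card ≤ maxMinTerms b := by
      rw [hs1]
      exact Finset.le_sup (f := fun a => minTerms a b) (Finset.mem_Ico.2 ⟨by omega, by omega⟩)
    obtain ⟨hk1, hk2⟩ := pred_div_lower (by omega) hs2 hs3
    have hk' : (s.card : ℝ) ≤ maxMinTerms b := by exact_mod_cast hk
    refine le_trans ?_ hk'
    have hk3 : b ≤ 2 ^ 2 ^ (2 * s.card + 1) := by
      refine hk2.trans ?_
      calc (2 * s.card) ^ 2 ^ s.card ≤ (2 ^ (2 * s.card)) ^ 2 ^ s.card :=
            Nat.pow_le_pow_left (Nat.lt_two_pow_self).le _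
        _ = 2 ^ (2 * s.card * 2 ^ s.card) := (pow_mul _ _ _).symm
        _ ≤ _ := by
          refine Nat.pow_le_pow_right (by norm_num) ?_
          rw [show 2 * s.card + 1 = (s.card + 1) + s.card by ring, pow_add, pow_succ]
          have := Nat.lt_two_pow_self (n := s.card)
          exact Nat.mul_le_mul_right _ (by omega)
    have hk4 : (b : ℝ) ≤ (2 : ℝ) ^ 2 ^ (2 * s.card + 1) := by exact_mod_cast hk3
    have h5 := Real.log_le_log (by linarith) hk4
    rw [Real.log_pow, Nat.cast_pow, Nat.cast_ofNat] at h5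
    have h6 : Real.log b ≤ (2 : ℝ) ^ (2 * s.card + 1) := by
      refine h5.trans (mul_le_of_le_one_right (by positivity) (by linarith))
    have h7 := Real.log_le_log hlogpos h6
    rw [Real.log_pow] at h7
    push_cast at h7
    have : (1 : ℝ) ≤ s.card := by exact_mod_cast hk1
    nlinarith
  · -- upper bound
    have h1 : (maxMinTerms b : ℝ) ≤ (termsConst : ℝ) * (8 + L2) := by
      have h : maxMinTerms b ≤ termsConst * (8 + L2) := Finset.sup_le fun a ha => by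
        rw [Finset.mem_Ico] at ha
        exact (hall a ha.1 ha.2).2
      exact_mod_cast h
    refine h1.trans ?_
    rw [mul_assoc (termsConst : ℝ)]
    refine mul_le_mul_of_nonneg_left ?_ (Nat.cast_nonneg _)
    have hlb : 2 ^ Nat.log 2 b ≤ b := Nat.pow_log_le_self 2 (by omega)
    have hlb' : (2 : ℝ) ^ Nat.log 2 b ≤ b := by exact_mod_cast hlb
    have h2 := Real.log_le_log (by positivity) hlb'
    rw [Real.log_pow] at h2
    have hlogne : Nat.log 2 b ≠ 0 := (Nat.log_pos (by norm_num) (by omega)).ne'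
    have hL2' : 2 ^ L2 ≤ Nat.log 2 b := hL2 ▸ Nat.pow_log_le_self 2 hlogne
    have hL2'' : (2 : ℝ) ^ L2 ≤ (Nat.log 2 b : ℝ) := by exact_mod_cast hL2'
    have h3 : (2 : ℝ) ^ L2 ≤ 2 * Real.log b := by
      nlinarith [pow_nonneg (by norm_num : (0 : ℝ) ≤ 2) L2]
    have h4 := Real.log_le_log (by positivity) h3
    rw [Real.log_pow, Real.log_mul (by norm_num) hlogpos.ne'] at h4
    nlinarith [(Nat.cast_nonneg L2 : (0 : ℝ) ≤ L2)]

end Vale.Agent.P012
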