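import Vale.Agent.P012.Blocks

/-!
Choice of pairs of primes such that all initial products have few additive collisions.
-/

namespace Vale.Agent.P012

open Finset

lemma pointwise_ineq {x y u : ℝ} (hx : 0 ≤ x) (hy : 0 ≤ y) (hu : 0 ≤ u) (h : u ≤ x + y) (a : ℕ) :
    (u ^ 2) ^ (2 * a) ≤ (25 / 16 : ℝ) ^ (2 * a) * ((x ^ 2) ^ (2 * a) + (y ^ 2) ^ (2 * a))
      + (25 / 4 : ℝ) ^ (2 * a) * ((x ^ 2) ^ a * (y ^ 2) ^ a) := by
  have hsq : u ^ 2 ≤ (x + y) ^ 2 := pow_le_pow_left₀ hu h 2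
  have hu2 := sq_nonneg u
  rcases le_total (4 * y) x with h1 | h1
  · calc (u ^ 2) ^ (2 * a) ≤ (25 / 16 * x ^ 2) ^ (2 * a) := by
          refine pow_le_pow_left₀ hu2 (hsq.trans ?_) _
          nlinarith [mul_le_mul h1 h1 (by positivity) hx, mul_nonneg hx (sub_nonneg.2 h1)]
      _ = (25 / 16) ^ (2 * a) * (x ^ 2) ^ (2 * a) := mul_pow _ _ _
      _ ≤ _ := by
          have : 0 ≤ (25 / 4 : ℝ) ^ (2 * a) * ((x ^ 2) ^ a * (y ^ 2) ^ a) := by positivity
          have : 0 ≤ (25 / 16 : ℝ) ^ (2 * a) * (y ^ 2) ^ (2 * a) := by positivity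
          rw [mul_add]; linarith
  rcases le_total (4 * x) y with h2 | h2
  · calc (u ^ 2) ^ (2 * a) ≤ (25 / 16 * y ^ 2) ^ (2 * a) := by
          refine pow_le_pow_left₀ hu2 (hsq.trans ?_) _
          nlinarith [mul_le_mul h2 h2 (by positivity) hy, mul_nonneg hy (sub_nonneg.2 h2)]
      _ = (25 / 16) ^ (2 * a) * (y ^ 2) ^ (2 * a) := mul_pow _ _ _
      _ ≤ _ := by
          have : 0 ≤ (25 / 4 : ℝ) ^ (2 * a) * ((x ^ 2) ^ a * (y ^ 2) ^ a) := by positivity
          have : 0 ≤ (25 / 16 : ℝ) ^ (2 * a) * (x ^ 2) ^ (2 * a) := by positivity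
          rw [mul_add]; linarith
  · calc (u ^ 2) ^ (2 * a) ≤ (25 / 4 * (x * y)) ^ (2 * a) := by
          refine pow_le_pow_left₀ hu2 (hsq.trans ?_) _
          nlinarith [mul_nonneg (sub_nonneg.2 h1) (sub_nonneg.2 h2)]
      _ = (25 / 4) ^ (2 * a) * ((x ^ 2) ^ a * (y ^ 2) ^ a) := by
          rw [mul_pow, mul_pow x y, pow_mul x, pow_mul y]
      _ ≤ _ := le_add_of_nonneg_left (by positivity)

lemma cnt_one (A : Finset ℕ) : cnt A 1 = A.card := by
  refine Finset.card_bij (fun s _ => s.1 0) ?_ ?_ ?_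
  · intro s hs
    simp only [Tup, Finset.mem_filter, Finset.mem_product, Fintype.mem_piFinset] at hs
    exact hs.1.1 0
  · intro s hs t ht h
    simp only [Finset.mem_filter, zd, Fin.sum_univ_one] at hs ht
    have h1 : s.1 = t.1 := funext fun i => by rw [Subsingleton.elim i 0]; exact h
    refine Prod.ext h1 (funext fun i => ?_)
    rw [Subsingleton.elim i 0]
    have := hs.2
    have := ht.2
    omega
  · intro x hx
    exact ⟨(fun _ => x, fun _ => x), by simp [Tup, zd, hx], rfl⟩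

/-- Interpolation of half moments. -/
lemma cnt_half_le (A : Finset ℕ) {a : ℕ} (ha : 1 ≤ a) {lam : ℝ} (hl : 0 < lam) :
    (cnt A a : ℝ) ≤ (cnt A (2 * a) : ℝ) / lam ^ a + lam ^ (a - 1) * A.card := by
  obtain ⟨P, hA⟩ : ∃ P : ℕ, ∀ x ∈ A, x ≤ P := ⟨A.sup id, fun x hx => Finset.le_sup (f := id) hx⟩
  let M := 2 * a * P + P + 1
  have hM2 : 2 * a * P < M := by omega
  have hM1 : a * P < M := by nlinarith
  have hM0 : 1 * P < M := by omega
  have : NeZero M := ⟨by omega⟩
  have key : ∀ t : ℝ, 0 ≤ t → t ^ a ≤ t ^ (2 * a) / lam ^ a + lam ^ (a - 1) * t := by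
    intro t ht
    rcases le_total lam t with h | h
    · refine le_add_of_le_of_nonneg ?_ (by positivity)
      rw [le_div_iff₀ (by positivity), two_mul, pow_add]
      gcongr
    · refine le_add_of_nonneg_of_le (by positivity) ?_
      calc t ^ a = t ^ (a - 1) * t := by rw [← pow_succ]; congr 1; omega
        _ ≤ lam ^ (a - 1) * t := by gcongr
  have h : (M : ℝ) * cnt A a
      ≤ (M : ℝ) * ((cnt A (2 * a) : ℝ) / lam ^ a + lam ^ (a - 1) * A.card) := by
    rw [← cnt_one A, mul_add, ← mul_div_assoc, ← mul_assoc, mul_comm (M : ℝ) (lam ^ (a - 1)),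
      mul_assoc, cnt_eq A hA hM1, cnt_eq A hA hM2, cnt_eq A hA hM0,
      Finset.sum_div, Finset.mul_sum, ← Finset.sum_add_distrib]
    refine Finset.sum_le_sum fun k _ => ?_
    rw [pow_one]
    exact key _ (wS_nonneg _ _)
  exact le_of_mul_le_mul_left h (by exact_mod_cast (by omega : 0 < M))

/-- Equal differences give a collision of double length. -/
lemma card_zd_pairs_le (A : Finset ℕ) (a : ℕ) :
    ((Tup A a ×ˢ Tup A a).filter fun st => zd st.1 = zd st.2).card ≤ cnt A (2 * a) := by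
  rw [two_mul]
  refine Finset.card_le_card_of_injOn
    (fun st => (Fin.append st.1.1 st.2.2, Fin.append st.1.2 st.2.1)) ?_ ?_
  · intro st hst
    simp only [Finset.coe_filter, Set.mem_setOf_eq, Tup, Finset.mem_product,
      Fintype.mem_piFinset, Finset.mem_filter] at hst ⊢
    obtain ⟨⟨⟨h1, h2⟩, h3, h4⟩, h5⟩ := hst
    refine ⟨⟨fun i => ?_, fun i => ?_⟩, ?_⟩
    · induction i using Fin.addCases with
      | left i => rw [Fin.append_left]; exact h1 i
      | right i => rw [Fin.append_right]; exact h4 i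
    · induction i using Fin.addCases with
      | left i => rw [Fin.append_left]; exact h2 i
      | right i => rw [Fin.append_right]; exact h3 i
    · simp only [zd, Fin.sum_univ_add, Fin.append_left, Fin.append_right] at h5 ⊢
      omega
  · rintro ⟨⟨s1, s2⟩, t1, t2⟩ _ ⟨⟨s1', s2'⟩, t1', t2'⟩ _ h
    simp only [Prod.mk.injEq] at h
    obtain ⟨h1, h2⟩ := h
    have e1 : s1 = s1' := funext fun i => by simpa using congrFun h1 (Fin.castAdd a i)
    have e2 : t2 = t2' := funext fun i => by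
      have h := congrFun h1 (Fin.natAdd a i)
      rwa [Fin.append_right, Fin.append_right] at h
    have e3 : s2 = s2' := funext fun i => by simpa using congrFun h2 (Fin.castAdd a i)
    have e4 : t1 = t1' := funext fun i => by
      have h := congrFun h2 (Fin.natAdd a i)
      rwa [Fin.append_right, Fin.append_right] at h
    subst e1 e2 e3 e4
    rfl

/-- The number of primes from `G` dividing a nonzero integer. -/
lemma card_prime_dvd_le {G : Finset ℕ} {U : ℕ} (hG : ∀ g ∈ G, Nat.Prime g ∧ U ≤ g) (hU : 2 ≤ U)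
    {z : ℤ} (hz : z ≠ 0) {om : ℕ} (hb : z.natAbs < U ^ (om + 1)) :
    (G.filter fun g : ℕ => (g : ℤ) ∣ z).card ≤ om := by
  set F := G.filter fun g : ℕ => (g : ℤ) ∣ z
  have h1 : ∏ g ∈ F, g ∣ z.natAbs := by
    refine Finset.prod_primes_dvd _ ?_ ?_
    · intro g hg
      exact (hG g (Finset.mem_filter.1 hg).1).1.prime
    · intro g hg
      exact Int.natCast_dvd.1 (Finset.mem_filter.1 hg).2
  have h2 : U ^ F.card ≤ ∏ g ∈ F, g :=
    (Finset.prod_const U).symm.le.trans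
      (Finset.prod_le_prod' fun g hg => (hG g (Finset.mem_filter.1 hg).1).2)
  have h3 := Nat.le_of_dvd (Int.natAbs_pos.2 hz) h1
  exact Nat.lt_succ_iff.1 ((Nat.pow_lt_pow_iff_right (by omega)).1 ((h2.trans h3).trans_lt hb))

/-- The average number of solutions of `g₀ z + g₁ z' = 0`. -/
lemma cross_sum_le {G : Finset ℕ} (hG : ∀ g ∈ G, Nat.Prime g) (A : Finset ℕ) (a om : ℕ)
    (hom : ∀ s ∈ Tup A a, zd s ≠ 0 → (G.filter fun g : ℕ => (g : ℤ) ∣ zd s).card ≤ om) :
    (∑ e ∈ G.offDiag, ((Tup A a ×ˢ Tup A a).filter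
        fun st => (e.1 : ℤ) * zd st.1 + (e.2 : ℤ) * zd st.2 = 0).card : ℝ)
      ≤ (G.offDiag.card : ℝ) * (cnt A a : ℝ) ^ 2
        + (G.card : ℝ) * om * (cnt A (2 * a) : ℝ) := by
  classical
  set T := Tup A a
  set Z := T.image zd
  set F : ℤ → ℕ := fun z => (T.filter fun s => zd s = z).card with hF
  set Q := (G.offDiag ×ˢ (Z ×ˢ Z)).filter
    fun q => (q.1.1 : ℤ) * q.2.1 + (q.1.2 : ℤ) * q.2.2 = 0 ∧ q.2.1 ≠ 0 with hQ
  have hzero : ∀ e ∈ G.offDiag, ∀ z1 z2 : ℤ, (e.1 : ℤ) * z1 + (e.2 : ℤ) * z2 = 0 →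
      z1 = 0 → z2 = 0 := by
    intro e he z1 z2 h h1
    have := (hG _ (Finset.mem_offDiag.1 he).2.1).pos
    subst h1
    simp only [mul_zero, zero_add, mul_eq_zero] at h
    exact h.resolve_left (by omega)
  -- pairs of tuples by values
  have h1 : ∀ e ∈ G.offDiag, ((T ×ˢ T).filter
      fun st => (e.1 : ℤ) * zd st.1 + (e.2 : ℤ) * zd st.2 = 0).card
      ≤ cnt A a ^ 2 + ∑ z ∈ (Z ×ˢ Z).filter
          (fun z => (e.1 : ℤ) * z.1 + (e.2 : ℤ) * z.2 = 0 ∧ z.1 ≠ 0), F z.1 * F z.2 := by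
    intro e he
    set R := (T ×ˢ T).filter fun st => (e.1 : ℤ) * zd st.1 + (e.2 : ℤ) * zd st.2 = 0 with hR
    rw [← Finset.card_filter_add_card_filter_not (s := R) (fun st => zd st.1 = 0)]
    refine add_le_add ?_ ?_
    · rw [sq, cnt, ← Finset.card_product]
      refine Finset.card_le_card fun st hst => ?_
      simp only [hR, Finset.mem_filter, Finset.mem_product] at hst ⊢
      exact ⟨⟨hst.1.1.1, hst.2⟩, hst.1.1.2, hzero e he _ _ hst.1.2 hst.2⟩
    · rw [Finset.card_eq_sum_card_fiberwise (f := fun st => (zd st.1, zd st.2))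
        (t := (Z ×ˢ Z).filter fun z => (e.1 : ℤ) * z.1 + (e.2 : ℤ) * z.2 = 0 ∧ z.1 ≠ 0)]
      · refine Finset.sum_le_sum fun z _ => ?_
        rw [hF, ← Finset.card_product]
        refine Finset.card_le_card fun st hst => ?_
        simp only [hR, Finset.mem_filter, Finset.mem_product, Prod.ext_iff] at hst ⊢
        exact ⟨⟨hst.1.1.1.1, hst.2.1⟩, hst.1.1.1.2, hst.2.2⟩
      · intro st hst
        simp only [hR, Finset.coe_filter, Set.mem_setOf_eq, Finset.mem_filter,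
          Finset.mem_product] at hst ⊢
        exact ⟨⟨Finset.mem_image_of_mem _ hst.1.1.1, Finset.mem_image_of_mem _ hst.1.1.2⟩,
          hst.1.2, hst.2⟩
  -- squares
  have hsq : (∑ z ∈ Z, (F z : ℝ) ^ 2) ≤ cnt A (2 * a) := by
    refine le_trans ?_ (Nat.cast_le.2 (card_zd_pairs_le A a))
    rw [Finset.card_eq_sum_card_fiberwise (f := fun st => zd st.1) (t := Z)]
    · push_cast
      refine Finset.sum_le_sum fun z _ => ?_
      rw [sq, hF, ← Nat.cast_mul, ← Finset.card_product, Nat.cast_le]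
      refine Finset.card_le_card fun st hst => ?_
      simp only [Finset.mem_filter, Finset.mem_product] at hst ⊢
      exact ⟨⟨⟨hst.1.1, hst.2.1⟩, hst.1.2.trans hst.2.2.symm⟩, hst.1.2⟩
    · intro st hst
      simp only [Finset.coe_filter, Set.mem_setOf_eq, Finset.mem_product] at hst
      exact Finset.mem_image_of_mem _ hst.1.1
  have hside : ∀ sel : ((ℕ × ℕ) × ℤ × ℤ) → ℤ, (∀ q ∈ Q, sel q ∈ Z) →
      (∀ z ∈ Z, (Q.filter fun q => sel q = z).card ≤ om * G.card) →
      (∑ q ∈ Q, (F (sel q) : ℝ) ^ 2) ≤ (G.card : ℝ) * om * (cnt A (2 * a) : ℝ) := by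
    intro sel hmem hfib
    rw [← Finset.sum_fiberwise_of_maps_to hmem]
    refine le_trans (Finset.sum_le_sum fun z hz => ?_)
      ((Finset.mul_sum _ _ _).symm.le.trans (mul_le_mul_of_nonneg_left hsq (by positivity)))
    rw [Finset.sum_congr rfl fun q hq => by rw [(Finset.mem_filter.1 hq).2], Finset.sum_const,
      nsmul_eq_mul]
    gcongr
    rw [mul_comm (G.card : ℝ)]
    exact_mod_cast hfib z hz
  have hG0 : ∀ q ∈ Q, q.1.1 ∈ G ∧ q.1.2 ∈ G ∧ q.1.1 ≠ q.1.2 ∧ q.2.1 ∈ Z ∧ q.2.2 ∈ Z ∧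
      (q.1.1 : ℤ) * q.2.1 + (q.1.2 : ℤ) * q.2.2 = 0 ∧ q.2.1 ≠ 0 ∧ q.2.2 ≠ 0 := by
    intro q hq
    simp only [hQ, Finset.mem_filter, Finset.mem_product, Finset.mem_offDiag] at hq
    obtain ⟨⟨⟨a1, a2, a3⟩, a4, a5⟩, a6, a7⟩ := hq
    refine ⟨a1, a2, a3, a4, a5, a6, a7, fun h => ?_⟩
    rw [h, mul_zero, add_zero, mul_eq_zero] at a6
    exact a7 (a6.resolve_left (by have := (hG _ a1).pos; omega))
  have hdvd : ∀ g g' : ℕ, g ∈ G → g' ∈ G → g ≠ g' → ∀ x y : ℤ,
      (g : ℤ) * x + (g' : ℤ) * y = 0 → (g' : ℤ) ∣ x := by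
    intro g g' hg hg' hne x y h
    have h2 : (g' : ℤ) ∣ (g : ℤ) * x := ⟨-y, by linarith⟩
    refine (Int.isCoprime_iff_gcd_eq_one.2 ?_).dvd_of_dvd_mul_left h2
    rw [Int.gcd_natCast_natCast]
    exact (Nat.coprime_primes (hG _ hg') (hG _ hg)).2 (Ne.symm hne)
  have hfib1 : ∀ z ∈ Z, (Q.filter fun q => q.2.1 = z).card ≤ om * G.card := by
    intro z hz
    obtain ⟨s, hs, rfl⟩ := Finset.mem_image.1 hz
    by_cases h0 : zd s = 0
    · rw [Finset.card_eq_zero.2 (Finset.filter_eq_empty_iff.2 fun q hq h => (hG0 q hq).2.2.2.2.2.2.1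
        (h.trans h0))]
      exact Nat.zero_le _
    refine le_trans ?_ (Nat.mul_le_mul_right _ (hom s hs h0))
    rw [← Finset.card_product]
    refine Finset.card_le_card_of_injOn (fun q => (q.1.2, q.1.1)) ?_ ?_
    · intro q hq
      simp only [Finset.coe_filter, Set.mem_setOf_eq] at hq
      obtain ⟨a1, a2, a3, -, -, a6, -, -⟩ := hG0 q hq.1
      simp only [Finset.mem_coe, Finset.mem_product, Finset.mem_filter]
      exact ⟨⟨a2, hq.2 ▸ hdvd _ _ a1 a2 a3 _ _ a6⟩, a1⟩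
    · intro q hq q' hq' h
      simp only [Finset.coe_filter, Set.mem_setOf_eq] at hq hq'
      simp only [Prod.mk.injEq] at h
      obtain ⟨-, a2, -, -, -, a6, -, -⟩ := hG0 q hq.1
      obtain ⟨-, -, -, -, -, b6, -, -⟩ := hG0 q' hq'.1
      have e2 : q.2.1 = q'.2.1 := hq.2.trans hq'.2.symm
      rw [← h.1, ← h.2, ← e2] at b6
      have : q.2.2 = q'.2.2 :=
        mul_left_cancel₀ (Int.natCast_ne_zero.2 (hG _ a2).pos.ne') (by linarith)
      exact Prod.ext (Prod.ext h.2 h.1) (Prod.ext e2 this)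
  have hfib2 : ∀ z ∈ Z, (Q.filter fun q => q.2.2 = z).card ≤ om * G.card := by
    intro z hz
    obtain ⟨s, hs, rfl⟩ := Finset.mem_image.1 hz
    by_cases h0 : zd s = 0
    · rw [Finset.card_eq_zero.2 (Finset.filter_eq_empty_iff.2 fun q hq h => (hG0 q hq).2.2.2.2.2.2.2
        (h.trans h0))]
      exact Nat.zero_le _
    refine le_trans ?_ (Nat.mul_le_mul_right _ (hom s hs h0))
    rw [← Finset.card_product]
    refine Finset.card_le_card_of_injOn (fun q => (q.1.1, q.1.2)) ?_ ?_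
    · intro q hq
      simp only [Finset.coe_filter, Set.mem_setOf_eq] at hq
      obtain ⟨a1, a2, a3, -, -, a6, -, -⟩ := hG0 q hq.1
      simp only [Finset.mem_coe, Finset.mem_product, Finset.mem_filter]
      exact ⟨⟨a1, hq.2 ▸ hdvd _ _ a2 a1 (Ne.symm a3) _ q.2.1 (by linarith)⟩, a2⟩
    · intro q hq q' hq' h
      simp only [Finset.coe_filter, Set.mem_setOf_eq] at hq hq'
      simp only [Prod.mk.injEq] at h
      obtain ⟨a1, -, -, -, -, a6, -, -⟩ := hG0 q hq.1
      obtain ⟨-, -, -, -, -, b6, -, -⟩ := hG0 q' hq'.1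
      have e2 : q.2.2 = q'.2.2 := hq.2.trans hq'.2.symm
      rw [← h.1, ← h.2, ← e2] at b6
      have : q.2.1 = q'.2.1 :=
        mul_left_cancel₀ (Int.natCast_ne_zero.2 (hG _ a1).pos.ne') (by linarith)
      exact Prod.ext (Prod.ext h.1 h.2) (Prod.ext this e2)
  have hA := hside (fun q => q.2.1) (fun q hq => (hG0 q hq).2.2.2.1) hfib1
  have hB := hside (fun q => q.2.2) (fun q hq => (hG0 q hq).2.2.2.2.1) hfib2
  have hsum : (∑ e ∈ G.offDiag, (∑ z ∈ (Z ×ˢ Z).filter
      (fun z => (e.1 : ℤ) * z.1 + (e.2 : ℤ) * z.2 = 0 ∧ z.1 ≠ 0), (F z.1 * F z.2 : ℝ)))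
      = ∑ q ∈ Q, (F q.2.1 * F q.2.2 : ℝ) := by
    rw [hQ, Finset.sum_filter, Finset.sum_product]
    refine Finset.sum_congr rfl fun e _ => ?_
    rw [Finset.sum_filter]
  have hamgm : (∑ q ∈ Q, (F q.2.1 * F q.2.2 : ℝ))
      ≤ (G.card : ℝ) * om * (cnt A (2 * a) : ℝ) := by
    have : (∑ q ∈ Q, (F q.2.1 * F q.2.2 : ℝ))
        ≤ ∑ q ∈ Q, (((F q.2.1 : ℝ) ^ 2 + (F q.2.2 : ℝ) ^ 2) / 2) :=
      Finset.sum_le_sum fun q _ => by linarith [two_mul_le_add_sq (F q.2.1 : ℝ) (F q.2.2)]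
    rw [← Finset.sum_div, Finset.sum_add_distrib] at this
    linarith
  calc (∑ e ∈ G.offDiag, ((T ×ˢ T).filter
          fun st => (e.1 : ℤ) * zd st.1 + (e.2 : ℤ) * zd st.2 = 0).card : ℝ)
      ≤ ∑ e ∈ G.offDiag, ((cnt A a : ℝ) ^ 2 + ∑ z ∈ (Z ×ˢ Z).filter
          (fun z => (e.1 : ℤ) * z.1 + (e.2 : ℤ) * z.2 = 0 ∧ z.1 ≠ 0), (F z.1 * F z.2 : ℝ)) :=
        Finset.sum_le_sum fun e he => by exact_mod_cast h1 e he
    _ ≤ _ := by
        rw [Finset.sum_add_distrib, Finset.sum_const, nsmul_eq_mul, hsum]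
        linarith

lemma pool_arith {p : ℕ} (hp : 8 ≤ p) {B K eps : ℝ} (hB : 0 ≤ B) (hK : K = 16 * 4 ^ p)
    (heps : eps ≤ 1 / (4 * 4 ^ p)) :
    2 * (25 / 16 : ℝ) ^ p * B + (25 / 4) ^ p * (4 * B / K + eps * B) ≤ 2 ^ p * B := by
  have h1 : 2 * (25 / 32 : ℝ) ^ p ≤ 1 / 2 := by
    calc 2 * (25 / 32 : ℝ) ^ p ≤ 2 * (25 / 32 : ℝ) ^ 8 :=
          mul_le_mul_of_nonneg_left (pow_le_pow_of_le_one (by norm_num) (by norm_num) hp)
            (by norm_num)
      _ ≤ 1 / 2 := by norm_num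
  have h2 : (25 / 8 : ℝ) ^ p ≤ 4 ^ p := pow_le_pow_left₀ (by norm_num) (by norm_num) p
  have h3 : 4 / K + eps ≤ 1 / (2 * 4 ^ p) := by
    refine le_trans (add_le_add (le_of_eq ?_) heps) (le_of_eq ?_) (b := 1 / (4 * 4 ^ p) + 1 / (4 * 4 ^ p))
    · rw [hK]; field_simp; norm_num
    · field_simp; norm_num
  have h4 : (25 / 8 : ℝ) ^ p * (4 / K + eps) ≤ 1 / 2 := by
    refine le_trans (mul_le_mul_of_nonneg_left h3 (by positivity)) ?_
    rw [mul_one_div, div_le_iff₀ (by positivity)]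
    linarith
  have e : 2 * (25 / 16 : ℝ) ^ p * B + (25 / 4) ^ p * (4 * B / K + eps * B)
      = (2 * (25 / 32 : ℝ) ^ p + (25 / 8 : ℝ) ^ p * (4 / K + eps)) * (2 ^ p * B) := by
    have e1 : (25 / 16 : ℝ) ^ p = (25 / 32) ^ p * 2 ^ p := by rw [← mul_pow]; norm_num
    have e2 : (25 / 4 : ℝ) ^ p = (25 / 8) ^ p * 2 ^ p := by rw [← mul_pow]; norm_num
    rw [e1, e2]
    ring
  rw [e]
  exact mul_le_of_le_one_left (by positivity) (by linarith)

/-- One more pair of primes. -/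
lemma pool_step {G : Finset ℕ} {a w om : ℕ} {A : Finset ℕ} (ha : 4 ≤ a)
    (hG : ∀ g ∈ G, Nat.Prime g ∧ ∀ x ∈ A, ¬ g ∣ x)
    (hom : ∀ s ∈ Tup A a, zd s ≠ 0 → (G.filter fun g : ℕ => (g : ℤ) ∣ zd s).card ≤ om)
    (hn : 2 ≤ G.card) (hom' : (om : ℝ) * (4 * 4 ^ (2 * a)) ≤ (G.card : ℝ) - 1)
    (hA : A.card = 2 ^ w)
    (hB : (cnt A (2 * a) : ℝ) ≤ (16 * 4 ^ (2 * a)) ^ (2 * a - 1) * 2 ^ (2 * a * w)) :
    ∃ g0 ∈ G, ∃ g1 ∈ G, g0 ≠ g1 ∧
      (cnt (Finset.image₂ (fun g x => g * x) {g0, g1} A) (2 * a) : ℝ)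
        ≤ (16 * 4 ^ (2 * a)) ^ (2 * a - 1) * 2 ^ (2 * a * (w + 1)) := by
  classical
  set K : ℝ := 16 * 4 ^ (2 * a) with hK
  set B : ℝ := K ^ (2 * a - 1) * 2 ^ (2 * a * w) with hBdef
  set eps : ℝ := (om : ℝ) / ((G.card : ℝ) - 1) with heps
  have hK0 : 0 < K := by positivity
  have hn1 : (0 : ℝ) < (G.card : ℝ) - 1 := by
    have : (2 : ℝ) ≤ G.card := by exact_mod_cast hn
    linarith
  have heps' : eps ≤ 1 / (4 * 4 ^ (2 * a)) := by
    rw [heps, div_le_div_iff₀ hn1 (by positivity)]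
    linarith
  clear_value K B
  -- the half moment
  have hhalf : (cnt A a : ℝ) ≤ 2 * (K ^ (a - 1) * 2 ^ (a * w)) := by
    have h := cnt_half_le A (a := a) (by omega) (lam := K * 2 ^ w) (by positivity)
    rw [hA] at h
    push_cast at h
    refine h.trans (le_trans (add_le_add (div_le_div_of_nonneg_right hB (by positivity))
      le_rfl) (le_of_eq ?_))
    obtain ⟨b, rfl⟩ : ∃ b, a = b + 1 := ⟨a - 1, by omega⟩
    have e1 : 2 * (b + 1) - 1 = (b + 1) + b := by omega
    rw [hBdef, e1, Nat.add_sub_cancel, mul_pow, mul_pow]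
    rw [show K ^ ((b + 1) + b) * (2 : ℝ) ^ (2 * (b + 1) * w)
        = (K ^ (b + 1) * ((2 : ℝ) ^ w) ^ (b + 1)) * (K ^ b * ((2 : ℝ) ^ w) ^ (b + 1)) by ring,
      mul_div_cancel_left₀ _ (by positivity)]
    ring
  have hsq : (cnt A a : ℝ) ^ 2 ≤ 4 * B / K := by
    refine le_trans (pow_le_pow_left₀ (by positivity) hhalf 2) (le_of_eq ?_)
    obtain ⟨b, rfl⟩ : ∃ b, a = b + 1 := ⟨a - 1, by omega⟩
    have e1 : 2 * (b + 1) - 1 = (b + b) + 1 := by omega
    rw [hBdef, e1, Nat.add_sub_cancel, pow_succ K, eq_div_iff hK0.ne']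
    ring
  -- a pair with few cross solutions
  have hcard : (G.offDiag.card : ℝ) = (G.card : ℝ) * ((G.card : ℝ) - 1) := by
    rw [Finset.offDiag_card, Nat.cast_sub (Nat.le_mul_self _)]
    push_cast
    ring
  have hne : G.offDiag.Nonempty := by
    obtain ⟨x, hx, y, hy, hxy⟩ := Finset.one_lt_card.1 hn
    exact ⟨(x, y), Finset.mem_offDiag.2 ⟨hx, hy, hxy⟩⟩
  obtain ⟨⟨g0, g1⟩, he, hX⟩ := Finset.exists_le_of_sum_le hne
    (f := fun e => (((Tup A a ×ˢ Tup A a).filter
        fun st => (e.1 : ℤ) * zd st.1 + (e.2 : ℤ) * zd st.2 = 0).card : ℝ))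
    (g := fun _ => (cnt A a : ℝ) ^ 2 + eps * cnt A (2 * a)) (by
      refine (cross_sum_le (fun g hg => (hG g hg).1) A a om hom).trans (le_of_eq ?_)
      rw [Finset.sum_const, nsmul_eq_mul, hcard, heps]
      field_simp)
  obtain ⟨hg0, hg1, hne01⟩ := Finset.mem_offDiag.1 he
  refine ⟨g0, hg0, g1, hg1, hne01, ?_⟩
  set A' := Finset.image₂ (fun g x => g * x) {g0, g1} A with hA'
  obtain ⟨P, hP⟩ : ∃ P : ℕ, ∀ x ∈ A, x ≤ P := ⟨A.sup id, fun x hx => Finset.le_sup (f := id) hx⟩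
  set P' := (g0 + g1 + 1) * P + P with hP'
  have hP'' : ∀ x ∈ A', x ≤ P' := by
    intro x hx
    rw [hA', Finset.mem_image₂] at hx
    obtain ⟨g, hgm, y, hy, rfl⟩ := hx
    refine le_trans ?_ (Nat.le_add_right _ _)
    refine Nat.mul_le_mul ?_ (hP y hy)
    simp only [Finset.mem_insert, Finset.mem_singleton] at hgm
    rcases hgm with rfl | rfl <;> omega
  set M := 2 * a * P' + (g0 + g1) * (2 * a * P) + 1 with hM
  have hM1 : 2 * a * P' < M := by omega
  have : NeZero M := ⟨by omega⟩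
  have hsingle : ∀ g ∈ G, g ≤ g0 + g1 → (M : ℝ) * cnt A (2 * a)
      = ∑ k : ZMod M, wS A ((g : ZMod M) * k) ^ (2 * a) := by
    intro g hg hle
    have h1 := cnt2_eq (N := M) A (2 * a) g A 0 1
    simp only [pow_zero, mul_one] at h1
    rw [← h1, cnt2_q_zero, cnt]
    congr 2
    refine congrArg Finset.card (Finset.filter_congr fun s hs => ?_)
    have hlt : |(g : ℤ) * zd s| < M := by
      rw [abs_mul, Nat.abs_cast]
      calc (g : ℤ) * |zd s| ≤ ((g0 + g1 : ℕ) : ℤ) * (2 * a * P : ℕ) :=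
            mul_le_mul (by exact_mod_cast hle) (abs_zd_le hP hs) (abs_nonneg _) (by positivity)
        _ < M := by rw [← Nat.cast_mul, Nat.cast_lt]; omega
    rw [dvd_iff_eq_zero hlt, mul_eq_zero]
    exact (or_iff_right (Int.natCast_ne_zero.2 (hG g hg).1.pos.ne')).symm
  have hcross : (M : ℝ) * (((Tup A a ×ˢ Tup A a).filter
        fun st => (g0 : ℤ) * zd st.1 + (g1 : ℤ) * zd st.2 = 0).card : ℝ)
      = ∑ k : ZMod M, wS A ((g0 : ZMod M) * k) ^ a * wS A ((g1 : ZMod M) * k) ^ a := by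
    rw [← cnt2_eq, cnt2]
    congr 2
    refine congrArg Finset.card (Finset.filter_congr fun st hst => ?_)
    rw [Finset.mem_product] at hst
    have hlt : |(g0 : ℤ) * zd st.1 + (g1 : ℤ) * zd st.2| < M := by
      refine (abs_add_le _ _).trans_lt ?_
      rw [abs_mul, abs_mul, Nat.abs_cast, Nat.abs_cast]
      calc (g0 : ℤ) * |zd st.1| + (g1 : ℤ) * |zd st.2|
          ≤ (g0 : ℤ) * (a * P : ℕ) + (g1 : ℤ) * (a * P : ℕ) := by
            gcongr
            · exact abs_zd_le hP hst.1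
            · exact abs_zd_le hP hst.2
        _ < M := by
            rw [← add_mul, ← Nat.cast_add, ← Nat.cast_mul, Nat.cast_lt]
            have : (g0 + g1) * (a * P) ≤ (g0 + g1) * (2 * a * P) :=
              Nat.mul_le_mul_left _ (Nat.mul_le_mul_right _ (by omega))
            omega
    exact (dvd_iff_eq_zero hlt).symm
  have hexp : ∀ k : ZMod M, expS A' k
      = expS A ((g0 : ZMod M) * k) + expS A ((g1 : ZMod M) * k) := by
    intro k
    have hdisj : Disjoint (A.image (g0 * ·)) (A.image (g1 * ·)) := by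
      rw [Finset.disjoint_left]
      intro x hx hx'
      obtain ⟨y, hy, rfl⟩ := Finset.mem_image.1 hx
      obtain ⟨y', hy', h⟩ := Finset.mem_image.1 hx'
      have hd : g0 ∣ g1 * y' := h ▸ dvd_mul_right g0 y
      rcases (hG g0 hg0).1.dvd_mul.1 hd with h1 | h1
      · exact hne01 ((Nat.prime_dvd_prime_iff_eq (hG g0 hg0).1 (hG g1 hg1).1).1 h1)
      · exact (hG g0 hg0).2 y' hy' h1
    have hA'' : A' = A.image (g0 * ·) ∪ A.image (g1 * ·) := by
      ext x
      simp [hA', Finset.mem_image₂]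
    rw [expS, hA'', Finset.sum_union hdisj, Finset.sum_image, Finset.sum_image, expS, expS]
    · congr 1 <;> refine Finset.sum_congr rfl fun y _ => ?_ <;> push_cast <;> congr 1 <;> ring
    · exact fun x _ y _ h => Nat.eq_of_mul_eq_mul_left (hG g1 hg1).1.pos h
    · exact fun x _ y _ h => Nat.eq_of_mul_eq_mul_left (hG g0 hg0).1.pos h
  have hmain : (M : ℝ) * cnt A' (2 * a)
      ≤ (M : ℝ) * ((25 / 16 : ℝ) ^ (2 * a) * (cnt A (2 * a) + cnt A (2 * a))
        + (25 / 4 : ℝ) ^ (2 * a) * (((Tup A a ×ˢ Tup A a).filter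
          fun st => (g0 : ℤ) * zd st.1 + (g1 : ℤ) * zd st.2 = 0).card : ℝ)) := by
    have e : ∀ c d : ℝ, ∀ n X : ℝ, (M : ℝ) * (c * (n + n) + d * X)
        = c * ((M : ℝ) * n + (M : ℝ) * n) + d * ((M : ℝ) * X) := by intros; ring
    rw [cnt_eq A' hP'' hM1, e, hcross]
    nth_rw 1 [hsingle g0 hg0 (by omega)]
    rw [hsingle g1 hg1 (by omega), ← Finset.sum_add_distrib, Finset.mul_sum, Finset.mul_sum,
      ← Finset.sum_add_distrib]
    refine Finset.sum_le_sum fun k _ => ?_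
    exact pointwise_ineq (norm_nonneg _) (norm_nonneg _) (norm_nonneg _)
      ((hexp k).symm ▸ norm_add_le _ _) a
  refine (le_of_mul_le_mul_left hmain (by exact_mod_cast (by omega : 0 < M))).trans ?_
  have heps0 : 0 ≤ eps := div_nonneg (by positivity) hn1.le
  refine le_trans ?_ (le_trans (pool_arith (p := 2 * a) (B := B) (by omega) ((Nat.cast_nonneg _).trans hB) hK heps')
    (le_of_eq ?_))
  · refine add_le_add (by nlinarith [pow_nonneg (by norm_num : (0:ℝ) ≤ 25/16) (2 * a)])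
      (mul_le_mul_of_nonneg_left (hX.trans (add_le_add hsq ?_)) (by positivity))
    exact mul_le_mul_of_nonneg_left hB heps0
  · rw [hBdef, Nat.mul_succ, pow_add]
    ring

/-- A family of pairs of primes from `G` all of whose initial products have few collisions. -/
lemma exists_pool {G : Finset ℕ} {U H a u om : ℕ} (ha : 4 ≤ a) (hU : 2 ≤ U)
    (hG : ∀ g ∈ G, Nat.Prime g ∧ U ≤ g ∧ g ≤ H)
    (hom : ∀ w < u, a * H ^ w < U ^ (om + 1))
    (hn : 2 * u + 2 ≤ G.card)
    (hom' : (om : ℝ) * (4 * 4 ^ (2 * a)) + 2 * u ≤ (G.card : ℝ) - 1) :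
    ∃ blk : ℕ → Finset ℕ, (∀ j < u, blk j ⊆ G ∧ (blk j).card = 2) ∧ Good blk u ∧
      ∀ w ≤ u, (cnt (pre blk w) (2 * a) : ℝ)
        ≤ (16 * 4 ^ (2 * a)) ^ (2 * a - 1) * 2 ^ (2 * a * w) := by
  classical
  suffices h : ∀ v ≤ u, ∃ blk : ℕ → Finset ℕ, (∀ j < v, blk j ⊆ G ∧ (blk j).card = 2) ∧
      Good blk v ∧ ∀ w ≤ v, (cnt (pre blk w) (2 * a) : ℝ)
        ≤ (16 * 4 ^ (2 * a)) ^ (2 * a - 1) * 2 ^ (2 * a * w) from h u le_rfl
  intro v
  induction v with
  | zero =>
    intro _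
    refine ⟨fun _ => ∅, by omega, ⟨by omega, by omega⟩, fun w hw => ?_⟩
    obtain rfl : w = 0 := by omega
    have h1 : cnt (pre (fun _ => ∅) 0) (2 * a) ≤ 1 := by
      refine (Finset.card_filter_le _ _).trans ?_
      rw [Tup_card]; simp
    refine le_trans (Nat.cast_le.2 h1) ?_
    simp only [Nat.cast_one, mul_zero, pow_zero, mul_one]
    refine one_le_pow₀ ?_
    linarith [one_le_pow₀ (n := 2 * a) (by norm_num : (1 : ℝ) ≤ 4)]
  | succ v ih =>
    intro hv
    obtain ⟨blk, hblk, hgood, hcnt⟩ := ih (by omega)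
    set E := (Finset.range v).biUnion blk with hE
    have hEcard : E.card ≤ 2 * v := by
      refine Finset.card_biUnion_le.trans ?_
      rw [Finset.sum_congr rfl fun j hj => (hblk j (Finset.mem_range.1 hj)).2]
      simp [mul_comm]
    set G' := G \ E with hG'
    have hG'card : G.card ≤ G'.card + 2 * v := by
      calc G.card ≤ (G \ E).card + E.card := Finset.card_le_card_sdiff_add_card
        _ ≤ (G \ E).card + 2 * v := Nat.add_le_add_left hEcard _
    have hbd : ∀ j < v, ∀ g ∈ blk j, U ≤ g ∧ g ≤ H := fun j hj g hg =>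
      (hG g ((hblk j hj).1 hg)).2
    obtain ⟨g0, hg0, g1, hg1, hne, hstep⟩ := pool_step (A := pre blk v) (w := v) (om := om)
      (G := G') ha
      (fun g hg => by
        rw [hG', Finset.mem_sdiff] at hg
        refine ⟨(hG g hg.1).1, fun x hx => not_dvd_pre hgood (hG g hg.1).1 (fun j hj hj' => ?_) hx⟩
        exact hg.2 (Finset.mem_biUnion.2 ⟨j, Finset.mem_range.2 hj, hj'⟩))
      (fun s hs hs0 => by
        refine (Finset.card_le_card (Finset.filter_subset_filter _ Finset.sdiff_subset)).trans ?_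
        refine card_prime_dvd_le (fun g hg => ⟨(hG g hg).1, (hG g hg).2.1⟩) hU hs0 ?_
        have h1 : |zd s| ≤ ((a * H ^ v : ℕ) : ℤ) :=
          abs_zd_le (fun x hx => (pre_bounds hbd hx).2) hs
        have := hom v (by omega)
        rw [Int.abs_eq_natAbs] at h1
        omega)
      (by omega)
      (by
        have : (G.card : ℝ) ≤ (G'.card : ℝ) + 2 * v := by exact_mod_cast hG'card
        have : (v : ℝ) ≤ u := by exact_mod_cast (by omega : v ≤ u)
        linarith)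
      (by rw [card_pre hgood, Finset.prod_congr rfl fun j hj => (hblk j (Finset.mem_range.1 hj)).2,
            Finset.prod_const, Finset.card_range])
      (hcnt v le_rfl)
    rw [hG', Finset.mem_sdiff] at hg0 hg1
    refine ⟨Function.update blk v {g0, g1}, ?_, ⟨?_, ?_⟩, ?_⟩
    · intro j hj
      rcases eq_or_ne j v with rfl | hjv
      · simp [hne, Finset.insert_subset_iff, hg0.1, hg1.1]
      · rw [Function.update_of_ne hjv]
        exact hblk j (by omega)
    · intro j hj g hg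
      rcases eq_or_ne j v with rfl | hjv
      · simp only [Function.update_self, Finset.mem_insert, Finset.mem_singleton] at hg
        rcases hg with rfl | rfl
        · exact (hG g hg0.1).1
        · exact (hG g hg1.1).1
      · rw [Function.update_of_ne hjv] at hg
        exact hgood.prime j (by omega) g hg
    · have hnew : ∀ j < v, Disjoint (blk j) {g0, g1} := by
        intro j hj
        rw [Finset.disjoint_left]
        intro g hg hg'
        simp only [Finset.mem_insert, Finset.mem_singleton] at hg'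
        have hgE : g ∈ E := Finset.mem_biUnion.2 ⟨j, Finset.mem_range.2 hj, hg⟩
        rcases hg' with rfl | rfl
        · exact hg0.2 hgE
        · exact hg1.2 hgE
      intro i hi j hj hij
      rcases eq_or_ne i v with rfl | hiv
      · rw [Function.update_self, Function.update_of_ne (Ne.symm hij)]
        exact (hnew j (by omega)).symm
      · rcases eq_or_ne j v with rfl | hjv
        · rw [Function.update_self, Function.update_of_ne hij]
          exact hnew i (by omega)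
        · rw [Function.update_of_ne hiv, Function.update_of_ne hjv]
          exact hgood.disj i (by omega) j (by omega) hij
    · intro w hw
      have hcongr : ∀ w ≤ v, pre (Function.update blk v {g0, g1}) w = pre blk w := fun w hw =>
        pre_congr fun j hj => Function.update_of_ne (by omega) _ _
      rcases eq_or_ne w (v + 1) with rfl | hwv
      · rw [pre_succ, Function.update_self, hcongr v le_rfl]
        exact hstep
      · rw [hcongr w (by omega)]
        exact hcnt w (by omega)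

end Vale.Agent.P012
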